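import Mathlib

/-!
# P014 (A): integrals for the Gaussian kernel of weight one
-/

open MeasureTheory Set Complex Filter HurwitzZeta
open scoped ENNReal Real Classical Topology

namespace Vale.Agent.P014A

/-! ### series of integrable functions -/

theorem tsum_facts {α ι E : Type*} [MeasurableSpace α] {μ : Measure α} [Countable ι]
    [NormedAddCommGroup E] [CompleteSpace E] {F : ι → α → E} (hF : ∀ i, Integrable (F i) μ)
    (hs : Summable fun i => ∫ a, ‖F i a‖ ∂μ) :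
    (∀ᵐ a ∂μ, Summable fun i => F i a) ∧ Integrable (fun a => ∑' i, F i a) μ ∧
      ∫ a, ‖∑' i, F i a‖ ∂μ ≤ ∑' i, ∫ a, ‖F i a‖ ∂μ := by
  have h1 : ∀ i, ∫⁻ a, ‖F i a‖ₑ ∂μ = ENNReal.ofReal (∫ a, ‖F i a‖ ∂μ) := fun i =>
    (ofReal_integral_norm_eq_lintegral_enorm (hF i)).symm
  have h2 : ∫⁻ a, ∑' i, ‖F i a‖ₑ ∂μ = ENNReal.ofReal (∑' i, ∫ a, ‖F i a‖ ∂μ) := by
    rw [lintegral_tsum fun i => (hF i).1.enorm,
      ENNReal.ofReal_tsum_of_nonneg (fun i => integral_nonneg fun a => norm_nonneg _) hs]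
    simp only [h1]
  have h3 : ∫⁻ a, ‖∑' i, F i a‖ₑ ∂μ ≤ ENNReal.ofReal (∑' i, ∫ a, ‖F i a‖ ∂μ) :=
    h2 ▸ lintegral_mono fun a => enorm_tsum_le_tsum_enorm
  have h4 : Integrable (fun a => ∑' i, F i a) μ :=
    ⟨AEStronglyMeasurable.tsum fun i => (hF i).1, h3.trans_lt ENNReal.ofReal_lt_top⟩
  refine ⟨?_, h4, ?_⟩
  · have h5 := ae_lt_top' (AEMeasurable.tsum fun i => (hF i).1.enorm)
      (h2 ▸ ENNReal.ofReal_ne_top)
    filter_upwards [h5] with a ha
    exact Summable.of_nnnorm (ENNReal.tsum_coe_ne_top_iff_summable.mp ha.ne)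
  · rw [← ofReal_integral_norm_eq_lintegral_enorm h4] at h3
    exact (ENNReal.ofReal_le_ofReal_iff
      (tsum_nonneg fun i => integral_nonneg fun a => norm_nonneg _)).mp h3

theorem scale {h : ℝ → ℂ} (hh : IntegrableOn h (Ioi 0)) {y : ℝ} (hy : 0 < y) :
    IntegrableOn (fun t => (y : ℂ) * h (y * t)) (Ioi 0) ∧
      ∫ t in Ioi (0 : ℝ), (y : ℂ) * h (y * t) = ∫ t in Ioi (0 : ℝ), h t ∧
      ∫ t in Ioi (0 : ℝ), ‖(y : ℂ) * h (y * t)‖ = ∫ t in Ioi (0 : ℝ), ‖h t‖ := by
  have hy' : (y : ℂ) ≠ 0 := by exact_mod_cast hy.ne'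
  refine ⟨((integrableOn_Ioi_comp_mul_left_iff h 0 hy).mpr (by rwa [mul_zero])).const_mul _, ?_, ?_⟩
  · rw [integral_const_mul, integral_comp_mul_left_Ioi h 0 hy, mul_zero, real_smul, ← mul_assoc]
    push_cast
    rw [mul_inv_cancel₀ hy', one_mul]
  · simp only [norm_mul, norm_real, Real.norm_of_nonneg hy.le]
    rw [integral_const_mul, integral_comp_mul_left_Ioi (fun t => ‖h t‖) 0 hy, mul_zero,
      smul_eq_mul, ← mul_assoc, mul_inv_cancel₀ hy.ne', one_mul]

/-! ### an integral of Bessel type -/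

/-- the error function -/
noncomputable def erf (x : ℝ) : ℝ := ∫ v in (0 : ℝ)..x, Real.exp (-π * v ^ 2)

theorem erf_der (x : ℝ) : HasDerivAt erf (Real.exp (-π * x ^ 2)) x :=
  (Continuous.integral_hasStrictDerivAt (f := fun v : ℝ => Real.exp (-π * v ^ 2)) (by fun_prop)
    0 x).hasDerivAt

theorem erf_top : Tendsto erf atTop (𝓝 (1 / 2)) := by
  have h := intervalIntegral_tendsto_integral_Ioi (f := fun v : ℝ => Real.exp (-π * v ^ 2)) 0
    (integrable_exp_neg_mul_sq Real.pi_pos).integrableOn tendsto_id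
  rw [integral_gaussian_Ioi, div_self Real.pi_pos.ne', Real.sqrt_one] at h
  exact h

theorem erf_neg (x : ℝ) : erf (-x) = -erf x := by
  unfold erf
  have h := intervalIntegral.integral_comp_neg (a := 0) (b := x)
    (fun v : ℝ => Real.exp (-π * v ^ 2))
  simp only [neg_sq, neg_zero] at h
  rw [h, intervalIntegral.integral_symm]

/-- the sign -/
noncomputable def sg (x : ℝ) : ℝ := if 0 < x then 1 else -1

theorem lim_top {a : ℝ} (ha : 0 < a) (b : ℝ) :
    Tendsto (fun s : ℝ => erf (a * √s - b / √s)) atTop (𝓝 (1 / 2)) := by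
  refine erf_top.comp ?_
  have h1 : Tendsto (fun s : ℝ => √s) atTop atTop := Real.tendsto_sqrt_atTop
  have h2 : Tendsto (fun s : ℝ => -(b / √s)) atTop (𝓝 (-0)) := (h1.const_div_atTop b).neg
  exact (h1.const_mul_atTop ha).atTop_add h2

theorem lim_zero (a : ℝ) {b : ℝ} (hb : 0 < b) :
    Tendsto (fun s : ℝ => erf (b / √s - a * √s)) (𝓝[>] 0) (𝓝 (1 / 2)) := by
  refine erf_top.comp ?_
  have h1 : Tendsto (fun s : ℝ => √s) (𝓝[>] 0) (𝓝[>] 0) := by
    refine tendsto_nhdsWithin_iff.mpr ⟨?_, ?_⟩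
    · have := (Real.continuous_sqrt.tendsto 0).mono_left (nhdsWithin_le_nhds (s := Ioi 0))
      rwa [Real.sqrt_zero] at this
    · filter_upwards [self_mem_nhdsWithin] with s hs
      exact Real.sqrt_pos.mpr hs
  have h2 : Tendsto (fun s : ℝ => b / √s) (𝓝[>] 0) atTop := by
    simp only [div_eq_mul_inv]
    exact (tendsto_inv_nhdsGT_zero.comp h1).const_mul_atTop hb
  have h3 : Tendsto (fun s : ℝ => -(a * √s)) (𝓝[>] 0) (𝓝 (-(a * 0))) :=
    ((h1.mono_right nhdsWithin_le_nhds).const_mul a).neg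
  exact h2.atTop_add h3

theorem lim_top' {a : ℝ} (ha : a ≠ 0) (b : ℝ) :
    Tendsto (fun s : ℝ => erf (a * √s - b / √s)) atTop (𝓝 (sg a / 2)) := by
  unfold sg
  split_ifs with h
  · exact lim_top h b
  · have h1 := (lim_top (a := -a) (neg_pos.mpr (lt_of_le_of_ne (not_lt.mp h) ha)) (-b)).neg
    rw [neg_div]
    refine h1.congr fun s => ?_
    rw [← erf_neg]
    congr 1
    ring

theorem lim_zero' (a : ℝ) {b : ℝ} (hb : b ≠ 0) :
    Tendsto (fun s : ℝ => erf (a * √s - b / √s)) (𝓝[>] 0) (𝓝 (-(sg b / 2))) := by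
  unfold sg
  split_ifs with h
  · refine (lim_zero a h).neg.congr fun s => ?_
    rw [← erf_neg]
    congr 1
    ring
  · have h1 := lim_zero (-a) (b := -b) (neg_pos.mpr (lt_of_le_of_ne (not_lt.mp h) hb))
    rw [neg_div, neg_neg]
    refine h1.congr fun s => ?_
    congr 1
    ring

/-- the integrand -/
noncomputable def bk (a b s : ℝ) : ℝ :=
  (a / √s + b / (s * √s)) * Real.exp (-(π * (a ^ 2 * s + b ^ 2 / s)))

theorem bk_der (a b : ℝ) {s : ℝ} (hs : 0 < s) :
    HasDerivAt (fun s : ℝ => 2 * Real.exp (-(2 * π * a * b)) * erf (a * √s - b / √s))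
      (bk a b s) s := by
  have h0 := Real.sqrt_pos.mpr hs
  have h1 := Real.hasDerivAt_sqrt hs.ne'
  have h2 := (h1.const_mul a).sub ((hasDerivAt_const s b).div h1 h0.ne')
  have h3 := ((erf_der (a * √s - b / √s)).comp s h2).const_mul
    (2 * Real.exp (-(2 * π * a * b)))
  refine h3.congr_deriv ?_
  have e : √s ^ 2 = s := Real.sq_sqrt hs.le
  unfold bk
  have e2 : Real.exp (-(π * (a ^ 2 * s + b ^ 2 / s))) =
      Real.exp (-(2 * π * a * b)) * Real.exp (-π * (a * √s - b / √s) ^ 2) := by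
    rw [← Real.exp_add]
    congr 1
    generalize √s = r at h0 e
    subst e
    field_simp
    ring
  rw [e2]
  generalize √s = r at h0 e
  subst e
  field_simp
  ring

theorem bk_abs (a b : ℝ) {s : ℝ} (hs : 0 < s) : |bk a b s| ≤ bk |a| |b| s := by
  have h0 := Real.sqrt_pos.mpr hs
  unfold bk
  rw [abs_mul, sq_abs, sq_abs, abs_of_pos (Real.exp_pos _)]
  refine mul_le_mul_of_nonneg_right ((abs_add_le _ _).trans (le_of_eq ?_)) (Real.exp_pos _).le
  rw [abs_div, abs_div, abs_of_pos h0, abs_of_pos (mul_pos hs h0)]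

theorem bk_int {a b : ℝ} (ha : a ≠ 0) (hb : b ≠ 0) : IntegrableOn (bk a b) (Ioi 0) ∧
    ∫ s in Ioi (0 : ℝ), bk a b s = (sg a + sg b) * Real.exp (-(2 * π * a * b)) := by
  have key : ∀ a b : ℝ, a ≠ 0 → b ≠ 0 → ∃ F : ℝ → ℝ, ContinuousWithinAt F (Ici 0) 0 ∧
      (∀ s ∈ Ioi (0 : ℝ), HasDerivAt F (bk a b s) s) ∧
      Tendsto F atTop (𝓝 (2 * Real.exp (-(2 * π * a * b)) * (sg a / 2))) ∧
      F 0 = 2 * Real.exp (-(2 * π * a * b)) * -(sg b / 2) := by
    intro a b ha hb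
    set G : ℝ → ℝ := fun s => 2 * Real.exp (-(2 * π * a * b)) * erf (a * √s - b / √s) with hG
    set L : ℝ := 2 * Real.exp (-(2 * π * a * b)) * -(sg b / 2) with hL
    have he : ∀ s : ℝ, 0 < s → Function.update G 0 L s = G s := fun s hs =>
      Function.update_of_ne hs.ne' _ _
    refine ⟨Function.update G 0 L, ?_, fun s hs => ?_, ?_, Function.update_self _ _ _⟩
    · rw [← continuousWithinAt_Ioi_iff_Ici, ContinuousWithinAt, Function.update_self]
      refine ((lim_zero' a hb).const_mul _).congr' ?_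
      filter_upwards [self_mem_nhdsWithin] with s hs
      exact (he s hs).symm
    · refine (bk_der a b hs).congr_of_eventuallyEq ?_
      filter_upwards [Ioi_mem_nhds hs] with u hu
      exact he u hu
    · refine ((lim_top' ha b).const_mul _).congr' ?_
      filter_upwards [eventually_gt_atTop 0] with s hs
      exact (he s hs).symm
  have h1 : IntegrableOn (bk a b) (Ioi 0) := by
    obtain ⟨F, f1, f2, f3, -⟩ := key |a| |b| (abs_ne_zero.mpr ha) (abs_ne_zero.mpr hb)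
    have h2 := integrableOn_Ioi_deriv_of_nonneg f1 f2
      (fun s hs => (abs_nonneg _).trans (bk_abs a b hs)) f3
    refine Integrable.mono' h2 (Measurable.aestronglyMeasurable (by unfold bk; fun_prop)) ?_
    exact (ae_restrict_iff' measurableSet_Ioi).mpr (Eventually.of_forall fun s hs => bk_abs a b hs)
  obtain ⟨F, f1, f2, f3, f4⟩ := key a b ha hb
  refine ⟨h1, ?_⟩
  rw [integral_Ioi_of_hasDerivAt_of_tendsto f1 f2 h1 f3, f4]
  ring

theorem bk_norm {a b : ℝ} (ha : a ≠ 0) (hb : b ≠ 0) :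
    ∫ s in Ioi (0 : ℝ), |bk a b s| ≤ 2 * Real.exp (-(2 * π * |a| * |b|)) := by
  obtain ⟨h1, h2⟩ := bk_int (abs_ne_zero.mpr ha) (abs_ne_zero.mpr hb)
  have h3 := setIntegral_mono_on (bk_int ha hb).1.abs h1 measurableSet_Ioi
    fun s hs => bk_abs a b hs
  rw [h2, sg, sg, if_pos (abs_pos.mpr ha), if_pos (abs_pos.mpr hb)] at h3
  linarith

/-! ### residue classes -/

/-- division with remainder -/
def decZ (N : ℕ) [NeZero N] : ZMod N × ℤ ≃ ℤ where
  toFun p := p.1.val + N * p.2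
  invFun d := ((d : ZMod N), d / N)
  left_inv p := by
    have hN : (N : ℤ) ≠ 0 := by exact_mod_cast NeZero.ne N
    refine Prod.ext (by simp) ?_
    show ((p.1.val : ℤ) + N * p.2) / N = p.2
    rw [Int.add_mul_ediv_left _ _ hN, Int.ediv_eq_zero_of_lt (by positivity)
      (by exact_mod_cast ZMod.val_lt p.1), zero_add]
  right_inv d := by
    show (((d : ZMod N).val : ℕ) : ℤ) + N * (d / N) = d
    rw [ZMod.val_intCast]
    exact Int.emod_add_mul_ediv d N

theorem tsum_mod (N : ℕ) [NeZero N] {F : ℤ → ℂ} (hF : Summable F) :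
    ∑' d, F d = ∑ r : ZMod N, ∑' j : ℤ, F (r.val + N * j) := by
  have hs : Summable fun p : ZMod N × ℤ => F (decZ N p) := (decZ N).summable_iff.mpr hF
  rw [← (decZ N).tsum_eq, hs.tsum_prod, tsum_fintype]
  rfl

/-- Poisson summation on a residue class -/
theorem poisson_cls {N : ℕ} (hN : 0 < N) (u a : ℝ) {s : ℝ} (hs : 0 < s) :
    HasSum (fun k : ℤ => -I / N * cexp (2 * π * I * (u / N : ℝ) * k) * bk a (k / N) s)
      (∑' j : ℤ, ((u + N * j : ℝ) - I * a) *
        Real.exp (-(π * s * ((u + N * j) ^ 2 + a ^ 2)))) := by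
  have hN' : (0 : ℝ) < N := by exact_mod_cast hN
  have hNc : (N : ℂ) ≠ 0 := by exact_mod_cast hN.ne'
  have hx : 0 < s * N ^ 2 := by positivity
  have h0 := Real.sqrt_pos.mpr hs
  have h1 := hasSum_ofReal.mpr (hasSum_int_oddKernel (u / N) hx)
  have h2 := hasSum_ofReal.mpr (hasSum_int_evenKernel (u / N) hx)
  have h3 := ((h1.mul_left (N : ℂ)).sub (h2.mul_left (I * a))).mul_left
    ((Real.exp (-(π * s * a ^ 2)) : ℝ) : ℂ)
  have h4 : HasSum (fun j : ℤ => (((u + N * j : ℝ) : ℂ) - I * a) *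
      Real.exp (-(π * s * ((u + N * j) ^ 2 + a ^ 2)))) _ := h3.congr_fun fun j => by
    rw [show -(π * s * ((u + N * j) ^ 2 + a ^ 2)) =
      -(π * s * a ^ 2) + -π * (j + u / N) ^ 2 * (s * N ^ 2) by field_simp; ring, Real.exp_add]
    push_cast
    field_simp
    ring
  rw [h4.tsum_eq, oddKernel_functional_equation, evenKernel_functional_equation]
  have h5 := hasSum_int_sinKernel (u / N) (one_div_pos.mpr hx)
  have h6 := hasSum_int_cosKernel (u / N) (one_div_pos.mpr hx)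
  have e1 : (s * N ^ 2) ^ (1 / 2 : ℝ) = √s * N := by
    rw [← Real.sqrt_eq_rpow, Real.sqrt_mul hs.le, Real.sqrt_sq hN'.le]
  have e2 : (s * N ^ 2) ^ (3 / 2 : ℝ) = s * N ^ 2 * (√s * N) := by
    rw [show (3 / 2 : ℝ) = 1 + 1 / 2 by norm_num, Real.rpow_add hx, Real.rpow_one, e1]
  rw [e1, e2]
  have h7 := (((h5.mul_left ((1 / (s * N ^ 2 * (√s * N)) : ℝ) : ℂ)).mul_left (N : ℂ)).sub
    ((h6.mul_left ((1 / (√s * N) : ℝ) : ℂ)).mul_left (I * a))).mul_left
    ((Real.exp (-(π * s * a ^ 2)) : ℝ) : ℂ)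
  simp only [ofReal_mul (1 / _)]
  refine h7.congr_fun fun k => ?_
  unfold bk
  rw [show -(π * (a ^ 2 * s + (k / N) ^ 2 / s)) =
    -(π * s * a ^ 2) + -π * k ^ 2 * (1 / (s * N ^ 2)) by field_simp; ring, Real.exp_add]
  have hs' : (s : ℂ) ≠ 0 := by exact_mod_cast hs.ne'
  have h0' : ((√s : ℝ) : ℂ) ≠ 0 := by exact_mod_cast h0.ne'
  push_cast
  field_simp
  ring

/-! ### odd theta functions -/

/-- the theta function of weight `3/2` -/
noncomputable def thO (ψ : ℤ → ℂ) (s : ℝ) : ℂ :=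
  ∑' d : ℤ, ψ d * ((d * Real.exp (-(π * s * d ^ 2)) : ℝ) : ℂ)

theorem summ_thO {ψ : ℤ → ℂ} (h : ∀ d, ‖ψ d‖ ≤ 1) {s : ℝ} (hs : 0 < s) :
    Summable fun d : ℤ => ψ d * ((d * Real.exp (-(π * s * d ^ 2)) : ℝ) : ℂ) := by
  have h1 := (hasSum_int_oddKernel 0 hs).summable.norm
  refine Summable.of_norm_bounded h1 fun d => ?_
  rw [norm_mul, norm_real, add_zero, show -π * (d : ℝ) ^ 2 * s = -(π * s * d ^ 2) by ring]
  exact mul_le_of_le_one_left (norm_nonneg _) (h d)

theorem thO_int {N : ℕ} (hN : 0 < N) {ψ : ℤ → ℂ} (h : ∀ d, ‖ψ d‖ ≤ 1)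
    (hp : ∀ d j : ℤ, ψ (d + N * j) = ψ d) :
    IntegrableOn (thO ψ) (Ioi 0) ∧ IntegrableOn (fun s => thO ψ s / (√s : ℝ)) (Ioi 0) := by
  have : NeZero N := ⟨hN.ne'⟩
  have hN' : (0 : ℝ) < N := by exact_mod_cast hN
  have hN2 : (0 : ℝ) < N ^ 2 := by positivity
  have e : ∀ s ∈ Ioi (0 : ℝ), ∑ r : ZMod N, ψ r.val * N *
      (oddKernel ((r.val / N : ℝ) : UnitAddCircle) (N ^ 2 * s) : ℝ) = thO ψ s := by
    intro s hs
    have hs' : 0 < s := hs
    unfold thO
    rw [tsum_mod N (summ_thO h hs)]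
    refine Finset.sum_congr rfl fun r _ => ?_
    have h1 := (hasSum_ofReal.mpr (hasSum_int_oddKernel (r.val / N)
      (x := N ^ 2 * s) (by positivity))).mul_left (ψ r.val * N)
    rw [← h1.tsum_eq]
    refine tsum_congr fun j => ?_
    rw [hp, mul_assoc]
    congr 1
    rw [← ofReal_natCast, ← ofReal_mul]
    congr 1
    rw [show -π * ((j : ℝ) + r.val / N) ^ 2 * (N ^ 2 * s) =
      -(π * s * ((r.val + N * j : ℤ) : ℝ) ^ 2) by push_cast; field_simp; ring]
    push_cast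
    field_simp
    ring
  have m1 : ∀ a : UnitAddCircle, IntegrableOn (fun s => ((oddKernel a s : ℝ) : ℂ)) (Ioi 0) := by
    intro a
    have := ((isStrong_hurwitzOddFEPair a).hasMellin 1).1
    unfold MellinConvergent at this
    simpa [hurwitzOddFEPair] using this
  have m2 : ∀ a : UnitAddCircle,
      IntegrableOn (fun s => ((oddKernel a s : ℝ) : ℂ) / (√s : ℝ)) (Ioi 0) := by
    intro a
    have := ((isStrong_hurwitzOddFEPair a).hasMellin (1 / 2)).1
    unfold MellinConvergent at this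
    refine this.congr_fun (fun s hs => ?_) measurableSet_Ioi
    have hs' : 0 < s := hs
    simp only [hurwitzOddFEPair, Function.comp_apply, smul_eq_mul]
    rw [show (1 / 2 - 1 : ℂ) = ((-(1 / 2) : ℝ) : ℂ) by push_cast; ring, ← ofReal_cpow hs'.le,
      Real.rpow_neg hs'.le, ← Real.sqrt_eq_rpow]
    push_cast
    ring
  constructor
  · refine IntegrableOn.congr_fun (integrable_finsetSum _ fun r _ => Integrable.const_mul ?_ _) e
      measurableSet_Ioi
    exact (integrableOn_Ioi_comp_mul_left_iff (fun s => ((oddKernel _ s : ℝ) : ℂ)) 0 hN2).mpr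
      (by rw [mul_zero]; exact m1 _)
  · have i1 : IntegrableOn (fun s => ∑ r : ZMod N, ψ r.val * N * N *
        ((oddKernel ((r.val / N : ℝ) : UnitAddCircle) (N ^ 2 * s) : ℝ) / (√(N ^ 2 * s) : ℝ)))
        (Ioi 0) := by
      refine integrable_finsetSum _ fun r _ => Integrable.const_mul ?_ _
      exact (integrableOn_Ioi_comp_mul_left_iff
        (fun s => ((oddKernel _ s : ℝ) : ℂ) / (√s : ℝ)) 0 hN2).mpr (by rw [mul_zero]; exact m2 _)
    refine i1.congr_fun (fun s hs => ?_) measurableSet_Ioi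
    beta_reduce
    rw [← e s hs, Finset.sum_div]
    refine Finset.sum_congr rfl fun r _ => ?_
    have hNc : (N : ℂ) ≠ 0 := by exact_mod_cast hN.ne'
    rw [Real.sqrt_mul hN2.le, Real.sqrt_sq hN'.le]
    push_cast
    field_simp

end Vale.Agent.P014A
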