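import Vale.Agent.P014A.Ide

/-!
# P014 (A): the trace from level `17 n` to level `17` of a product of two binary theta series
-/

open UpperHalfPlane hiding I
open NumberField Complex CongruenceSubgroup
open scoped Classical Real MatrixGroups

namespace Vale.Agent.P014A

open Vale.Agent.P017.H185 Vale.Agent.P014.H70
open Vale.Agent.P014.H70.Dat (vH vH_apply vH_inj)
open Vale.Agent.P014.H70.Lat (ind)
open Vale.Agent.P014B (thB thW wt)
open WD (e0 e0_ne)

/-! ### lifting rows -/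

theorem exists_cop {c d N : ℤ} (hc : c ≠ 0)
    (h : ∀ p : ℕ, p.Prime → (p : ℤ) ∣ c → (p : ℤ) ∣ d → ¬ (p : ℤ) ∣ N) :
    ∃ k : ℤ, IsCoprime c (d + k * N) := by
  set k : ℕ := ∏ p ∈ c.natAbs.primeFactors.filter (fun p : ℕ => ¬ (p : ℤ) ∣ d), p with hk
  refine ⟨k, ?_⟩
  rw [Int.isCoprime_iff_gcd_eq_one]
  by_contra hne
  obtain ⟨p, hp, hp2⟩ := Nat.exists_prime_and_dvd hne
  have h1 : (p : ℤ) ∣ c := (Int.natCast_dvd_natCast.mpr hp2).trans (Int.gcd_dvd_left _ _)
  have h2 : (p : ℤ) ∣ d + k * N := (Int.natCast_dvd_natCast.mpr hp2).trans (Int.gcd_dvd_right _ _)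
  by_cases h3 : (p : ℤ) ∣ d
  · have h4 : (p : ℤ) ∣ k * N := (dvd_add_right h3).mp h2
    rcases (Nat.prime_iff_prime_int.mp hp).dvd_or_dvd h4 with h5 | h5
    · rw [Int.natCast_dvd_natCast, hk] at h5
      obtain ⟨r, hr, hr2⟩ := (Prime.dvd_finsetProd_iff hp.prime _).mp h5
      rw [Finset.mem_filter] at hr
      have := (Nat.prime_dvd_prime_iff_eq hp (Nat.prime_of_mem_primeFactors hr.1)).mp hr2
      exact hr.2 (this ▸ h3)
    · exact h p hp h1 h3 h5
  · apply h3
    have h4 : p ∣ k := by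
      rw [hk]
      refine Finset.dvd_prod_of_mem _ (Finset.mem_filter.mpr ⟨?_, h3⟩)
      exact Nat.mem_primeFactors.mpr ⟨hp, Int.natCast_dvd.mp h1, Int.natAbs_ne_zero.mpr hc⟩
    exact (dvd_add_left (Dvd.dvd.mul_right (Int.natCast_dvd_natCast.mpr h4) N)).mp h2

theorem ract_e0 {ι : Type} {P : ι → ℕ} (g : SL(2, ℤ)) (i : ι) :
    ract (e0 P) g i = (((g 1 0 : ℤ) : ZMod (P i)), ((g 1 1 : ℤ) : ZMod (P i))) := by
  simp [ract, e0]

theorem lift_row {ι : Type} [Fintype ι] {P : ι → ℕ} [∀ i, Fact (P i).Prime]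
    (hinj : Function.Injective P) {v : Row P} (hv : ∀ i, v i ≠ 0) :
    ∃ g : SL(2, ℤ), ract (e0 P) g = v := by
  obtain ⟨c, hc⟩ := crt hinj fun i => (v i).1
  obtain ⟨d, hd⟩ := crt hinj fun i => (v i).2
  set N : ℕ := ∏ i, P i with hN
  have hN0 : 0 < N := Finset.prod_pos fun j _ => (Fact.out : (P j).Prime).pos
  have hNi : ∀ i, (N : ZMod (P i)) = 0 := fun i => by
    rw [ZMod.natCast_eq_zero_iff]
    exact Finset.dvd_prod_of_mem _ (Finset.mem_univ i)
  obtain ⟨c', hc0, hc'⟩ : ∃ c' : ℤ, c' ≠ 0 ∧ ∀ i, (c' : ZMod (P i)) = (v i).1 := by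
    by_cases h : c = 0
    · refine ⟨N, by exact_mod_cast hN0.ne', fun i => ?_⟩
      rw [← hc, h]
      push_cast
      exact hNi i
    · exact ⟨c, h, hc⟩
  obtain ⟨k, hk⟩ := exists_cop (d := d) (N := N) hc0 (by
    intro p hp h1 h2 h3
    rw [Int.natCast_dvd_natCast, hN] at h3
    obtain ⟨j, -, hj⟩ := (Prime.dvd_finsetProd_iff hp.prime _).mp h3
    have e := (Nat.prime_dvd_prime_iff_eq hp (Fact.out : (P j).Prime)).mp hj
    subst e
    apply hv j
    rw [← ZMod.intCast_zmod_eq_zero_iff_dvd] at h1 h2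
    exact Prod.ext (by rw [← hc', h1]; rfl) (by rw [← hd, h2]; rfl))
  obtain ⟨a, b, hab⟩ := hk
  refine ⟨⟨!![b, -a; c', d + k * N], by rw [Matrix.det_fin_two_of]; linarith⟩, ?_⟩
  funext i
  refine (ract_e0 _ i).trans (Prod.ext ?_ ?_)
  · show ((c' : ℤ) : ZMod (P i)) = _
    exact hc' i
  · show ((d + k * N : ℤ) : ZMod (P i)) = _
    push_cast
    rw [hNi, mul_zero, add_zero, hd]

theorem card_line {p : ℕ} [Fact p.Prime] {r : ZMod p × ZMod p} (hr : r ≠ 0) :
    (Finset.univ.filter fun x : ZMod p × ZMod p => x ≠ 0 ∧ r.1 * x.2 - r.2 * x.1 = 0).card =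
      p - 1 := by
  have hcard : (Finset.univ.filter fun d : ZMod p => d ≠ 0).card = p - 1 := by
    rw [Finset.filter_ne' Finset.univ (0 : ZMod p), Finset.card_erase_of_mem (Finset.mem_univ _),
      Finset.card_univ, ZMod.card]
  rw [← hcard]
  symm
  refine Finset.card_bij (fun t _ => t • r) ?_ ?_ ?_
  · intro t ht
    simp only [Finset.mem_filter, Finset.mem_univ, true_and] at ht ⊢
    refine ⟨smul_ne_zero ht hr, ?_⟩
    simp only [Prod.smul_fst, Prod.smul_snd, smul_eq_mul]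
    ring
  · intro t _ s _ h
    exact smul_left_injective (ZMod p) hr h
  · intro x hx
    simp only [Finset.mem_filter, Finset.mem_univ, true_and] at hx
    have key : ∃ t : ZMod p, t • r = x := by
      by_cases h1 : r.1 = 0
      · have h2 : r.2 ≠ 0 := fun h => hr (Prod.ext h1 h)
        refine ⟨x.2 / r.2, Prod.ext ?_ ?_⟩
        · have := hx.2
          rw [h1, zero_mul, zero_sub, neg_eq_zero, mul_eq_zero, or_iff_right h2] at this
          simp [h1, this]
        · simp [h2]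
      · refine ⟨x.1 / r.1, Prod.ext ?_ ?_⟩
        · simp [h1]
        · simp only [Prod.smul_snd, smul_eq_mul]
          field_simp
          linear_combination -hx.2
    obtain ⟨t, ht⟩ := key
    refine ⟨t, ?_, ht⟩
    simp only [Finset.mem_filter, Finset.mem_univ, true_and]
    rintro rfl
    exact hx.1 (by rw [← ht, zero_smul])

/-! ### the primes -/

/-- the primes of `n` -/
def P0 (n : ℕ) : n.primeFactors → ℕ := fun i => i.1

/-- the primes of `17 n` -/
def P1 (n : ℕ) : Option n.primeFactors → ℕ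
  | none => 17
  | some i => P0 n i

instance (n : ℕ) (i : n.primeFactors) : Fact (P0 n i).Prime :=
  ⟨Nat.prime_of_mem_primeFactors i.2⟩

instance (n : ℕ) (o : Option n.primeFactors) : Fact (P1 n o).Prime :=
  ⟨match o with
    | none => (by norm_num : Nat.Prime 17)
    | some i => Nat.prime_of_mem_primeFactors i.2⟩

theorem P0_inj (n : ℕ) : Function.Injective (P0 n) := Subtype.val_injective

theorem P0_dvd {n : ℕ} (i : n.primeFactors) : P0 n i ∣ n := Nat.dvd_of_mem_primeFactors i.2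

theorem P1_inj {n : ℕ} (h : ¬ 17 ∣ n) : Function.Injective (P1 n) := by
  rintro (_ | i) (_ | j) e
  · rfl
  · exact absurd ((show 17 = P0 n j from e) ▸ P0_dvd j) h
  · exact absurd ((show P0 n i = 17 from e) ▸ P0_dvd i) h
  · rw [P0_inj n e]

theorem prod_P0 {n : ℕ} (h : Squarefree n) : ∏ i, P0 n i = n := by
  unfold P0
  rw [Finset.prod_coe_sort n.primeFactors (fun i => i)]
  exact Nat.prod_primeFactors_of_squarefree h

theorem prod_P1 {n : ℕ} (h : Squarefree n) : ∏ o, P1 n o = 17 * n := by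
  rw [Fintype.prod_option]
  exact congrArg (17 * ·) (prod_P0 h)

theorem chi_int {p : ℕ} [Fact p.Prime] (k : ℤ) : chi p (k : ZMod p) = jacobiSym k p := by
  rw [chi_apply, ← jacobiSym.legendreSym.to_jacobiSym]
  rfl

theorem jac_prod {ι : Type} (s : Finset ι) (P : ι → ℕ) (hP : ∀ i, P i ≠ 0) (k : ℤ) :
    jacobiSym k (∏ i ∈ s, P i) = ∏ i ∈ s, jacobiSym k (P i) := by
  induction s using Finset.induction_on with
  | empty => simp
  | insert i s hi ih =>
    rw [Finset.prod_insert hi, Finset.prod_insert hi, ← ih,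
      jacobiSym.mul_right' _ (hP i) (Finset.prod_ne_zero_iff.mpr fun j _ => hP j)]

theorem prod_chi {n : ℕ} (h : Squarefree n) (k : ℤ) :
    ∏ i, chi (P0 n i) (k : ZMod (P0 n i)) = jacobiSym k n := by
  simp only [chi_int]
  rw [← Int.cast_prod, ← jac_prod _ _ (fun i => (Fact.out : (P0 n i).Prime).ne_zero), prod_P0 h]

theorem mem_G0 {N : ℕ} {g : SL(2, ℤ)} : g ∈ Gamma0 N ↔ (N : ℤ) ∣ g 1 0 := by
  rw [Gamma0_mem, ZMod.intCast_zmod_eq_zero_iff_dvd]

variable {K : Type} [Field K] [NumberField K] {n : ℕ}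

theorem exists_div (q : QF K n) {m : ℕ} (hm : Odd m) {z : 𝓞 K} (h1 : (m : ℤ) ∣ (crd q z).1)
    (h2 : (m : ℤ) ∣ (crd q z).2) : ∃ y, z = m * y := by
  obtain ⟨c1, hc1⟩ := h1
  obtain ⟨c2, hc2⟩ := h2
  have e1 : (2 : 𝓞 K) * z = m * ((c1 : 𝓞 K) + c2 * q.t) := by
    apply crd_inj q
    have a1 := crd_int q 2 z
    have a2 := crd_int q m ((c1 : 𝓞 K) + c2 * q.t)
    push_cast at a1 a2
    rw [a1, a2, crd_lin]
    refine Prod.ext ?_ ?_
    · simp only [Prod.smul_fst, smul_eq_mul]; rw [hc1]; ring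
    · simp only [Prod.smul_snd, smul_eq_mul]; rw [hc2]; ring
  obtain ⟨k, hk⟩ := hm
  have hk' : (m : 𝓞 K) = 2 * k + 1 := by rw [hk]; push_cast; ring
  exact ⟨z - k * ((c1 : 𝓞 K) + c2 * q.t), by
    linear_combination (-z) * hk' + (-(k : 𝓞 K)) * e1⟩

/-- a pair of ideals whose norms are squares in the sense of Jacobi -/
structure Pr (q : QF K n) where
  X : Ideal (𝓞 K)
  Y : Ideal (𝓞 K)
  a : ℕ
  b : ℕ
  ha : 0 < a
  hb : 0 < b
  hX : q.HasN X a
  hY : q.HasN Y b
  hn4 : n % 4 = 3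
  h17 : jacobiSym n 17 = -1
  hac : Nat.Coprime a (17 * n)
  hbc : Nat.Coprime b (17 * n)
  hJa : jacobiSym a n = 1
  hJb : jacobiSym b n = 1

theorem not_17 (h : jacobiSym n 17 = -1) : ¬ 17 ∣ n := by
  intro h1
  have : jacobiSym n 17 = 0 := by
    rw [jacobiSym.mod_left, show (n : ℤ) % (17 : ℕ) = 0 by omega]
    norm_num
  omega

theorem J_neg_one (hn4 : n % 4 = 3) : jacobiSym (-1) n = -1 := by
  rw [jacobiSym.at_neg_one (by rw [Nat.odd_iff]; omega), ZMod.χ₄_nat_three_mod_four hn4]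

theorem J_17 (hn4 : n % 4 = 3) (h : jacobiSym n 17 = -1) : jacobiSym 17 n = -1 := by
  have := jacobiSym.quadratic_reciprocity_one_mod_four (a := 17) (b := n) (by norm_num)
    (by rw [Nat.odd_iff]; omega)
  rw [← h]
  exact_mod_cast this

namespace Pr

variable {q : QF K n} (E : Pr q)

/-- level `n` -/
def d0 : Dt q where
  X := E.X
  Y := E.Y
  a := E.a
  b := E.b
  m := 1
  ha := E.ha
  hb := E.hb
  hX := E.hX
  hY := E.hY
  hn4 := E.hn4
  hamn := by rw [one_mul]; exact E.hac.coprime_mul_left_right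
  hbmn := by rw [one_mul]; exact E.hbc.coprime_mul_left_right
  hmn := Nat.coprime_one_left _
  hm2 := odd_one
  hm := squarefree_one

/-- level `17 n` -/
def d1 : Dt q where
  X := E.X
  Y := E.Y
  a := E.a
  b := E.b
  m := 17
  ha := E.ha
  hb := E.hb
  hX := E.hX
  hY := E.hY
  hn4 := E.hn4
  hamn := E.hac
  hbmn := E.hbc
  hmn := (Nat.Prime.coprime_iff_not_dvd (by norm_num)).mpr (not_17 E.h17)
  hm2 := by decide
  hm := (by norm_num : Nat.Prime 17).prime.squarefree

theorem hp0 : ∏ i, P0 n i = E.d0.m * n := by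
  rw [prod_P0 q.hd]; exact (one_mul n).symm

theorem hg0' : ∏ i, chi (P0 n i) (-(E.d0.m * E.d0.a * E.d0.b)) = -1 := by
  have h := prod_chi q.hd (-1 * (E.a * E.b))
  rw [jacobiSym.mul_left, jacobiSym.mul_left, E.hJa, E.hJb, J_neg_one E.hn4] at h
  refine Eq.trans (Finset.prod_congr rfl fun i _ => ?_) (h.trans (by norm_num))
  congr 1
  show -(((1 : ℕ) : ZMod (P0 n i)) * E.a * E.b) = _
  push_cast
  ring

theorem hg0 : ∏ i, chi (P0 n i)
    (if P0 n i ∣ n then -(E.d0.m * E.d0.a * E.d0.b) else -n) = -1 := by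
  simp only [P0_dvd, if_true]
  exact E.hg0'

/-- the lattice of level `n` -/
noncomputable def w0 : WD (P0 n) := E.d0.wd (P0_inj n) E.hp0 E.hg0

theorem hp1 : ∏ o, P1 n o = E.d1.m * n := prod_P1 q.hd

theorem hg1 : ∏ o, chi (P1 n o)
    (if P1 n o ∣ n then -(E.d1.m * E.d1.a * E.d1.b) else -n) = -1 := by
  rw [Fintype.prod_option]
  have h1 : ¬ P1 n none ∣ n := not_17 E.h17
  have h2 : chi (P1 n none) (-n) = -1 := by
    have := chi_int (p := P1 n none) (-1 * n)
    rw [jacobiSym.mul_left] at this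
    have e1 : jacobiSym (-1) (P1 n none) = 1 := by
      show jacobiSym (-1) 17 = 1
      norm_num
    have e2 : jacobiSym n (P1 n none) = -1 := E.h17
    rw [e1, e2] at this
    push_cast at this
    rw [neg_one_mul] at this
    rw [this]
  have h := prod_chi q.hd (-1 * (17 * (E.a * E.b)))
  rw [jacobiSym.mul_left, jacobiSym.mul_left, jacobiSym.mul_left, E.hJa, E.hJb, J_neg_one E.hn4,
    J_17 E.hn4 E.h17] at h
  have h3 : ∏ i, chi (P1 n (some i)) (if P1 n (some i) ∣ n then -(E.d1.m * E.d1.a * E.d1.b)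
      else -n) = 1 := by
    refine Eq.trans (Finset.prod_congr rfl fun i _ => ?_) (h.trans (by norm_num))
    rw [if_pos (show P1 n (some i) ∣ n from P0_dvd i)]
    show chi (P0 n i) (-(((17 : ℕ) : ZMod (P0 n i)) * E.a * E.b)) = _
    congr 1
    push_cast
    ring
  rw [if_neg h1, h2, h3, mul_one]

/-- the lattice of level `17 n` -/
noncomputable def w1 : WD (P1 n) := E.d1.wd (P1_inj (not_17 E.h17)) E.hp1 E.hg1

theorem Ps0 {v : Row (P0 n)} (hv : ∀ i, (v i).1 = 0) {τ : ℂ} (hτ : 0 < τ.im) :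
    E.w0.Ps v τ = thB q E.X E.a τ * thB q E.Y E.b τ := by
  rw [E.w0.Ps_zero hv]
  have := E.d0.thL_eq hτ
  rw [show ((E.d0.m : ℕ) : ℂ) * τ = τ by simp [d0]] at this
  exact this

theorem Ps1 {v : Row (P1 n)} (hv : ∀ i, (v i).1 = 0) {τ : ℂ} (hτ : 0 < τ.im) :
    E.w1.Ps v τ = thB q E.X E.a τ * thB q E.Y E.b (17 * τ) := by
  rw [E.w1.Ps_zero hv]
  have := E.d1.thL_eq hτ
  rw [show ((E.d1.m : ℕ) : ℂ) * τ = 17 * τ by simp [d1]] at this
  exact this

theorem mob0 (g : SL(2, ℤ)) (z : ℍ) : thB q E.X E.a (g • z : ℍ) * thB q E.Y E.b (g • z : ℍ) =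
    denom g z ^ 2 * E.w0.Ps (ract (e0 _) g) z := by
  rw [← E.Ps0 (v := e0 _) (fun _ => rfl) (g • z).im_pos, E.w0.Ps_mob e0_ne]

theorem mob1 (g : SL(2, ℤ)) (z : ℍ) :
    thB q E.X E.a (g • z : ℍ) * thB q E.Y E.b (17 * (g • z : ℍ)) =
      denom g z ^ 2 * E.w1.Ps (ract (e0 _) g) z := by
  rw [← E.Ps1 (v := e0 _) (fun _ => rfl) (g • z).im_pos, E.w1.Ps_mob e0_ne]

theorem inv0 {g : SL(2, ℤ)} (hg : g ∈ Gamma0 n) (z : ℍ) :
    thB q E.X E.a (g • z : ℍ) * thB q E.Y E.b (g • z : ℍ) =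
      denom g z ^ 2 * (thB q E.X E.a z * thB q E.Y E.b z) := by
  rw [E.mob0, E.Ps0 _ z.im_pos]
  intro i
  rw [ract_e0]
  show ((g 1 0 : ℤ) : ZMod (P0 n i)) = 0
  rw [ZMod.intCast_zmod_eq_zero_iff_dvd]
  exact (Int.natCast_dvd_natCast.mpr (P0_dvd i)).trans (mem_G0.mp hg)

theorem bdd0 : ∃ C : ℝ, ∀ (g : SL(2, ℤ)) (z : ℍ), 1 / 2 ≤ z.im →
    ‖thB q E.X E.a (g • z : ℍ) * thB q E.Y E.b (g • z : ℍ)‖ ≤ C * ‖denom g z‖ ^ 2 := by
  obtain ⟨C, hC⟩ := E.w0.Ps_bdd
  refine ⟨C, fun g z hz => ?_⟩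
  rw [E.mob0, norm_mul, norm_pow, mul_comm]
  exact mul_le_mul_of_nonneg_right (hC _ _ hz) (by positivity)

end Pr

/-- the sets of rows -/
noncomputable def sR (n : ℕ) : ∀ o : Option n.primeFactors,
    Finset (ZMod (P1 n o) × ZMod (P1 n o))
  | none => Finset.univ.filter fun v => v ≠ 0 ∧ v.1 = 0
  | some _ => Finset.univ.filter fun v => v ≠ 0

theorem sR_ne {o : Option n.primeFactors} {x : ZMod (P1 n o) × ZMod (P1 n o)} (h : x ∈ sR n o) :
    x ≠ 0 := by
  cases o with
  | none => exact (Finset.mem_filter.mp h).2.1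
  | some i => exact (Finset.mem_filter.mp h).2

/-- the number of rows on a line -/
def cN (n : ℕ) : ℕ := ∏ o, (P1 n o - 1)

theorem cN_pos : 0 < cN n := Finset.prod_pos fun o _ => by
  have := (Fact.out : (P1 n o).Prime).one_lt
  omega

theorem cN_cast : (cN n : ℂ) = ((17 : ℕ) - 1) * ∏ i, ((P0 n i : ℂ) - 1) := by
  unfold cN
  rw [Fintype.prod_option, Nat.cast_mul, Nat.cast_prod]
  congr 1
  · show ((17 - 1 : ℕ) : ℂ) = _
    norm_num
  · refine Finset.prod_congr rfl fun i _ => ?_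
    show ((P0 n i - 1 : ℕ) : ℂ) = _
    rw [Nat.cast_sub (Fact.out : (P0 n i).Prime).one_lt.le, Nat.cast_one]

namespace Pr

variable {q : QF K n} (E : Pr q)

theorem sum0 {τ : ℂ} (hτ : 0 < τ.im) :
    ∑ v ∈ Fintype.piFinset (sR n), E.w0.Ps (fun i => v (some i)) τ = 0 := by
  obtain ⟨j, hj⟩ : ∃ j, gam (E.w0.al j) (E.w0.be j) = -1 := by
    by_contra h
    push Not at h
    have h1 : ∀ j, gam (E.w0.al j) (E.w0.be j) = 1 := fun j => by
      have := gam_sq (E.w0.hal j) (E.w0.hbe j)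
      exact (sq_eq_one_iff.mp this).resolve_right (h j)
    have h2 := E.w0.hgam
    simp only [h1, Finset.prod_const_one] at h2
    norm_num at h2
  unfold WD.Ps
  rw [E.w0.th_sum _ _ hτ]
  have : (fun ν : Row (P0 n) => ∑ v ∈ Fintype.piFinset (sR n),
      ∏ i, ph (E.w0.al i) (E.w0.be i) (v (some i)) (ν i)) = fun ν => 0 * 0 := by
    funext ν
    set F : ∀ o : Option n.primeFactors, ZMod (P1 n o) × ZMod (P1 n o) → ℂ := fun o =>
      match o with
      | none => fun _ => 1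
      | some i => fun x => ph (E.w0.al i) (E.w0.be i) x (ν i) with hF
    have e1 : ∀ v : Row (P1 n), ∏ i, ph (E.w0.al i) (E.w0.be i) (v (some i)) (ν i) =
        ∏ o, F o (v o) := fun v => by rw [Fintype.prod_option]; exact (one_mul _).symm
    simp only [e1]
    rw [← Finset.prod_univ_sum, zero_mul]
    refine Finset.prod_eq_zero (Finset.mem_univ (some j)) ?_
    have e2 := sum_ph (E.w0.al j) (E.w0.be j) (ν j)
    refine e2.trans ?_
    rw [hj]
    have e3 : Qp (E.w0.al j) (E.w0.be j) (ν j) = 0 ↔ ν j = 0 := by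
      refine ⟨fun h => ?_, fun h => by rw [h]; simp [Qp]⟩
      by_contra hne
      have hα := E.w0.hal j
      have hβ := E.w0.hbe j
      unfold Qp at h
      have h2 : (ν j).2 ≠ 0 := by
        intro h2
        rw [h2] at h
        simp only [ne_eq, OfNat.ofNat_ne_zero, not_false_eq_true, zero_pow, mul_zero, add_zero,
          mul_eq_zero, hα, false_or, pow_eq_zero_iff] at h
        exact hne (Prod.ext h h2)
      have h1 : (ν j).1 ≠ 0 := by
        intro h1
        rw [h1] at h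
        simp only [ne_eq, OfNat.ofNat_ne_zero, not_false_eq_true, zero_pow, mul_zero, zero_add,
          mul_eq_zero, hβ, false_or, pow_eq_zero_iff] at h
        exact h2 h
      have h3 : -(E.w0.al j * E.w0.be j) = (E.w0.al j * (ν j).1 / (ν j).2) ^ 2 := by
        field_simp
        linear_combination -h
      unfold gam at hj
      rw [h3, map_pow, chi_sq (div_ne_zero (mul_ne_zero hα h1) h2)] at hj
      norm_num at hj
    simp only [e3]
    ring
  rw [this, E.w0.th_smul, zero_mul]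

theorem sum1 {τ : ℂ} (hτ : 0 < τ.im) :
    ∑ v ∈ Fintype.piFinset (sR n), E.w1.Ps v τ = cN n * thW q E.X E.Y E.a E.b τ := by
  have hn : (n : ℂ) ≠ 0 := by exact_mod_cast q.d_pos.ne'
  have ha : (E.a : ℂ) ≠ 0 := by exact_mod_cast E.ha.ne'
  have hb : (E.b : ℂ) ≠ 0 := by exact_mod_cast E.hb.ne'
  have h17 : ¬ P1 n none ∣ n := not_17 E.h17
  rw [E.w1.Ps_sum _ hτ]
  set j : E.X × E.Y → V := fun p => vH q (p.1, 17 * p.2) with hj
  have hinj : Function.Injective j := by
    intro p p' h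
    have h1 := vH_inj h
    rw [Prod.mk.injEq] at h1
    exact Prod.ext (Subtype.ext h1.1) (Subtype.ext (mul_left_cancel₀ (by norm_num) h1.2))
  have crd17 : ∀ y : 𝓞 K, crd q (17 * y) = (17 : ℤ) • crd q y := fun y => by
    rw [← crd_int]; simp
  unfold WD.th thW
  rw [← hinj.tsum_eq, ← tsum_mul_left]
  · refine tsum_congr fun p => ?_
    have hD : j p ∈ E.w1.D := ⟨(p.1, 17 * p.2), ⟨p.1.2, E.Y.mul_mem_left _ p.2.2⟩, rfl⟩
    have hgg : gg τ E.w1.t (j p) = cexp (2 * π * I * τ *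
        ((((q.N p.1 : ℝ) / E.a + 17 * (q.N p.2 : ℝ) / E.b) / n : ℝ))) := by
      have := E.d1.gg_vH τ (p.1, 17 * p.2)
      refine this.trans ?_
      congr 2
      have e : q.N (17 * (p.2 : 𝓞 K)) = 17 ^ 2 * q.N p.2 := by
        have := N_mul' q ((17 : ℕ) : 𝓞 K) p.2
        rw [N_nat] at this
        exact_mod_cast this
      simp only [e, d1]
      push_cast
      field_simp
      ring
    rw [hgg, ← mul_assoc]
    congr 1
    simp only [ind, if_pos hD, one_mul]
    rw [Fintype.prod_option, cN_cast, mul_assoc]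
    have hz : E.w1.pr (j p) none = 0 := by
      show Dt.prH n (P1 n) (vH q (p.1, 17 * p.2)) none = 0
      rw [Dt.prH_apply, if_neg h17, vH_apply, crd17]
      refine Prod.ext ?_ ?_
      · show (((17 : ℤ) * (crd q p.2).1 : ℤ) : ZMod 17) = 0
        rw [ZMod.intCast_zmod_eq_zero_iff_dvd]; exact Dvd.intro _ rfl
      · show (((17 : ℤ) * (crd q p.2).2 : ℤ) : ZMod 17) = 0
        rw [ZMod.intCast_zmod_eq_zero_iff_dvd]; exact Dvd.intro _ rfl
    congr 1
    · refine (sum_ph0 _ _ _).trans ?_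
      rw [if_pos hz, mul_one]
      rfl
    · unfold wt
      rw [← Finset.prod_coe_sort n.primeFactors, Int.cast_prod, ← Finset.prod_mul_distrib]
      refine Finset.prod_congr rfl fun i _ => ?_
      refine (sum_ph _ _ _).trans ?_
      have hi : P1 n (some i) ∣ n := P0_dvd i
      have h17' : (17 : ZMod (P1 n (some i))) ≠ 0 := by
        have : ((17 : ℕ) : ZMod (P1 n (some i))) ≠ 0 := by
          rw [Ne, ZMod.natCast_eq_zero_iff]
          intro h
          have := (Nat.prime_dvd_prime_iff_eq (Fact.out : (P1 n (some i)).Prime)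
            (by norm_num : Nat.Prime 17)).mp h
          exact h17 (show 17 ∣ n from this ▸ hi)
        exact_mod_cast this
      have hpr : E.w1.pr (j p) (some i) =
          ((tr q p.1 : ZMod (P1 n (some i))), 17 * (tr q p.2 : ZMod (P1 n (some i)))) := by
        show Dt.prH n (P1 n) (vH q (p.1, 17 * p.2)) (some i) = _
        rw [Dt.prH_apply, if_pos hi, vH_apply, crd17]
        refine Prod.ext rfl ?_
        show (((17 : ℤ) * (crd q p.2).1 : ℤ) : ZMod (P1 n (some i))) = _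
        push_cast
        rfl
      have g1 : gam (E.w1.al (some i)) (E.w1.be (some i)) =
          jacobiSym (-(17 * E.a * E.b)) (i : ℕ) := by
        refine (E.d1.wd_gam _ E.hp1 E.hg1 hi).trans ?_
        refine Eq.trans ?_ (chi_int (p := P1 n (some i)) (-(17 * E.a * E.b)))
        congr 1
        simp only [d1]
        push_cast
        ring
      have g2 : E.w1.pr (j p) (some i) = 0 ↔
          (((i : ℕ) : ℤ) ∣ tr q p.1 ∧ ((i : ℕ) : ℤ) ∣ tr q p.2) := by
        rw [hpr, Prod.mk_eq_zero, mul_eq_zero, or_iff_right h17',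
          ZMod.intCast_zmod_eq_zero_iff_dvd, ZMod.intCast_zmod_eq_zero_iff_dvd]
        rfl
      have g3 : Qp (E.w1.al (some i)) (E.w1.be (some i)) (E.w1.pr (j p) (some i)) = 0 ↔
          ((i : ℕ) : ℤ) ∣ E.b * tr q p.1 ^ 2 + 17 * E.a * tr q p.2 ^ 2 := by
        refine (E.d1.wd_Q _ E.hp1 E.hg1 hi _).trans ?_
        rw [hpr]
        have := ZMod.intCast_zmod_eq_zero_iff_dvd
          (E.b * tr q p.1 ^ 2 + 17 * E.a * tr q p.2 ^ 2) (P1 n (some i))
        refine Iff.trans ?_ this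
        rw [← mul_eq_zero_iff_left h17' (b := ((E.b * tr q p.1 ^ 2 + 17 * E.a * tr q p.2 ^ 2 : ℤ) :
          ZMod (P1 n (some i))))]
        refine Eq.congr_left ?_
        simp only [d1]
        push_cast
        ring
      rw [g1]
      simp only [g2, g3]
      push_cast
      rfl
  · intro v hv
    rw [Function.mem_support] at hv
    by_cases hD : v ∈ E.w1.D
    · obtain ⟨p, hp, rfl⟩ := hD
      have hz : E.w1.pr (vH q p) none = 0 := by
        by_contra h
        apply hv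
        beta_reduce
        rw [Fintype.prod_option]
        have := sum_ph0 (E.w1.al none) (E.w1.be none) (E.w1.pr (vH q p) none)
        rw [if_neg h, mul_zero] at this
        have e : ∑ x ∈ sR n none, ph (E.w1.al none) (E.w1.be none) x (E.w1.pr (vH q p) none) =
          0 := this
        rw [e]
        ring
      have hz' : Dt.prH n (P1 n) (vH q p) none = 0 := hz
      rw [Dt.prH_apply, if_neg h17, vH_apply, Prod.mk_eq_zero,
        ZMod.intCast_zmod_eq_zero_iff_dvd, ZMod.intCast_zmod_eq_zero_iff_dvd] at hz'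
      obtain ⟨y, hy⟩ := exists_div q (m := 17) (by decide) hz'.1 hz'.2
      have hyY : y ∈ E.Y := mem_cancel q E.hY E.hbc.coprime_mul_right_right (hy ▸ hp.2)
      refine ⟨(⟨p.1, hp.1⟩, ⟨y, hyY⟩), ?_⟩
      simp only [hj]
      congr 1
      refine Prod.ext rfl ?_
      rw [hy]; simp
    · exact absurd (by simp only [ind, if_neg hD, zero_mul]) hv

end Pr

/-- the matrices of the trace -/
theorem exists_reps (hn : Squarefree n) (h17 : ¬ 17 ∣ n) : ∃ γ : Row (P1 n) → SL(2, ℤ),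
    (∀ w ∈ Fintype.piFinset (sR n), ract (e0 _) (γ w) = w ∧ γ w ∈ Gamma0 17) ∧
    ∀ δ ∈ Gamma0 17, ((Fintype.piFinset (sR n)).filter
      fun w => δ * (γ w)⁻¹ ∈ Gamma0 (17 * n)).card = cN n := by
  have h1 : ∀ w : Row (P1 n), ∃ g : SL(2, ℤ), w ∈ Fintype.piFinset (sR n) → ract (e0 _) g = w := by
    intro w
    by_cases h : w ∈ Fintype.piFinset (sR n)
    · obtain ⟨g, hg⟩ := lift_row (P1_inj h17) (v := w)
        fun o => sR_ne (Fintype.mem_piFinset.mp h o)
      exact ⟨g, fun _ => hg⟩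
    · exact ⟨1, fun h' => absurd h' h⟩
  choose γ hγ using h1
  refine ⟨γ, fun w hw => ⟨hγ w hw, ?_⟩, fun δ hδ => ?_⟩
  · have h2 := congrFun (hγ w hw) none
    rw [ract_e0] at h2
    have h3 := (Finset.mem_filter.mp (Fintype.mem_piFinset.mp hw none)).2.2
    rw [← h2] at h3
    exact Gamma0_mem.mpr h3
  · have key : ∀ w ∈ Fintype.piFinset (sR n), δ * (γ w)⁻¹ ∈ Gamma0 (17 * n) ↔
        ∀ o, (ract (e0 _) δ o).1 * (w o).2 - (ract (e0 _) δ o).2 * (w o).1 = 0 := by
      intro w hw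
      have e1 : ((δ * (γ w)⁻¹ : SL(2, ℤ)) 1 0 : ℤ) = δ 1 0 * γ w 1 1 - δ 1 1 * γ w 1 0 := by
        simp [Matrix.mul_apply, Fin.sum_univ_two, Matrix.adjugate_fin_two]
        ring
      have e2 : ∀ o, (ract (e0 _) δ o).1 * (w o).2 - (ract (e0 _) δ o).2 * (w o).1 = 0 ↔
          ((P1 n o : ℕ) : ℤ) ∣ δ 1 0 * γ w 1 1 - δ 1 1 * γ w 1 0 := by
        intro o
        rw [← ZMod.intCast_zmod_eq_zero_iff_dvd, ← congrFun (hγ w hw) o, ract_e0, ract_e0]
        push_cast
        rfl
      rw [mem_G0, e1]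
      simp only [e2]
      constructor
      · intro h o
        refine Dvd.dvd.trans ?_ h
        rw [Int.natCast_dvd_natCast, ← prod_P1 hn]
        exact Finset.dvd_prod_of_mem _ (Finset.mem_univ o)
      · intro h
        rw [← prod_P1 hn]
        push_cast
        apply Finset.prod_dvd_of_coprime
        · intro i _ j _ hij
          have : Nat.Coprime (P1 n i) (P1 n j) :=
            (Nat.coprime_primes (Fact.out : (P1 n i).Prime) (Fact.out : (P1 n j).Prime)).mpr
              fun h => hij (P1_inj h17 h)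
          exact Nat.isCoprime_iff_coprime.mpr this
        · exact fun o _ => h o
    rw [Finset.filter_congr key]
    have e3 : (Fintype.piFinset (sR n)).filter (fun w => ∀ o,
        (ract (e0 _) δ o).1 * (w o).2 - (ract (e0 _) δ o).2 * (w o).1 = 0) =
        Fintype.piFinset fun o => (sR n o).filter fun x =>
          (ract (e0 _) δ o).1 * x.2 - (ract (e0 _) δ o).2 * x.1 = 0 := by
      ext w
      simp only [Finset.mem_filter, Fintype.mem_piFinset, forall_and]
    rw [e3, Fintype.card_piFinset]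
    refine Finset.prod_congr rfl fun o _ => ?_
    rw [← card_line (r := ract (e0 _) δ o) (ract_ne (e0_ne o) δ)]
    congr 1
    ext x
    cases o with
    | none =>
      have h0 : (ract (e0 (P1 n)) δ none).1 = 0 := by
        rw [ract_e0]; exact Gamma0_mem.mp hδ
      have h2 : (ract (e0 (P1 n)) δ none).2 ≠ 0 := fun h =>
        ract_ne (e0_ne none) δ (Prod.ext h0 h)
      simp only [sR, Finset.mem_filter, Finset.mem_univ, true_and, h0, zero_mul, zero_sub,
        neg_eq_zero, mul_eq_zero, h2, false_or, and_assoc, and_self]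
    | some i => simp only [sR, Finset.mem_filter, Finset.mem_univ, true_and]

end Vale.Agent.P014A
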