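import Vale.Agent.P014A.Ker1
import Vale.Agent.P004H.H871.Gauss

/-!
# P014 (A): the integral of the Gaussian kernel is an Eisenstein series of weight one
-/

open MeasureTheory Set Complex Filter
open scoped Real Classical Topology

namespace Vale.Agent.P014A

open Vale.Agent.P014B
open Vale.Agent.P004H.H204 (qq)

variable {N : ℕ} [NeZero N] {φ : ℤ × ℤ → ℂ}

/-- the terms with `c k ≠ 0` -/
noncomputable def UU (N : ℕ) [NeZero N] (φ : ℤ × ℤ → ℂ) (z : ℂ) (i : ℤ × ℤ) (s : ℝ) : ℂ :=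
  if i.1 ≠ 0 ∧ i.2 ≠ 0 then
    -I * hat N φ i.1 i.2 * cexp (2 * π * I * (i.1 * i.2 * z.re / N)) *
      bk (i.1 * z.im) (i.2 / N) s else 0

/-- the terms with `k = 0` -/
noncomputable def hh (N : ℕ) [NeZero N] (φ : ℤ × ℤ → ℂ) (s : ℝ) : ℂ :=
  thO (fun c => hat N φ c 0) s / (√s : ℝ)

/-- the integrals of the terms with `c k ≠ 0` -/
noncomputable def WW (N : ℕ) [NeZero N] (φ : ℤ × ℤ → ℂ) (z : ℂ) (i : ℤ × ℤ) : ℂ :=
  if i.1 ≠ 0 ∧ i.2 ≠ 0 then
    -I * hat N φ i.1 i.2 * ((sg i.1 + sg i.2 : ℝ) : ℂ) * cexp (2 * π * I * (i.1 * i.2 * z / N))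
  else 0

theorem psi_dec (h : PerB N φ) {t : ℝ} (ht : 0 < t) {z : ℂ} (hz : 0 < z.im)
    (hs : Summable fun i => ((z.im⁻¹ : ℝ) : ℂ) * UU N φ z i (z.im⁻¹ * t)) :
    PsiK φ t z = ((z.im⁻¹ : ℝ) : ℂ) * thO (fun d => φ (0, d)) (z.im⁻¹ * t) +
      -I * ((z.im : ℂ) * hh N φ (z.im * t)) +
      ∑' i, ((z.im⁻¹ : ℝ) : ℂ) * UU N φ z i (z.im⁻¹ * t) := by
  have h0 : Summable fun w : ℤ × ℤ => φ w * kk t w z := by
    refine Summable.of_norm_bounded (summ_kk ht hz) fun d => ?_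
    rw [norm_mul]
    exact mul_le_of_le_one_left (norm_nonneg _) (h.1 _)
  have hyt : 0 < z.im * t := mul_pos hz ht
  have hy : (z.im : ℂ) ≠ 0 := ofReal_ne_zero.mpr hz.ne'
  have hsq : ((√(z.im * t) : ℝ) : ℂ) ≠ 0 := ofReal_ne_zero.mpr (Real.sqrt_pos.mpr hyt).ne'
  have h1 := (summ_thO (fun c => norm_hat (N := N) h.1 c 0) hyt).hasSum
  have h2 : HasSum (fun c : ℤ => -I * ((z.im : ℂ) * (hat N φ c 0 *
      ((c * Real.exp (-(π * (z.im * t) * c ^ 2)) : ℝ) : ℂ) / (√(z.im * t) : ℝ))))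
      (-I * ((z.im : ℂ) * hh N φ (z.im * t))) :=
    ((h1.div_const _).mul_left _).mul_left _
  have h3 := hasSum_ite_eq (0 : ℤ) (((z.im⁻¹ : ℝ) : ℂ) * thO (fun d => φ (0, d)) (z.im⁻¹ * t))
  have h4 := hs.prod.hasSum
  rw [← hs.tsum_prod] at h4
  unfold PsiK
  rw [h0.tsum_prod, ← ((h3.add h2).add h4).tsum_eq]
  refine tsum_congr fun c => ?_
  by_cases hc : c = 0
  · subst hc
    rw [if_pos rfl]
    simp only [UU, ne_eq, not_true_eq_false, false_and, if_false, mul_zero, tsum_zero,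
      Int.cast_zero, zero_mul, ofReal_zero, zero_div, add_zero]
    unfold thO
    rw [← tsum_mul_left]
    refine tsum_congr fun d => ?_
    unfold kk
    simp only [Int.cast_zero, zero_mul, zero_add, map_intCast, normSq_intCast]
    rw [show -(π * t * ((d : ℝ) * d) / z.im) = -(π * (z.im⁻¹ * t) * (d : ℝ) ^ 2) by ring]
    push_cast
    ring
  · have h5 := row_sum h ht hz c
    rw [if_neg hc, zero_add, ← h5.tsum_eq, h5.summable.tsum_eq_add_tsum_ite 0]
    congr 1
    · unfold bk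
      have e1 : √(z.im * t) = z.im * √(z.im⁻¹ * t) := by
        rw [show z.im * t = z.im ^ 2 * (z.im⁻¹ * t) by field_simp, Real.sqrt_mul (sq_nonneg _),
          Real.sqrt_sq hz.le]
      have e2 : ((√(z.im⁻¹ * t) : ℝ) : ℂ) ≠ 0 :=
        ofReal_ne_zero.mpr (Real.sqrt_pos.mpr (by positivity)).ne'
      rw [e1, show -(π * ((c * z.im) ^ 2 * (z.im⁻¹ * t) + (((0 : ℤ) : ℝ) / N) ^ 2 / (z.im⁻¹ * t))) =
        -(π * (z.im * t) * (c : ℝ) ^ 2) by push_cast; field_simp; ring]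
      simp only [Int.cast_zero, mul_zero, zero_mul, zero_div, Complex.exp_zero, add_zero]
      push_cast
      field_simp
    · refine tsum_congr fun k => ?_
      unfold UU
      by_cases hk : k = 0
      · simp [hk]
      · rw [if_neg hk, if_pos ⟨hc, hk⟩]

theorem summ_exp_abs {a : ℝ} (ha : 0 < a) : Summable fun c : ℤ => Real.exp (-(a * |(c : ℝ)|)) := by
  have h := Real.summable_exp_nat_mul_iff.mpr (neg_lt_zero.mpr ha)
  refine Summable.of_nat_of_neg (h.congr fun n => ?_) (h.congr fun n => ?_)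
  · rw [Int.cast_natCast, Nat.abs_cast]
    congr 1
    ring
  · rw [Int.cast_neg, Int.cast_natCast, abs_neg, Nat.abs_cast]
    congr 1
    ring

/-- the majorant -/
noncomputable def bb (a : ℝ) (i : ℤ × ℤ) : ℝ :=
  2 * (Real.exp (-(a * |(i.1 : ℝ)|)) * Real.exp (-(a * |(i.2 : ℝ)|)))

theorem summ_bb {a : ℝ} (ha : 0 < a) : Summable (bb a) :=
  (Summable.mul_of_nonneg (summ_exp_abs ha) (summ_exp_abs ha) (fun _ => (Real.exp_pos _).le)
    fun _ => (Real.exp_pos _).le).mul_left 2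

theorem UU_int (h : ∀ w, ‖φ w‖ ≤ 1) {z : ℂ} (hz : 0 < z.im) (i : ℤ × ℤ) :
    IntegrableOn (UU N φ z i) (Ioi 0) ∧ ∫ s in Ioi (0 : ℝ), UU N φ z i s = WW N φ z i ∧
      ∀ a : ℝ, 0 < a → a ≤ π * z.im / N → ∫ s in Ioi (0 : ℝ), ‖UU N φ z i s‖ ≤ bb a i := by
  have hN : (0 : ℝ) < N := by exact_mod_cast NeZero.pos N
  unfold UU WW
  split_ifs with hi
  · have c0 : (i.1 : ℝ) ≠ 0 := by exact_mod_cast hi.1
    have k0 : (i.2 : ℝ) ≠ 0 := by exact_mod_cast hi.2
    have ha : (i.1 : ℝ) * z.im ≠ 0 := mul_ne_zero c0 hz.ne'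
    have hb : (i.2 : ℝ) / N ≠ 0 := div_ne_zero k0 hN.ne'
    obtain ⟨h1, h2⟩ := bk_int ha hb
    refine ⟨h1.ofReal.const_mul _, ?_, fun a a0 a1 => ?_⟩
    · rw [integral_const_mul, integral_complex_ofReal, h2]
      have s1 : sg (i.1 * z.im) = sg i.1 := by
        unfold sg
        simp only [mul_pos_iff_of_pos_right hz]
      have s2 : sg (i.2 / N) = sg i.2 := by
        unfold sg
        simp only [div_pos_iff_of_pos_right hN]
      rw [s1, s2, show 2 * π * I * (i.1 * i.2 * z / N) = 2 * π * I * (i.1 * i.2 * z.re / N) +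
        ((-(2 * π * (i.1 * z.im) * (i.2 / N)) : ℝ) : ℂ) by
          conv_lhs => rw [← re_add_im z]
          push_cast
          linear_combination (2 * π * i.1 * i.2 * z.im / N) * I_mul_I, Complex.exp_add]
      push_cast
      ring
    · simp only [norm_mul, norm_real, Real.norm_eq_abs]
      rw [integral_const_mul, norm_neg, norm_I, one_mul,
        show 2 * π * I * (i.1 * i.2 * z.re / N) = ((2 * π * (i.1 * i.2 * z.re / N) : ℝ) : ℂ) * I by
          push_cast; ring, norm_exp_ofReal_mul_I, mul_one]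
      refine (mul_le_of_le_one_left (integral_nonneg fun _ => abs_nonneg _)
        (norm_hat h _ _)).trans ((bk_norm ha hb).trans ?_)
      unfold bb
      rw [← Real.exp_add, abs_mul, abs_div, abs_of_pos hz, abs_of_pos hN]
      refine mul_le_mul_of_nonneg_left (Real.exp_le_exp.mpr ?_) two_pos.le
      have c1 : (1 : ℝ) ≤ |(i.1 : ℝ)| := by exact_mod_cast Int.one_le_abs hi.1
      have k1 : (1 : ℝ) ≤ |(i.2 : ℝ)| := by exact_mod_cast Int.one_le_abs hi.2
      have e : 2 * π * (|(i.1 : ℝ)| * z.im) * (|(i.2 : ℝ)| / N) =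
          π * z.im / N * (2 * (|(i.1 : ℝ)| * |(i.2 : ℝ)|)) := by ring
      rw [e]
      have h3 : |(i.1 : ℝ)| + |(i.2 : ℝ)| ≤ 2 * (|(i.1 : ℝ)| * |(i.2 : ℝ)|) := by nlinarith
      have h4 := mul_le_mul a1 h3 (by positivity) (by positivity)
      linarith
  · refine ⟨integrableOn_zero, integral_zero _ _, fun a _ _ => ?_⟩
    rw [norm_zero, integral_zero]
    unfold bb
    positivity

theorem psi_int (h : PerB N φ) {z : ℂ} (hz : 0 < z.im) :
    IntegrableOn (fun t => PsiK φ t z) (Ioi 0) ∧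
      (∀ a : ℝ, 0 < a → a ≤ π * z.im / N → ∫ t in Ioi (0 : ℝ), ‖PsiK φ t z‖ ≤
        (∫ s in Ioi (0 : ℝ), ‖thO (fun d => φ (0, d)) s‖) + (∫ s in Ioi (0 : ℝ), ‖hh N φ s‖) +
          ∑' i, bb a i) ∧
      HasSum (WW N φ z) ((∫ t in Ioi (0 : ℝ), PsiK φ t z) -
        ((∫ s in Ioi (0 : ℝ), thO (fun d => φ (0, d)) s) + -I * ∫ s in Ioi (0 : ℝ), hh N φ s)) := by
  have hN0 : 0 < N := NeZero.pos N
  have hN : (0 : ℝ) < N := by exact_mod_cast hN0
  have hy' : 0 < z.im⁻¹ := inv_pos.mpr hz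
  obtain ⟨a1, a2, a3⟩ := scale (thO_int hN0 (ψ := fun d => φ (0, d)) (fun d => h.1 _)
    fun d j => by simpa using h.2 (0, d) (0, j)).1 hy'
  have hhI : IntegrableOn (hh N φ) (Ioi 0) :=
    (thO_int hN0 (ψ := fun c => hat N φ c 0) (fun c => norm_hat h.1 c 0) fun d j => by
      unfold hat
      congr 1
      refine Finset.sum_congr rfl fun r _ => ?_
      have := h.2 (d, r.val) (j, 0)
      simp only [mul_zero, add_zero] at this
      rw [this]).2
  obtain ⟨b1, b2, b3⟩ := scale hhI hz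
  have u := fun i => scale (UU_int (N := N) h.1 hz i).1 hy'
  have hsum : ∀ a : ℝ, 0 < a → a ≤ π * z.im / N → ∀ i, ∫ t in Ioi (0 : ℝ),
      ‖((z.im⁻¹ : ℝ) : ℂ) * UU N φ z i (z.im⁻¹ * t)‖ ≤ bb a i := fun a a0 a1 i =>
    (u i).2.2.trans_le ((UU_int h.1 hz i).2.2 a a0 a1)
  have hs : Summable fun i => ∫ t in Ioi (0 : ℝ),
      ‖((z.im⁻¹ : ℝ) : ℂ) * UU N φ z i (z.im⁻¹ * t)‖ :=
    Summable.of_nonneg_of_le (fun i => integral_nonneg fun _ => norm_nonneg _)
      (hsum _ (by positivity) le_rfl) (summ_bb (by positivity))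
  obtain ⟨c1, c2, c3⟩ := tsum_facts (fun i => (u i).1) hs
  have c4 := hasSum_integral_of_summable_integral_norm (fun i => (u i).1) hs
  have e : (fun t => PsiK φ t z) =ᵐ[volume.restrict (Ioi 0)] fun t =>
      ((z.im⁻¹ : ℝ) : ℂ) * thO (fun d => φ (0, d)) (z.im⁻¹ * t) +
      -I * ((z.im : ℂ) * hh N φ (z.im * t)) +
      ∑' i, ((z.im⁻¹ : ℝ) : ℂ) * UU N φ z i (z.im⁻¹ * t) := by
    filter_upwards [c1, ae_restrict_mem measurableSet_Ioi] with t t1 t2
    exact psi_dec h t2 hz t1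
  have b1' := b1.const_mul (-I)
  have i1 := (a1.add b1').add c2
  refine ⟨i1.congr e.symm, fun a a0 ha => ?_, ?_⟩
  · have e2 : (fun t => ‖PsiK φ t z‖) ≤ᵐ[volume.restrict (Ioi 0)] fun t =>
        ‖((z.im⁻¹ : ℝ) : ℂ) * thO (fun d => φ (0, d)) (z.im⁻¹ * t)‖ +
        ‖(z.im : ℂ) * hh N φ (z.im * t)‖ +
        ‖∑' i, ((z.im⁻¹ : ℝ) : ℂ) * UU N φ z i (z.im⁻¹ * t)‖ := by
      filter_upwards [e] with t ht
      rw [ht]
      refine (norm_add₃_le).trans (le_of_eq ?_)
      rw [norm_mul (-I), norm_neg, norm_I, one_mul]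
    refine (integral_mono_ae (i1.congr e.symm).norm
      ((a1.norm.fun_add b1.norm).fun_add c2.norm) e2).trans ?_
    rw [integral_add (a1.norm.fun_add b1.norm) c2.norm, integral_add a1.norm b1.norm, a3, b3]
    exact add_le_add le_rfl (c3.trans (hs.tsum_le_tsum (hsum a a0 ha) (summ_bb a0)))
  · rw [integral_congr_ae e, integral_add (Integrable.fun_add a1 b1') c2, integral_add a1 b1', a2,
      integral_const_mul, b2, add_sub_cancel_left]
    exact c4.congr_fun fun i => ((u i).2.1.trans (UU_int h.1 hz i).2.1).symm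

/-! ### the Eisenstein series attached to the Jacobi symbol -/

theorem regroup' {α : Type*} {f : α → ℂ} {a : ℂ} (hf : HasSum f a) (lev : α → ℕ)
    (F : ℕ → Finset α) (h1 : ∀ m, ∀ x ∈ F m, lev x = m) (h2 : ∀ x, f x ≠ 0 → x ∈ F (lev x)) :
    HasSum (fun m => ∑ x ∈ F m, f x) a := by
  refine (HasSum.tsum_fiberwise hf lev).congr_fun fun m => ?_
  rw [tsum_subtype (lev ⁻¹' {m}) f, tsum_eq_sum (s := F m)]
  · refine Finset.sum_congr rfl fun x hx => ?_
    rw [Set.indicator_of_mem]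
    exact h1 m x hx
  · intro x hx
    rw [Set.indicator_apply_eq_zero]
    intro h3
    by_contra h4
    have h5 : lev x = m := h3
    exact hx (h5 ▸ h2 x h4)

theorem gauss_val {n : ℕ} [hn : NeZero n] (hs : Squarefree n) (h4 : n % 4 = 3) :
    ∃ ε : ℝ, (ε = 1 ∨ ε = -1) ∧ ∀ k : ℤ, ∑ u : ZMod n, (jacobiSym u.val n : ℂ) *
      cexp (2 * π * I * (u.val * k) / n) = jacobiSym k n * (ε * I * (√(n : ℝ) : ℝ)) := by
  have ho : Odd n := Nat.odd_iff.mpr (by omega)
  obtain ⟨g, g0, hg⟩ := (Vale.Agent.P004H.H871.rc_odd n hn hs ho).gauss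
  have hm : jacobiSym (-1) n = -1 := by
    rw [jacobiSym.at_neg_one ho, ZMod.χ₄_nat_three_mod_four h4]
  have h1 : g * g * g = -n * g := by
    have e1 : ∑ k : ZMod n, (∑ u : ZMod n, (jacobiSym u.val n : ℂ) *
        ZMod.stdAddChar (u * k)) * ZMod.stdAddChar (k * ((-1 : ℤ) : ZMod n)) = n := by
      simp only [Finset.sum_mul]
      rw [Finset.sum_comm]
      have e2 : ∀ u : ZMod n, ∑ k : ZMod n, (jacobiSym u.val n : ℂ) * ZMod.stdAddChar (u * k) *
          ZMod.stdAddChar (k * ((-1 : ℤ) : ZMod n)) =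
          if u = 1 then (n : ℂ) else 0 := by
        intro u
        have e3 := AddChar.sum_mulShift (u - 1) (ZMod.isPrimitive_stdAddChar n)
        have e4 : ∀ k : ZMod n, (jacobiSym u.val n : ℂ) * ZMod.stdAddChar (u * k) *
            ZMod.stdAddChar (k * ((-1 : ℤ) : ZMod n)) =
            (jacobiSym u.val n : ℂ) * ZMod.stdAddChar (k * (u - 1)) := by
          intro k
          rw [mul_assoc, ← AddChar.map_add_eq_mul]
          congr 2
          push_cast
          ring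
        simp only [e4]
        rw [← Finset.mul_sum, e3]
        simp only [sub_eq_zero]
        split_ifs with hu
        · have : Fact (1 < n) := ⟨by omega⟩
          rw [hu, ZMod.val_one, ZMod.card]
          simp
        · simp
      simp only [e2]
      simp
    have e5 : ∀ k : ZMod n, ∑ u : ZMod n, (jacobiSym u.val n : ℂ) * ZMod.stdAddChar (u * k) =
        jacobiSym k.val n * g := by
      intro k
      have := hg k.val
      rwa [Int.cast_natCast, ZMod.natCast_zmod_val] at this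
    simp only [e5, mul_right_comm _ g] at e1
    rw [← Finset.sum_mul, hg (-1), hm] at e1
    push_cast at e1
    linear_combination -g * e1
  have h2 : (g - I * (√(n : ℝ) : ℝ)) * (g + I * (√(n : ℝ) : ℝ)) = 0 := by
    have e : ((√(n : ℝ) : ℝ) : ℂ) * (√(n : ℝ) : ℝ) = n := by
      rw [← ofReal_mul, Real.mul_self_sqrt (Nat.cast_nonneg n), ofReal_natCast]
    have := mul_right_cancel₀ g0 h1
    linear_combination this - I * I * e - (n : ℂ) * I_mul_I
  have h3 : ∀ k : ℤ, ∑ u : ZMod n, (jacobiSym u.val n : ℂ) *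
      cexp (2 * π * I * (u.val * k) / n) = jacobiSym k n * g := by
    intro k
    rw [← hg k]
    refine Finset.sum_congr rfl fun u _ => ?_
    have := ZMod.stdAddChar_coe (N := n) (u.val * k)
    push_cast at this
    rw [ZMod.natCast_zmod_val] at this
    rw [this]
  rcases mul_eq_zero.mp h2 with h | h
  · exact ⟨1, .inl rfl, fun k => by rw [h3, sub_eq_zero.mp h]; push_cast; ring⟩
  · exact ⟨-1, .inr rfl, fun k => by rw [h3, eq_neg_of_add_eq_zero_left h]; push_cast; ring⟩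

theorem norm_jac (a : ℤ) (n : ℕ) : ‖(jacobiSym a n : ℂ)‖ ≤ 1 := by
  rcases jacobiSym.trichotomy a n with h | h | h <;> simp [h]

theorem eis {n : ℕ} (hs : Squarefree n) (h4 : n % 4 = 3) : ∃ (C₀ : ℂ) (ε : ℝ), (ε = 1 ∨ ε = -1) ∧
    ∀ z : ℂ, 0 < z.im →
      HasSum (fun m : ℕ => (if m = 0 then C₀ else ((ε * 4 / √(n : ℝ) : ℝ) : ℂ) * conv 1 n m) *
        qq z ^ m)
        (∫ t in Ioi (0 : ℝ),
          PsiK (fun w => if (n : ℤ) ∣ w.1 then (jacobiSym w.2 n : ℂ) else 0) t z) := by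
  have hn : NeZero n := ⟨by omega⟩
  have ho : Odd n := Nat.odd_iff.mpr (by omega)
  have hn0 : (n : ℤ) ≠ 0 := by omega
  have hnc : (n : ℂ) ≠ 0 := by exact_mod_cast hn.ne
  set φ : ℤ × ℤ → ℂ := fun w => if (n : ℤ) ∣ w.1 then (jacobiSym w.2 n : ℂ) else 0 with hφ
  have hP : PerB n φ := by
    refine ⟨fun w => ?_, fun w u => ?_⟩
    · simp only [hφ]
      split_ifs
      · exact norm_jac _ _
      · simp
    · simp only [hφ]
      rw [if_congr (dvd_add_left (dvd_mul_right _ _)) rfl rfl, jacobiSym.mod_left,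
        Int.add_mul_emod_self_left, ← jacobiSym.mod_left]
  obtain ⟨ε, hε, hg⟩ := gauss_val hs h4
  refine ⟨(∫ s in Ioi (0 : ℝ), thO (fun d => φ (0, d)) s) + -I * ∫ s in Ioi (0 : ℝ), hh n φ s,
    ε, hε, fun z hz => ?_⟩
  have h1 := (psi_int hP hz).2.2
  have hinj : Function.Injective fun p : ℤ × ℤ => ((n : ℤ) * p.1, p.2) := by
    intro p p' h
    simp only [Prod.mk.injEq] at h
    exact Prod.ext (mul_left_cancel₀ hn0 h.1) h.2
  rw [← hinj.hasSum_iff (by
    rintro ⟨c, k⟩ hc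
    have : ¬ (n : ℤ) ∣ c := fun ⟨a, ha⟩ => hc ⟨(a, k), by simp [ha]⟩
    simp [WW, hat, hφ, this])] at h1
  have hW : ∀ a k : ℤ, a ≠ 0 → k ≠ 0 → WW n φ z ((n : ℤ) * a, k) =
      ((ε / √(n : ℝ) : ℝ) : ℂ) * jacobiSym k n * ((sg a + sg k : ℝ) : ℂ) *
        cexp (2 * π * I * z * (a * k : ℤ)) := by
    intro a k ha hk
    have s1 : sg (((n : ℤ) * a : ℤ) : ℝ) = sg a := by
      unfold sg
      have : (0 : ℝ) < n := by exact_mod_cast hn.pos
      push_cast
      simp only [mul_pos_iff_of_pos_left this]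
    unfold WW hat
    rw [if_pos ⟨mul_ne_zero hn0 ha, hk⟩]
    simp only [hφ, dvd_mul_right, if_true]
    rw [hg, s1]
    have e : ((√(n : ℝ) : ℝ) : ℂ) * (√(n : ℝ) : ℝ) = n := by
      rw [← ofReal_mul, Real.mul_self_sqrt (Nat.cast_nonneg n), ofReal_natCast]
    have e0 : ((√(n : ℝ) : ℝ) : ℂ) ≠ 0 := fun h => hnc (by rw [← e, h, mul_zero])
    congr 1
    · congr 1
      rw [ofReal_div]
      field_simp
      linear_combination -(jacobiSym k n : ℂ) * ε * (√(n : ℝ) : ℝ) ^ 2 * I_mul_I +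
        (jacobiSym k n : ℂ) * ε * e
    · congr 1
      push_cast
      field_simp
  have h2 := regroup' h1 (fun p => (p.1 * p.2).toNat) (fun m => Int.divisorsAntidiag m)
    (fun m x hx => by rw [(Int.mem_divisorsAntidiag.mp hx).1, Int.toNat_natCast]) (by
      rintro ⟨a, k⟩ h
      simp only [Function.comp] at h
      have ha : a ≠ 0 := by
        rintro rfl
        simp [WW] at h
      have hk : k ≠ 0 := by
        rintro rfl
        simp [WW] at h
      rw [hW a k ha hk] at h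
      have h3 : sg a + sg k ≠ 0 := fun e => h (by rw [e]; simp)
      have h5 : 0 < a * k := by
        unfold sg at h3
        simp only [Int.cast_pos] at h3
        split_ifs at h3 with p1 p2 p2
        · exact mul_pos p1 p2
        · simp at h3
        · simp at h3
        · exact mul_pos_of_neg_of_neg (by omega) (by omega)
      rw [Int.mem_divisorsAntidiag, Int.toNat_of_nonneg h5.le]
      exact ⟨rfl, h5.ne'⟩)
  have h3 := (hasSum_ite_eq (0 : ℕ) ((∫ s in Ioi (0 : ℝ), thO (fun d => φ (0, d)) s) +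
    -I * ∫ s in Ioi (0 : ℝ), hh n φ s)).add h2
  rw [add_sub_cancel] at h3
  refine h3.congr_fun fun m => ?_
  split_ifs with hm
  · subst hm
    simp
  · rw [zero_add, Int.divisorsAntidiag_natCast, Finset.sum_disjUnion, Finset.sum_map,
      Finset.sum_map, ← Finset.sum_add_distrib]
    unfold conv
    push_cast
    rw [Finset.mul_sum, Finset.sum_mul]
    refine Finset.sum_congr rfl fun p hp => ?_
    obtain ⟨e, -⟩ := Nat.mem_divisorsAntidiagonal.mp hp
    have p1 : 0 < p.1 := Nat.pos_of_ne_zero fun h => hm (by rw [← e, h, zero_mul])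
    have p2 : 0 < p.2 := Nat.pos_of_ne_zero fun h => hm (by rw [← e, h, mul_zero])
    have r1 : (0 : ℝ) < p.1 := by exact_mod_cast p1
    have r2 : (0 : ℝ) < p.2 := by exact_mod_cast p2
    change _ = WW n φ z ((n : ℤ) * (p.1 : ℤ), (p.2 : ℤ)) +
      WW n φ z ((n : ℤ) * (-(p.1 : ℤ)), -(p.2 : ℤ))
    rw [hW _ _ (by omega) (by omega), hW _ _ (by omega) (by omega), neg_mul_neg,
      jacobiSym.neg _ ho, ZMod.χ₄_nat_three_mod_four h4, jacobiSym.one_right]
    have q1 : cexp (2 * π * I * z * (((p.1 : ℤ) * p.2 : ℤ) : ℂ)) = qq z ^ m := by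
      unfold qq
      rw [← Complex.exp_nat_mul, ← e]
      congr 1
      push_cast
      ring
    rw [q1]
    unfold sg
    simp only [Int.cast_natCast, Int.cast_neg, r1, r2, if_true, Left.neg_pos_iff, r1.not_gt,
      r2.not_gt, if_false]
    push_cast
    ring

theorem ker : KerStmt := by
  refine ⟨fun t ht z hz => summ_kk ht hz, fun φ h => cont_Psi h, fun N φ hN h => ?_,
    fun n hs h4 => eis hs h4⟩
  have : NeZero N := ⟨hN.ne'⟩
  have hN' : (0 : ℝ) < N := by exact_mod_cast hN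
  refine ⟨fun z hz => (psi_int h hz).1, _, fun z hz =>
    (psi_int h (by linarith)).2.1 (π * (1 / 2) / N) (by positivity) ?_⟩
  gcongr

end Vale.Agent.P014A
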