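import Vale.Agent.P014B.Iface
import Vale.Agent.P004N.H974.Unfold

/-!
# P014 (A): interfaces inside the proof of the formula of Gross and Waldspurger
-/

open Complex MeasureTheory Set
open UpperHalfPlane hiding I
open scoped Real Classical MatrixGroups Modular ModularForm

namespace Vale.Agent.P014A

open Vale.Agent.P014.H687 Vale.Agent.P014B
open Vale.Agent.P014.H70 (r3 Th3)
open Vale.Agent.P004H.H204 (qq)

/-- the Gaussian kernel of weight one attached to the row `w` -/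
noncomputable def kk (t : ℝ) (w : ℤ × ℤ) (z : ℂ) : ℂ :=
  (starRingEnd ℂ) (w.1 * z + w.2) / z.im *
    (Real.exp (-(π * t * normSq (w.1 * z + w.2) / z.im)) : ℝ)

/-- the kernel summed against a function on the rows -/
noncomputable def PsiK (φ : ℤ × ℤ → ℂ) (t : ℝ) (z : ℂ) : ℂ := ∑' w : ℤ × ℤ, φ w * kk t w z

/-- bounded functions on the rows which are periodic modulo `N` -/
def PerB (N : ℕ) (φ : ℤ × ℤ → ℂ) : Prop :=
  (∀ w, ‖φ w‖ ≤ 1) ∧ ∀ w u : ℤ × ℤ, φ (w.1 + N * u.1, w.2 + N * u.2) = φ w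

/-- block B: the kernel and the Eisenstein series of weight one -/
def KerStmt : Prop :=
  (∀ t : ℝ, 0 < t → ∀ z : ℂ, 0 < z.im → Summable fun w : ℤ × ℤ => ‖kk t w z‖) ∧
  (∀ φ : ℤ × ℤ → ℂ, (∀ w, ‖φ w‖ ≤ 1) →
    ContinuousOn (fun p : ℝ × ℍ => PsiK φ p.1 p.2) (Ioi 0 ×ˢ univ)) ∧
  (∀ (N : ℕ) (φ : ℤ × ℤ → ℂ), 0 < N → PerB N φ →
    (∀ z : ℂ, 0 < z.im → IntegrableOn (fun t => PsiK φ t z) (Ioi 0)) ∧
      ∃ C : ℝ, ∀ z : ℂ, 1 / 2 ≤ z.im → ∫ t in Ioi (0 : ℝ), ‖PsiK φ t z‖ ≤ C) ∧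
  ∀ n : ℕ, Squarefree n → n % 4 = 3 → ∃ (C₀ : ℂ) (ε : ℝ), (ε = 1 ∨ ε = -1) ∧
    ∀ z : ℂ, 0 < z.im →
      HasSum (fun m : ℕ => (if m = 0 then C₀ else ((ε * 4 / √(n : ℝ) : ℝ) : ℂ) * conv 1 n m) *
        qq z ^ m)
        (∫ t in Ioi (0 : ℝ),
          PsiK (fun w => if (n : ℤ) ∣ w.1 then (jacobiSym w.2 n : ℂ) else 0) t z)

/-- the representatives `1`, `S T^j` of the cosets of `Γ₀(17)` -/
noncomputable def cos17 : Option (Fin 17) → SL(2, ℤ)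
  | none => 1
  | some j => ModularGroup.S * ModularGroup.T ^ ((j : ℕ) : ℤ)

/-- the integrand of the Petersson product of the cusp form of level `17` with `g` -/
noncomputable def petI (g : ℂ → ℂ) (z : ℍ) : ℂ :=
  ∑ i : Option (Fin 17), Fc Th3 ((cos17 i • z : ℍ) : ℂ) *
    (starRingEnd ℂ) (g ((cos17 i • z : ℍ) : ℂ)) * (((cos17 i • z : ℍ).im : ℝ) : ℂ) ^ 2

/-- block O: the cusp form is orthogonal to the Eisenstein series and not to itself -/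
def OrthStmt : Prop :=
  IntegrableOn (petI ec) 𝒟 ∧ IntegrableOn (petI (Fc Th3)) 𝒟 ∧ ∫ z in 𝒟, petI ec z = 0 ∧
    ∃ c : ℝ, 0 < c ∧ ∫ z in 𝒟, petI (Fc Th3) z = c

/-- the Bessel kernel -/
noncomputable def KB (x : ℝ) : ℝ := ∫ u in Ioi (0 : ℝ), Real.exp (-(2 * π * (u + x / u))) / u

/-- the term of the unfolded series -/
noncomputable def Jt (n₁ n₂ : ℕ) (t : ℝ) (p : ℕ × ℕ) : ℝ :=
  ((if 17 ∣ p.1 then 0 else jacobiSym p.1 (n₁ * n₂) * p.1 * an r3 p.2 * conv n₁ n₂ p.2 : ℤ) : ℝ) *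
    KB (t * p.1 ^ 2 * p.2)

/-- block H: the unfolded series is the Mellin convolution of the two twists -/
def ConvStmt : Prop := ∀ n₁ n₂ : ℕ, Odd n₁ → Odd n₂ → IntegrableOn (FF n₁) (Ioi 0) →
  IntegrableOn (FF n₂) (Ioi 0) →
    (∀ t : ℝ, 0 < t → Summable (Jt n₁ n₂ t)) ∧
      ∫ t in Ioi (0 : ℝ), ∑' p : ℕ × ℕ, Jt n₁ n₂ t p =
        (∫ y in Ioi (0 : ℝ), FF n₁ y) * ∫ y in Ioi (0 : ℝ), FF n₂ y

end Vale.Agent.P014A
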