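import Vale.Agent.P014A.Gross
import Vale.Agent.P014A.Ker2
import Vale.Agent.P014D.Count
import Vale.Agent.P014G.Base
import Vale.Agent.P014K.Conv
import Vale.Agent.P014K.Orth

/-!
# P014 (A): the formula of Gross and Waldspurger for genus characters, level `17`
-/

namespace Vale.Agent.P014A

theorem grossStmt : Vale.Agent.P014B.GrossStmt :=
  gross Vale.Agent.P014D.count Vale.Agent.P014G.lstmt ker Vale.Agent.P014K.orthStmt
    Vale.Agent.P014K.convStmt

end Vale.Agent.P014A
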