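import Vale.Agent.P014A.Pt

/-!
# P014 (A): the formula of Gross and Waldspurger for genus characters
-/

open UpperHalfPlane hiding I
open NumberField Complex CongruenceSubgroup MeasureTheory Set Filter
open scoped Classical Real MatrixGroups Topology Modular

namespace Vale.Agent.P014A

open Vale.Agent.P017.H185 Vale.Agent.P014B Vale.Agent.P014.H687
open Vale.Agent.P014.H70 (r3 Th3)
open Vale.Agent.P004H.H204 (qq)
open P004N.T3 (rv rvE rv_mul rv_one)
open Vale.Agent.P004.H26.H86 (CP gp gp0 gp1 fd_finite)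
open WD (e0)

/-- the integrand for a fixed parameter -/
noncomputable def PhiT (g : ℂ → ℂ) (n : ℕ) (t : ℝ) (z : ℍ) : ℂ :=
  Fc Th3 z * (starRingEnd ℂ) (g z * PsiK (phi0 n) t z) * ((z.im : ℝ) : ℂ) ^ 2

/-- the unfolded integrand -/
noncomputable def HT (g : ℂ → ℂ) (n : ℕ) (t : ℝ) (z : ℍ) : ℂ :=
  Fc Th3 z * (starRingEnd ℂ) (g z) * Kt (chi0 n) t (z : ℂ).im * ((z.im : ℝ) : ℂ) ^ 2

/-- forms of weight one -/
structure W1 (g : ℂ → ℂ) (n : ℕ) : Prop where
  cont : Continuous fun z : ℍ => g z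
  mob : ∀ γ ∈ Gamma0 n, ∀ z : ℍ, g (γ • z : ℍ) = jacobiSym (γ 1 1) n * denom γ z * g z
  bdd : ∃ C : ℝ, 0 ≤ C ∧ ∀ (γ : SL(2, ℤ)) (z : ℍ), 1 / 2 ≤ z.im → ‖g (γ • z : ℍ)‖ ≤ C * ‖denom γ z‖

theorem T_facts (k : ℤ) (N : ℕ) (z : ℍ) : ModularGroup.T ^ k ∈ Gamma0 N ∧
    (ModularGroup.T ^ k : SL(2, ℤ)) 1 1 = 1 ∧ denom (ModularGroup.T ^ k : SL(2, ℤ)) z = 1 := by
  have h0 : (ModularGroup.T ^ k : SL(2, ℤ)) 1 0 = 0 := by
    simp [ModularGroup.coe_T_zpow]
  have h1 : (ModularGroup.T ^ k : SL(2, ℤ)) 1 1 = 1 := by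
    simp [ModularGroup.coe_T_zpow]
  refine ⟨mem_G0.mpr (by rw [h0]; exact dvd_zero _), h1, ?_⟩
  rw [ModularGroup.denom_apply, h0, h1]
  simp

theorem cont_smul (γ : SL(2, ℤ)) : Continuous fun z : ℍ => (γ • z : ℍ) :=
  continuous_const_smul (γ : GL (Fin 2) ℝ)

theorem int_conj {α : Type*} [MeasurableSpace α] {μ : Measure α} {F : α → ℂ}
    (h : Integrable F μ) : Integrable (fun x => (starRingEnd ℂ) (F x)) μ :=
  (conjCLE : ℂ →L[ℝ] ℂ).integrable_comp h

namespace W1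

variable {g : ℂ → ℂ} {n : ℕ} (w : W1 g n)

include w

theorem HT_T (t : ℝ) (k : ℤ) (z : ℍ) : HT g n t (ModularGroup.T ^ k • z) = HT g n t z := by
  obtain ⟨h1, h2, h3⟩ := T_facts k n z
  unfold HT
  rw [f_mob (T_facts k 17 z).1, w.mob _ h1, h2, h3, UpperHalfPlane.coe_im, UpperHalfPlane.coe_im,
    ModularGroup.im_T_zpow_smul, jacobiSym.one_left]
  simp

theorem HT_meas (t : ℝ) : Measurable (HT g n t) := by
  have h1 : Measurable fun y : ℝ => Kt (chi0 n) t y := by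
    unfold Kt
    exact Measurable.tsum fun e => by fun_prop
  have h2 : Measurable fun z : ℍ => z.im := UpperHalfPlane.continuous_im.measurable
  refine ((f_cont.measurable.mul (continuous_conj.comp w.cont).measurable).mul
    (measurable_ofReal.comp (h1.comp h2))).mul ((measurable_ofReal.comp h2).pow_const 2)

theorem PhiT_rows (h17 : ¬ 17 ∣ n) {t : ℝ} (ht : 0 < t) (z : ℍ)
    (hs : Summable fun w : ℤ × ℤ => ‖kk t w z‖) :
    PhiT g n t z = ∑' p : CP, if ((17 * n : ℕ) : ℤ) ∣ p.1.1 then HT g n t (gp p • z) else 0 := by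
  unfold PhiT
  rw [PsiK_rows h17 ht z hs, ← tsum_mul_left, conj_tsum, ← tsum_mul_left, ← tsum_mul_right]
  refine tsum_congr fun p => ?_
  split_ifs with h
  · have hg : gp p ∈ Gamma0 (17 * n) := mem_G0.mpr (by rw [gp0]; exact h)
    have hd : denom (gp p) z ≠ 0 := denom_ne_zero _ _
    have h1 := pet_mob (G0_le hg).1 z
      (g z * ((jacobiSym p.1.2 n : ℂ) * Kt (chi0 n) t (gp p • z).im / denom (gp p) z))
    rw [← h1]
    unfold HT
    have e : denom (gp p) z ^ 2 * (g z * ((jacobiSym p.1.2 n : ℂ) * Kt (chi0 n) t (gp p • z).im /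
        denom (gp p) z)) = (jacobiSym p.1.2 n * denom (gp p) z * g z) *
          Kt (chi0 n) t (gp p • z).im := by field_simp
    rw [w.mob _ (G0_le hg).2, gp1, UpperHalfPlane.coe_im, e, map_mul, conj_ofReal]
    ring
  · simp

theorem fixed_t (hK : KerStmt) (h17 : ¬ 17 ∣ n) {b : ℕ → ℝ} {C : ℝ}
    (hb : ∀ m, |b m| ≤ C * (m + 1))
    (hg : ∀ z : ℂ, 0 < z.im → HasSum (fun m : ℕ => (b m : ℂ) * qq z ^ m) (g z))
    {κ : Type*} (s : Finset κ) (β : κ → SL(2, ℤ)) (c : ℕ)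
    (hc : ∀ δ : SL(2, ℤ),
      (s.filter fun k => ((17 * n : ℕ) : ℤ) ∣ (δ * (β k)⁻¹ : SL(2, ℤ)) 1 0).card = c)
    {t : ℝ} (ht : 0 < t) :
    ∫ z in (𝒟 : Set ℍ), ∑ k ∈ s, PhiT g n t (β k • z) = 2 * c *
      ((∑' p : ℕ × ℕ, chi0 n p.1 * p.1 * an r3 p.2 * b p.2 * KB (t * p.1 ^ 2 * p.2) : ℝ) : ℂ) := by
  obtain ⟨A, hA⟩ := an_le
  have hf : ∀ z : ℂ, 0 < z.im → HasSum (fun m : ℕ => ((an r3 m : ℝ) : ℂ) * qq z ^ m)
      (Fc Th3 z) := fun z hz => by
    simpa using (F_form' T3).sum z hz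
  obtain ⟨h1, h2⟩ := strip_sum (C := max A C) (fun m => (hA m).trans (by gcongr; exact le_max_left _ _))
    (fun m => (hb m).trans (by gcongr; exact le_max_right _ _)) (abs_chi0 n) hf hg ht
  obtain ⟨h3, h4⟩ := strip_int
    (φ := fun z => Fc Th3 z * (starRingEnd ℂ) (g z) * Kt (chi0 n) t z.im) h1
  obtain ⟨h5, h6⟩ := unfoldS (w.HT_meas t) (w.HT_T t) h3
  have h7 : ∫ z in strip, HT g n t z = _ := h4.trans h2
  rw [h7] at h6
  rw [mul_comm (2 : ℂ), mul_assoc, ← h6, ← integral_const_mul]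
  refine integral_congr_ae (h5.mono fun z hz => ?_)
  beta_reduce
  rw [← count_sum (w.HT_T t) hz _ s β c hc]
  exact Finset.sum_congr rfl fun k _ =>
    w.PhiT_rows h17 ht _ (hK.1 t ht _ (β k • z).im_pos)

omit w in
theorem PhiT_int_t (hK : KerStmt) (hn : 0 < n) (z : ℍ) :
    IntegrableOn (fun t => PhiT g n t z) (Ioi 0) := by
  have h1 := (hK.2.2.1 _ _ (by omega) (perB_phi0 n)).1 _ z.im_pos
  have h2 := ((int_conj (h1.const_mul (g z))).const_mul (Fc Th3 z)).mul_const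
    (((z.im : ℝ) : ℂ) ^ 2)
  exact h2

theorem PhiT_int (hK : KerStmt) (hn : 0 < n) (β : SL(2, ℤ)) :
    Integrable (fun p : ℝ × ℍ => PhiT g n p.1 (β • p.2))
      ((volume.restrict (Ioi (0 : ℝ))).prod (volume.restrict (𝒟 : Set ℍ))) := by
  have hN : 0 < 17 * n := by omega
  have hmeas : AEStronglyMeasurable (fun p : ℝ × ℍ => PhiT g n p.1 (β • p.2))
      ((volume.restrict (Ioi (0 : ℝ))).prod (volume.restrict (𝒟 : Set ℍ))) := by
    rw [Measure.prod_restrict]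
    refine ContinuousOn.aestronglyMeasurable ?_ (measurableSet_Ioi.prod fd_meas)
    have c1 : Continuous fun p : ℝ × ℍ => (β • p.2 : ℍ) := (cont_smul β).comp continuous_snd
    have c2 : ContinuousOn (fun p : ℝ × ℍ => PsiK (phi0 n) p.1 (β • p.2 : ℍ))
        (Ioi (0 : ℝ) ×ˢ (𝒟 : Set ℍ)) :=
      ContinuousOn.comp (g := fun p : ℝ × ℍ => PsiK (phi0 n) p.1 p.2)
        (f := fun p : ℝ × ℍ => (p.1, (β • p.2 : ℍ))) (hK.2.1 _ (perB_phi0 n).1)
        (continuous_fst.prodMk c1).continuousOn fun p hp => ⟨hp.1, mem_univ _⟩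
    refine (((f_cont.comp c1).continuousOn).mul (continuous_conj.comp_continuousOn
      (((w.cont.comp c1).continuousOn).mul c2))).mul ?_
    exact ((continuous_ofReal.comp (UpperHalfPlane.continuous_im.comp c1)).pow 2).continuousOn
  rw [integrable_prod_iff' hmeas]
  constructor
  · exact Eventually.of_forall fun z => PhiT_int_t hK hn (β • z)
  · obtain ⟨C1, hC1, h1⟩ := f_dec
    obtain ⟨C2, hC2, h2⟩ := w.bdd
    obtain ⟨h3, C3, h4⟩ := hK.2.2.1 _ _ hN ((perB_phi0 n).rv β⁻¹)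
    have : IsFiniteMeasure (volume.restrict (𝒟 : Set ℍ)) := ⟨by simpa using fd_finite⟩
    refine Integrable.of_bound hmeas.norm.prod_swap.integral_prod_right' (C1 * C2 * C3) ?_
    refine (ae_restrict_iff' fd_meas).mpr (Eventually.of_forall fun z hz => ?_)
    have hy := z.im_pos
    have hz2 : 1 / 2 ≤ z.im := by
      have := ModularGroup.three_le_four_mul_im_sq_of_mem_fd hz
      nlinarith
    have hd : 0 < ‖denom β z‖ := norm_pos_iff.mpr (denom_ne_zero _ _)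
    rw [Real.norm_of_nonneg (integral_nonneg fun t => norm_nonneg _)]
    have h5 : ∀ t : ℝ, ‖PhiT g n t (β • z)‖ ≤
        C1 * C2 * ‖PsiK (fun w => phi0 n (rv w β⁻¹)) t z‖ := by
      intro t
      unfold PhiT
      rw [PsiK_smul, norm_mul, norm_mul, norm_conj, norm_mul, norm_mul, norm_pow, norm_real,
        Real.norm_of_nonneg (β • z).im_pos.le]
      have a1 := h1 β z hz2
      have a2 := h2 β z hz2
      have a3 : (β • z).im = z.im / ‖denom β z‖ ^ 2 := by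
        rw [ModularGroup.im_smul_eq_div_normSq, Complex.normSq_eq_norm_sq]
      have a4 := (β • z).im_pos
      calc _ ≤ ‖Fc Th3 (β • z : ℍ)‖ * (C2 * ‖denom β z‖ * (‖denom β z‖ *
            ‖PsiK (fun w => phi0 n (rv w β⁻¹)) t z‖)) * (β • z).im ^ 2 := by gcongr
        _ = ‖Fc Th3 (β • z : ℍ)‖ * (β • z).im * z.im * C2 *
            ‖PsiK (fun w => phi0 n (rv w β⁻¹)) t z‖ := by
            rw [sq (β • z).im]
            nth_rewrite 2 [a3]
            field_simp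
        _ ≤ _ := by gcongr
    calc ∫ t in Ioi (0 : ℝ), ‖PhiT g n t (β • z)‖
        ≤ ∫ t in Ioi (0 : ℝ), C1 * C2 * ‖PsiK (fun w => phi0 n (rv w β⁻¹)) t z‖ :=
          integral_mono_of_nonneg (Eventually.of_forall fun t => norm_nonneg _)
            ((h3 z hy).norm.const_mul _) (Eventually.of_forall h5)
      _ ≤ C1 * C2 * C3 := by
          rw [integral_const_mul]
          gcongr
          exact h4 z hz2

theorem swap (hK : KerStmt) (hn : 0 < n) (hJ : jacobiSym 17 n = -1) {κ : Type*} (s : Finset κ)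
    (β : κ → SL(2, ℤ)) :
    ∫ t in Ioi (0 : ℝ), ∫ z in (𝒟 : Set ℍ), ∑ k ∈ s, PhiT g n t (β k • z) =
      ∫ z in (𝒟 : Set ℍ), ∑ k ∈ s, Fc Th3 (β k • z : ℍ) * (starRingEnd ℂ) (g (β k • z : ℍ) *
        (I0 n (17 * (β k • z : ℍ)) + I0 n (β k • z : ℍ) / 17)) * (((β k • z).im : ℝ) : ℂ) ^ 2 := by
  rw [integral_integral_swap (integrable_finsetSum s fun k _ => w.PhiT_int hK hn (β k))]
  refine integral_congr_ae (Eventually.of_forall fun z => ?_)
  beta_reduce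
  rw [integral_finsetSum]
  · refine Finset.sum_congr rfl fun k _ => ?_
    unfold PhiT
    rw [integral_mul_const, integral_const_mul, integral_conj, integral_const_mul,
      int_phi0 hK hn hJ (β k • z).im_pos]
  · exact fun k _ => PhiT_int_t hK hn (β k • z)

end W1

variable {K : Type} [Field K] [NumberField K] {n : ℕ} {q : QF K n}

theorem Hyp.trace {R : Rep q} (H : Hyp R) (e : ℕ) {γ : Row (P1 n) → SL(2, ℤ)}
    (hγ : ∀ w ∈ Fintype.piFinset (sR n), ract (e0 _) (γ w) = w ∧ γ w ∈ Gamma0 17) (c₀ : ℂ)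
    (z : ℍ) : ∑ w ∈ Fintype.piFinset (sR n), Fc Th3 (γ w • z : ℍ) *
      (starRingEnd ℂ) (gB R e (γ w • z : ℍ) * (c₀ * gB R 1 (17 * (γ w • z : ℍ)) +
        c₀ * gB R 1 (γ w • z : ℍ) / 17)) * (((γ w • z).im : ℝ) : ℂ) ^ 2 =
      Fc Th3 z * (starRingEnd ℂ) (c₀ * cN n * ∑ A, ∑ B, (R.chi e A : ℂ) *
        thW q (R.X A) (R.X B) (R.a A) (R.a B) z) * ((z.im : ℝ) : ℂ) ^ 2 := by
  set Y : Row (P1 n) → ℂ := fun w => ∑ A, ∑ B, c₀ * (R.chi e A : ℂ) *
    ((H.pr A B).w1.Ps w z + (H.pr A B).w0.Ps (fun i => w (some i)) z / 17) with hY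
  have h1 : ∀ w ∈ Fintype.piFinset (sR n), gB R e (γ w • z : ℍ) *
      (c₀ * gB R 1 (17 * (γ w • z : ℍ)) + c₀ * gB R 1 (γ w • z : ℍ) / 17) =
      denom (γ w) z ^ 2 * Y w := by
    intro w hw
    have a1 := Hyp.gB_mul (R := R) e 1 (γ w • z : ℍ) (17 * (γ w • z : ℍ))
    have a2 := Hyp.gB_mul (R := R) e 1 (γ w • z : ℍ) (γ w • z : ℍ)
    have a3 : ract (e0 (P0 n)) (γ w) = fun i => w (some i) := by
      funext i
      rw [← congrFun (hγ w hw).1 (some i), ract_e0, ract_e0]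
      rfl
    calc _ = c₀ * (gB R e (γ w • z : ℍ) * gB R 1 (17 * (γ w • z : ℍ))) +
          c₀ / 17 * (gB R e (γ w • z : ℍ) * gB R 1 (γ w • z : ℍ)) := by ring
      _ = _ := by
        rw [a1, a2, hY]
        simp only [Finset.mul_sum, ← Finset.sum_add_distrib]
        refine Finset.sum_congr rfl fun A _ => Finset.sum_congr rfl fun B _ => ?_
        have b1 := (H.pr A B).mob1 (γ w) z
        have b2 := (H.pr A B).mob0 (γ w) z
        rw [(hγ w hw).1] at b1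
        rw [a3] at b2
        simp only [Hyp.pr] at b1 b2
        simp only [Hyp.pr]
        rw [b1, b2]
        simp only [Rep.chi, jacobiSym.one_right, Int.cast_one]
        ring
  rw [Finset.sum_congr rfl fun w hw => by rw [h1 w hw, pet_mob (hγ w hw).2],
    ← Finset.sum_mul, ← Finset.mul_sum, ← map_sum]
  congr 3
  simp only [hY]
  rw [Finset.sum_comm, Finset.mul_sum]
  refine Finset.sum_congr rfl fun A _ => ?_
  rw [Finset.sum_comm, Finset.mul_sum]
  refine Finset.sum_congr rfl fun B _ => ?_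
  rw [← Finset.mul_sum, Finset.sum_add_distrib, ← Finset.sum_div, (H.pr A B).sum0 z.im_pos,
    (H.pr A B).sum1 z.im_pos]
  simp only [Hyp.pr]
  ring

/-- **the formula of Gross and Waldspurger** -/
theorem gross (hC : CountStmt) (hL : LStmt) (hK : KerStmt) (hO : OrthStmt) (hV : ConvStmt) :
    GrossStmt := by
  obtain ⟨o1, o2, o3, c, hc, o4⟩ := hO
  refine ⟨1 / (8 * π ^ 2 * c), by positivity, fun K _ _ n q R φ hn4 h17 hB => ?_⟩
  obtain ⟨hJ, hsum⟩ := hC K n q R hn4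
  have H : Hyp R := ⟨hn4, h17, hJ, hsum⟩
  obtain ⟨C₀, ε, hε, hI⟩ := hK.2.2.2 n q.hd hn4
  refine ⟨ε, hε, fun n₁ n₂ hn => ?_⟩
  have hn0 := q.d_pos
  have hn0' : (0 : ℝ) < n := by exact_mod_cast hn0
  have hw : (0 : ℝ) < wn n := by
    unfold wn
    split_ifs <;> norm_num
  have hε2 : ε ^ 2 = 1 := by rcases hε with rfl | rfl <;> norm_num
  have hε0 : ε ≠ 0 := by rcases hε with rfl | rfl <;> norm_num
  set c₀ : ℝ := ε * 4 / √(n : ℝ) / wn n with hc₀
  have hc0 : c₀ ≠ 0 := by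
    have := Real.sqrt_pos.mpr hn0'
    rw [hc₀]
    positivity
  have hI0 : ∀ z : ℂ, 0 < z.im → I0 n z = (c₀ : ℂ) * gB R 1 z := fun z hz => H.I0_eq hI hz
  have w : W1 (gB R n₁) n :=
    ⟨(mdiff_of_sum (H.sum n₁ n₂ hn)).1.continuous,
      fun γ hγ z => H.gB_mob (by exact_mod_cast hc0) hI0 hn hγ z, H.gB_bdd n₁⟩
  have h17' := not_17 h17
  obtain ⟨γ, hγ, hcnt⟩ := exists_reps q.hd h17'
  set s : Finset (Option (Fin 17) × Row (P1 n)) := Finset.univ ×ˢ Fintype.piFinset (sR n) with hs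
  set β : Option (Fin 17) × Row (P1 n) → SL(2, ℤ) := fun k => γ k.2 * cos17 k.1 with hβ
  set b : ℕ → ℝ := fun m =>
    ((if m = 0 then ∑ c, R.chi n₁ c else wn n * conv n₁ n₂ m : ℤ) : ℝ) with hb
  have hb1 : ∀ m, |b m| ≤ (|b 0| + wn n) * (m + 1) := by
    intro m
    have hm : (0 : ℝ) ≤ m := Nat.cast_nonneg m
    by_cases h : m = 0
    · rw [h]
      simp only [Nat.cast_zero, zero_add, mul_one]
      linarith
    · have h1 : |b m| ≤ wn n * m := by
        simp only [hb, if_neg h]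
        push_cast
        rw [abs_mul, abs_of_pos hw]
        exact mul_le_mul_of_nonneg_left (conv_le _ _ _) hw.le
      have h2 := abs_nonneg (b 0)
      nlinarith
  have hb2 : ∀ z : ℂ, 0 < z.im → HasSum (fun m : ℕ => (b m : ℂ) * qq z ^ m) (gB R n₁ z) :=
    fun z hz => by simpa only [hb, ofReal_intCast] using H.sum n₁ n₂ hn z hz
  have hodd : Odd n := by rw [Nat.odd_iff]; omega
  have d1 : n₁ ∣ n := Dvd.intro _ hn
  have d2 : n₂ ∣ n := Dvd.intro_left _ hn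
  obtain ⟨-, hconv⟩ := hV n₁ n₂ (hodd.of_dvd_nat d1) (hodd.of_dvd_nat d2)
    (hL n₁ (q.hd.squarefree_of_dvd d1) (hodd.of_dvd_nat d1) fun h => h17' (h.trans d1)).1
    (hL n₂ (q.hd.squarefree_of_dvd d2) (hodd.of_dvd_nat d2) fun h => h17' (h.trans d2)).1
  have e1 : ∀ t ∈ Ioi (0 : ℝ), ∫ z in (𝒟 : Set ℍ), ∑ k ∈ s, PhiT (gB R n₁) n t (β k • z) =
      ((2 * cN n * wn n * ∑' p : ℕ × ℕ, Jt n₁ n₂ t p : ℝ) : ℂ) := by
    intro t ht
    rw [w.fixed_t hK h17' hb1 hb2 s β (cN n) (count_all (fun w hw => (hγ w hw).2) hcnt) ht]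
    have : ∑' p : ℕ × ℕ, chi0 n p.1 * p.1 * an r3 p.2 * b p.2 * KB (t * p.1 ^ 2 * p.2) =
        wn n * ∑' p : ℕ × ℕ, Jt n₁ n₂ t p := by
      rw [← tsum_mul_left]
      refine tsum_congr fun p => ?_
      unfold Jt chi0
      rw [hn]
      by_cases h1 : p.2 = 0
      · have : an r3 0 = 0 := Vale.Agent.P004.H26.H792.a_zero
        rw [h1, this]
        simp
      · simp only [hb, if_neg h1]
        split_ifs
        · simp
        · push_cast; ring
    rw [this]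
    push_cast
    ring
  have e2 := w.swap hK hn0 (J_17 hn4 h17) s β
  rw [setIntegral_congr_fun measurableSet_Ioi e1, integral_complex_ofReal, integral_const_mul,
    hconv] at e2
  set h : ℤ := ∑ A, R.chi n₁ A with hh
  set P : ℤ := ∑ A, R.chi n₁ A * φ A with hP
  have e3 : ∀ z : ℍ, ∑ k ∈ s, Fc Th3 (β k • z : ℍ) * (starRingEnd ℂ) (gB R n₁ (β k • z : ℍ) *
      (I0 n (17 * (β k • z : ℍ)) + I0 n (β k • z : ℍ) / 17)) * (((β k • z).im : ℝ) : ℂ) ^ 2 =
      (c₀ * cN n * h ^ 2) * petI ec z + (c₀ * cN n * P ^ 2) * petI (Fc Th3) z := by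
    intro z
    unfold petI
    rw [hs, Finset.sum_product, Finset.mul_sum, Finset.mul_sum, ← Finset.sum_add_distrib]
    refine Finset.sum_congr rfl fun i _ => ?_
    have a1 := H.trace n₁ hγ c₀ (cos17 i • z)
    rw [hB n₁ d1 _ (cos17 i • z).im_pos] at a1
    refine Eq.trans (Finset.sum_congr rfl fun w _ => ?_) (a1.trans ?_)
    · simp only [hβ, mul_smul]
      rw [hI0 _ (γ w • cos17 i • z).im_pos, hI0 _ (by simpa using (γ w • cos17 i • z).im_pos)]
    · simp only [map_mul, map_add, map_pow, conj_ofReal, map_natCast, map_intCast, ← hh, ← hP]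
      ring
  simp only [e3] at e2
  rw [integral_add (o1.const_mul _) (o2.const_mul _), integral_const_mul, integral_const_mul, o3,
    o4, mul_zero, zero_add] at e2
  have e4 : 2 * cN n * wn n * ((∫ y in Ioi (0 : ℝ), FF n₁ y) * ∫ y in Ioi (0 : ℝ), FF n₂ y) =
      c₀ * cN n * P ^ 2 * c := by exact_mod_cast e2
  have hcN : (cN n : ℝ) ≠ 0 := by exact_mod_cast (cN_pos (n := n)).ne'
  have hsq : √(n₁ : ℝ) * √(n₂ : ℝ) = √(n : ℝ) := by
    rw [← Real.sqrt_mul (Nat.cast_nonneg _), ← hn]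
    push_cast
    rfl
  have hsn := Real.sqrt_pos.mpr hn0'
  have e5 : ell n₁ * ell n₂ = √(n : ℝ) * (2 * π) ^ 2 *
      ((∫ y in Ioi (0 : ℝ), FF n₁ y) * ∫ y in Ioi (0 : ℝ), FF n₂ y) := by
    unfold ell Lv
    rw [← hsq]
    ring
  rw [e5]
  generalize (∫ y in Ioi (0 : ℝ), FF n₁ y) * ∫ y in Ioi (0 : ℝ), FF n₂ y = J at e4 ⊢
  rw [hc₀] at e4
  have hpi := Real.pi_pos
  field_simp at e4 ⊢
  linear_combination (-2 * ε) * e4 - (P : ℝ) ^ 2 * c * 8 * hε2

end Vale.Agent.P014A
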