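import Vale.Agent.P014A.WD
import Vale.Agent.P014B.Iface

/-!
# P014 (A): the lattice of a pair of ideals and its discriminant form
-/

open NumberField Complex
open scoped Classical Real

namespace Vale.Agent.P014A

open Vale.Agent.P017.H185 Vale.Agent.P014.H70
open Vale.Agent.P014.H70.Dat (vH vH_apply vH_inj fn ip_fn fn_inj fn_smul theta_cancel tr_mod
  tr_natmul tr_self)
open Vale.Agent.P014.H70.Lat (ind)
open Vale.Agent.P014B (thB)

/-! ### sums of fractions -/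

theorem ex_frac {ι : Type} [Fintype ι] {P : ι → ℕ} [∀ i, Fact (P i).Prime]
    (hinj : Function.Injective P) : ∃ u : ∀ i, ZMod (P i), (∀ i, u i ≠ 0) ∧ ∀ k : ℤ,
      ex (k / (∏ i, P i : ℕ)) = ∏ i, psi (P i) (u i * k) := by
  set c : ι → ℕ := fun i => ∏ j ∈ Finset.univ.erase i, P j with hc
  have hcP : ∀ i, P i * c i = ∏ j, P j := fun i => Finset.mul_prod_erase _ _ (Finset.mem_univ i)
  have hc0 : ∀ i, (c i : ZMod (P i)) ≠ 0 := by
    intro i h
    rw [ZMod.natCast_eq_zero_iff, hc] at h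
    obtain ⟨j, hj, hj2⟩ := (Prime.dvd_finsetProd_iff (Fact.out : (P i).Prime).prime _).mp h
    have := (Nat.prime_dvd_prime_iff_eq (Fact.out : (P i).Prime) (Fact.out : (P j).Prime)).mp hj2
    exact (Finset.mem_erase.mp hj).1 (hinj this).symm
  refine ⟨fun i => (c i : ZMod (P i))⁻¹, fun i => inv_ne_zero (hc0 i), fun k => ?_⟩
  set U : ι → ℤ := fun i => (((c i : ZMod (P i))⁻¹).val : ℤ) with hU
  have hU' : ∀ i, ((U i : ℤ) : ZMod (P i)) = (c i : ZMod (P i))⁻¹ := fun i => by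
    rw [hU]
    simp only [Int.cast_natCast]
    exact ZMod.natCast_zmod_val _
  have hN0 : 0 < ∏ j, P j := Finset.prod_pos fun j _ => (Fact.out : (P j).Prime).pos
  have h1 : ((∏ j, P j : ℕ) : ℤ) ∣ ∑ i, U i * c i - 1 := by
    push_cast
    apply Finset.prod_dvd_of_coprime
    · intro i _ j _ hij
      have : Nat.Coprime (P i) (P j) :=
        (Nat.coprime_primes (Fact.out : (P i).Prime) (Fact.out : (P j).Prime)).mpr
          fun h => hij (hinj h)
      exact Nat.isCoprime_iff_coprime.mpr this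
    · intro i _
      rw [← ZMod.intCast_zmod_eq_zero_iff_dvd]
      push_cast
      rw [Finset.sum_eq_single i]
      · rw [hU', inv_mul_cancel₀ (hc0 i), sub_self]
      · intro j _ hj
        have : (c j : ZMod (P i)) = 0 := by
          rw [ZMod.natCast_eq_zero_iff, hc]
          exact Finset.dvd_prod_of_mem _ (Finset.mem_erase.mpr ⟨hj.symm, Finset.mem_univ _⟩)
        rw [this, mul_zero]
      · intro h; exact absurd (Finset.mem_univ _) h
  obtain ⟨e, he⟩ := h1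
  have h2 : ∀ i, psi (P i) ((c i : ZMod (P i))⁻¹ * k) = ex ((U i * k : ℤ) / (P i : ℝ)) := by
    intro i
    have : (c i : ZMod (P i))⁻¹ * k = ((U i * k : ℤ) : ZMod (P i)) := by
      rw [Int.cast_mul, hU']
    rw [this]
    unfold psi ex
    rw [ZMod.stdAddChar_coe]
    congr 1
    push_cast
    ring
  simp only [h2]
  have h3 : ∀ s : Finset ι, ∏ i ∈ s, ex ((U i * k : ℤ) / (P i : ℝ)) =
      ex (∑ i ∈ s, (U i * k : ℤ) / (P i : ℝ)) := by
    intro s
    induction s using Finset.induction_on with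
    | empty => simp [ex_zero]
    | insert i s hi ih => rw [Finset.prod_insert hi, Finset.sum_insert hi, ex_add, ih]
  rw [h3]
  have hN : ((∏ j, P j : ℕ) : ℝ) ≠ 0 := by exact_mod_cast hN0.ne'
  have h4 : ∑ i, ((U i * k : ℤ) / (P i : ℝ)) = k / (∏ i, P i : ℕ) + ((e * k : ℤ) : ℝ) := by
    have h5 : ∀ i, ((U i * k : ℤ) / (P i : ℝ)) = (U i * c i : ℤ) * k / (∏ i, P i : ℕ) := by
      intro i
      have hP : (P i : ℝ) ≠ 0 := by exact_mod_cast (Fact.out : (P i).Prime).ne_zero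
      have hc' : (c i : ℝ) ≠ 0 := by
        intro h
        have : c i = 0 := by exact_mod_cast h
        exact hc0 i (by rw [this]; simp)
      rw [← hcP i]
      push_cast
      field_simp
    simp only [h5]
    rw [← Finset.sum_div, ← Finset.sum_mul, ← Int.cast_sum,
      show ∑ i, U i * c i = 1 + (∏ j, P j : ℕ) * e by rw [← he]; ring]
    push_cast at hN ⊢
    field_simp
  rw [h4, ex_add, ex_int, mul_one]

theorem crt {ι : Type} [Fintype ι] {P : ι → ℕ} [∀ i, Fact (P i).Prime]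
    (hinj : Function.Injective P) (r : ∀ i, ZMod (P i)) : ∃ k : ℤ, ∀ i, (k : ZMod (P i)) = r i := by
  have hcop : Pairwise (Function.onFun Nat.Coprime P) := fun i j hij =>
    (Nat.coprime_primes (Fact.out : (P i).Prime) (Fact.out : (P j).Prime)).mpr
      fun h => hij (hinj h)
  obtain ⟨x, hx⟩ := (ZMod.prodEquivPi P hcop).surjective r
  obtain ⟨k, rfl⟩ := ZMod.intCast_surjective x
  refine ⟨k, fun i => ?_⟩
  rw [← hx, map_intCast]
  rfl

theorem sqf_dvd {g : ℕ} (hg : Squarefree g) {X : ℤ}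
    (h : ∀ p : ℕ, p.Prime → p ∣ g → (p : ℤ) ∣ X) : (g : ℤ) ∣ X := by
  rw [Int.natCast_dvd, ← Nat.prod_primeFactors_of_squarefree hg]
  apply Finset.prod_primes_dvd
  · intro p hp; exact (Nat.prime_of_mem_primeFactors hp).prime
  · intro p hp
    exact Int.natCast_dvd.mp (h p (Nat.prime_of_mem_primeFactors hp) (Nat.dvd_of_mem_primeFactors hp))

theorem tsum_ind {κ : Type*} {j : κ → V} (hj : Function.Injective j) {S : AddSubgroup V}
    (hS : ∀ v, v ∈ S ↔ ∃ k, j k = v) (F : V → ℂ) : ∑' v, ind S v * F v = ∑' k, F (j k) := by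
  rw [← hj.tsum_eq (f := fun v => ind S v * F v)]
  · refine tsum_congr fun k => ?_
    simp only [ind, if_pos ((hS _).mpr ⟨k, rfl⟩), one_mul]
  · intro v hv
    rw [Function.mem_support] at hv
    by_contra h
    apply hv
    simp only [ind, if_neg (fun h' => h ((hS v).mp h')), zero_mul]

variable {K : Type} [Field K] [NumberField K] {n : ℕ}

theorem n_dvd_tr (q : QF K n) (z : 𝓞 K) : (n : ℤ) ∣ tr q (q.t * z) := by
  apply theta_dvd_int q
  rw [← add_s, map_mul, q.s_t]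
  exact ⟨z - q.s z, by ring⟩

theorem crd_lin (q : QF K n) (a b : ℤ) : crd q ((a : 𝓞 K) + b * q.t) = (2 * a, 2 * b) := by
  apply crd_eq
  simp only [map_add, map_mul, map_intCast, QF.coe_t]
  push_cast
  ring

theorem N_mul' (q : QF K n) (x y : 𝓞 K) : q.N (x * y) = q.N x * q.N y := by
  have : ((q.N (x * y) : ℕ) : 𝓞 K) = ((q.N x * q.N y : ℕ) : 𝓞 K) := by
    push_cast
    rw [← q.mul_s, ← q.mul_s, ← q.mul_s, map_mul]
    ring
  exact_mod_cast this

theorem N_t (q : QF K n) : q.N q.t = n := by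
  have : ((q.N q.t : ℕ) : 𝓞 K) = (n : 𝓞 K) := by
    rw [← q.mul_s, q.s_t]
    have := q.t_sq
    linear_combination -this
  exact_mod_cast this

theorem N_nat (q : QF K n) (m : ℕ) : q.N (m : 𝓞 K) = m ^ 2 := by
  have : ((q.N (m : 𝓞 K) : ℕ) : 𝓞 K) = ((m ^ 2 : ℕ) : 𝓞 K) := by
    rw [← q.mul_s, map_natCast]
    push_cast
    ring
  exact_mod_cast this

theorem N_zero (q : QF K n) : q.N (0 : 𝓞 K) = 0 := by
  have := N_nat q 0
  simpa using this

/-- cancellation of an integer prime to the norm of an ideal -/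
theorem mem_cancel (q : QF K n) {X : Ideal (𝓞 K)} {a m : ℕ} (hX : q.HasN X a)
    (h : Nat.Coprime a m) {z : 𝓞 K} (hz : (m : 𝓞 K) * z ∈ X) : z ∈ X := by
  obtain ⟨u, v, huv⟩ := Nat.isCoprime_iff_coprime.mpr h
  have h2 : z = (u * z) * (a : 𝓞 K) + v * ((m : 𝓞 K) * z) := by
    have : ((u * a + v * m : ℤ) : 𝓞 K) = 1 := by rw [huv]; simp
    push_cast at this
    linear_combination (-z) * this
  rw [h2]
  exact X.add_mem (X.mul_mem_left _ (a_mem q hX)) (X.mul_mem_left _ hz)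

theorem mem_cancel_t (q : QF K n) {X : Ideal (𝓞 K)} {a : ℕ} (hX : q.HasN X a)
    (h : Nat.Coprime a n) {z : 𝓞 K} (hz : q.t * z ∈ X) : z ∈ X := by
  apply mem_cancel q hX h
  have := X.mul_mem_left (-q.t) hz
  have e : -q.t * (q.t * z) = (n : 𝓞 K) * z := by
    have := q.t_sq
    linear_combination (-z) * this
  rwa [e] at this

theorem t_dvd_of_tr (q : QF K n) (hn4 : n % 4 = 3) {z : 𝓞 K} (h : (n : ℤ) ∣ tr q z) : q.t ∣ z := by
  have h1 := theta_dvd_of_dvd q h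
  have h2 := tr_mod (q := q) z
  have h3 : q.t ∣ ((2 : ℕ) : 𝓞 K) * z := by
    have := dvd_sub h1 h2
    rw [sub_sub_cancel] at this
    exact_mod_cast this
  refine theta_cancel ?_ h3
  rw [Nat.coprime_two_left, Nat.odd_iff]
  omega

/-- a pair of ideals -/
structure Dt (q : QF K n) where
  X : Ideal (𝓞 K)
  Y : Ideal (𝓞 K)
  a : ℕ
  b : ℕ
  m : ℕ
  ha : 0 < a
  hb : 0 < b
  hX : q.HasN X a
  hY : q.HasN Y b
  hn4 : n % 4 = 3
  hamn : Nat.Coprime a (m * n)
  hbmn : Nat.Coprime b (m * n)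
  hmn : Nat.Coprime m n
  hm2 : Odd m
  hm : Squarefree m

namespace Dt

variable {q : QF K n} (E : Dt q)

theorem m_pos : 0 < E.m := E.hm2.pos

/-- the big lattice -/
def D' : AddSubgroup (𝓞 K × 𝓞 K) := E.X.toAddSubgroup.prod E.Y.toAddSubgroup

/-- the small lattice -/
def L' : AddSubgroup (𝓞 K × 𝓞 K) where
  carrier := {p | (∃ x ∈ E.X, p.1 = q.t * x) ∧ ∃ y ∈ E.Y, p.2 = E.m * (q.t * y)}
  zero_mem' := ⟨⟨0, E.X.zero_mem, by simp⟩, 0, E.Y.zero_mem, by simp⟩
  add_mem' := by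
    rintro p p' ⟨⟨x, hx, h1⟩, y, hy, h2⟩ ⟨⟨x', hx', h1'⟩, y', hy', h2'⟩
    refine ⟨⟨x + x', E.X.add_mem hx hx', ?_⟩, y + y', E.Y.add_mem hy hy', ?_⟩
    · show p.1 + p'.1 = _
      rw [h1, h1']; ring
    · show p.2 + p'.2 = _
      rw [h2, h2']; ring
  neg_mem' := by
    rintro p ⟨⟨x, hx, h1⟩, y, hy, h2⟩
    refine ⟨⟨-x, E.X.neg_mem hx, ?_⟩, -y, E.Y.neg_mem hy, ?_⟩
    · show -p.1 = _
      rw [h1]; ring
    · show -p.2 = _
      rw [h2]; ring

theorem mem_D' {p : 𝓞 K × 𝓞 K} : p ∈ E.D' ↔ p.1 ∈ E.X ∧ p.2 ∈ E.Y := Iff.rfl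

theorem mem_L' {p : 𝓞 K × 𝓞 K} :
    p ∈ E.L' ↔ (∃ x ∈ E.X, p.1 = q.t * x) ∧ ∃ y ∈ E.Y, p.2 = E.m * (q.t * y) := Iff.rfl

/-- the weights -/
def l : V := ((E.m * E.b, E.m * n * E.b), (E.a, n * E.a))

/-- the modulus -/
def M : ℕ := 2 * E.m * n * E.a * E.b

theorem ip_eq (p p' : 𝓞 K × 𝓞 K) : ip (vH q p) (E.l * vH q p') =
    2 * E.m * E.b * tr q (p.1 * q.s p'.1) + 2 * E.a * tr q (p.2 * q.s p'.2) := by
  have h1 := two_tr q p.1 p'.1
  have h2 := two_tr q p.2 p'.2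
  unfold ip l
  simp only [vH_apply, Prod.fst_mul, Prod.snd_mul]
  linear_combination (-(E.m : ℤ) * (E.b : ℤ)) * h1 - (E.a : ℤ) * h2

theorem pair_int {p p' : 𝓞 K × 𝓞 K} (hp : p ∈ E.L') (hp' : p' ∈ E.D') :
    (E.M : ℤ) ∣ ip (vH q p) (E.l * vH q p') := by
  obtain ⟨⟨x, hx, h1⟩, y, hy, h2⟩ := hp
  obtain ⟨h1', h2'⟩ := hp'
  obtain ⟨z1, hz1⟩ := mul_s_mem q E.hX hx h1'
  obtain ⟨z2, hz2⟩ := mul_s_mem q E.hY hy h2'
  have e1 : p.1 * q.s p'.1 = (E.a : 𝓞 K) * (q.t * z1) := by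
    rw [h1]; linear_combination q.t * hz1
  have e2 : p.2 * q.s p'.2 = (E.m : 𝓞 K) * ((E.b : 𝓞 K) * (q.t * z2)) := by
    rw [h2]; linear_combination (E.m : 𝓞 K) * q.t * hz2
  obtain ⟨k1, hk1⟩ := n_dvd_tr q z1
  obtain ⟨k2, hk2⟩ := n_dvd_tr q z2
  rw [ip_eq, e1, e2, tr_natmul, tr_natmul, tr_natmul, hk1, hk2]
  refine ⟨k1 + k2, ?_⟩
  unfold M
  push_cast
  ring

theorem dual {w : V} (h : ∀ p ∈ E.L', (E.M : ℤ) ∣ ip (vH q p) w) :
    ∃ p ∈ E.D', w = E.l * vH q p := by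
  have hn : (n : K) ≠ 0 := by exact_mod_cast q.d_pos.ne'
  have ha : (E.a : K) ≠ 0 := by exact_mod_cast E.ha.ne'
  have hb : (E.b : K) ≠ 0 := by exact_mod_cast E.hb.ne'
  have hm : (E.m : K) ≠ 0 := by exact_mod_cast E.m_pos.ne'
  have hθ2 := q.hθ
  set α := fn q w.1 with hα
  set β := fn q w.2 with hβ
  obtain ⟨y1, hy1, hy1'⟩ := dual_ideal q E.hn4 E.hX
    (w := q.θ * α / (2 * E.m * n * E.a * E.b)) (by
    intro x hx
    obtain ⟨k, hk⟩ := h (q.t * x, 0) ⟨⟨x, hx, rfl⟩, 0, E.Y.zero_mem, by simp⟩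
    refine ⟨k, ?_⟩
    have h1 := ip_fn (q := q) w (q.t * x, 0)
    rw [hk] at h1
    simp only [map_zero, mul_zero, add_zero, map_mul, QF.coe_t] at h1
    unfold M at h1
    push_cast at h1
    simp only [map_mul, map_div₀, map_natCast, map_ofNat]
    field_simp
    rw [← hα] at h1
    linear_combination -h1)
  obtain ⟨y2, hy2, hy2'⟩ := dual_ideal q E.hn4 E.hY (w := q.θ * β / (2 * n * E.a * E.b)) (by
    intro y hy
    obtain ⟨k, hk⟩ := h (0, E.m * (q.t * y)) ⟨⟨0, E.X.zero_mem, by simp⟩, y, hy, rfl⟩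
    refine ⟨k, ?_⟩
    have h1 := ip_fn (q := q) w (0, E.m * (q.t * y))
    rw [hk] at h1
    simp only [map_zero, mul_zero, zero_add, map_mul, QF.coe_t, map_natCast] at h1
    unfold M at h1
    push_cast at h1
    simp only [map_mul, map_div₀, map_natCast, map_ofNat]
    field_simp
    rw [← hβ] at h1
    apply mul_left_cancel₀ hm
    linear_combination -h1)
  rw [mem_map_iff] at hy1 hy2
  have e1 : α = 2 * (E.m * E.b) * q.σ ((algebraMap (𝓞 K) K) (-(q.s y1))) := by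
    rw [map_neg, QF.coe_s, map_neg, q.σσ, hy1']
    field_simp
    linear_combination α * hθ2
  have e2 : β = 2 * E.a * q.σ ((algebraMap (𝓞 K) K) (-(q.s y2))) := by
    rw [map_neg, QF.coe_s, map_neg, q.σσ, hy2']
    field_simp
    linear_combination β * hθ2
  have hw1 : w.1 = (E.m * E.b * (crd q (-(q.s y1))).1,
      n * (E.m * E.b) * (crd q (-(q.s y1))).2) := by
    apply fn_inj (q := q)
    have := fn_smul (q := q) (E.m * E.b) (-(q.s y1))
    rw [this, ← hα, e1]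
    push_cast
    ring
  have hw2 : w.2 = (E.a * (crd q (-(q.s y2))).1, n * E.a * (crd q (-(q.s y2))).2) := by
    apply fn_inj (q := q)
    have := fn_smul (q := q) (E.a) (-(q.s y2))
    rw [this, ← hβ, e2]
    push_cast
    ring
  refine ⟨(-(q.s y1), -(q.s y2)), ⟨E.X.neg_mem hy1, E.Y.neg_mem hy2⟩, ?_⟩
  unfold l
  ext <;> simp only [vH_apply, Prod.fst_mul, Prod.snd_mul]
  · rw [hw1]
  · rw [hw1]; ring
  · rw [hw2]
  · rw [hw2]

theorem M_smul (v : V) : E.M • v ∈ E.L'.map (vH q) := by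
  set c : ℤ := E.m * n * E.a * E.b with hc
  have ht := q.t_sq
  refine ⟨((c : 𝓞 K) * ((v.1.1 : 𝓞 K) + v.1.2 * q.t), (c : 𝓞 K) * ((v.2.1 : 𝓞 K) + v.2.2 * q.t)),
    ⟨⟨(-q.t * E.m * E.b * ((v.1.1 : 𝓞 K) + v.1.2 * q.t)) * E.a,
      E.X.mul_mem_left _ (a_mem q E.hX), ?_⟩,
      (-q.t * E.a * ((v.2.1 : 𝓞 K) + v.2.2 * q.t)) * E.b, E.Y.mul_mem_left _ (a_mem q E.hY), ?_⟩,
      ?_⟩
  · simp only [hc]
    push_cast
    linear_combination (E.m * E.a * E.b * ((v.1.1 : 𝓞 K) + v.1.2 * q.t)) * ht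
  · simp only [hc]
    push_cast
    linear_combination (E.m * E.a * E.b * ((v.2.1 : 𝓞 K) + v.2.2 * q.t)) * ht
  · rw [vH_apply]
    simp only [crd_int, crd_lin]
    refine vext ?_ ?_ ?_ ?_
    · rw [sm11]; simp only [Prod.smul_fst, smul_eq_mul, hc, M]; push_cast; ring
    · rw [sm12]; simp only [Prod.smul_snd, smul_eq_mul, hc, M]; push_cast; ring
    · rw [sm21]; simp only [Prod.smul_fst, smul_eq_mul, hc, M]; push_cast; ring
    · rw [sm22]; simp only [Prod.smul_snd, smul_eq_mul, hc, M]; push_cast; ring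

/-- the lattice -/
noncomputable def lb : Lb where
  M := E.M
  hM := by
    have h1 := q.d_pos
    have h2 := E.ha
    have h3 := E.hb
    have h4 := E.m_pos
    unfold M
    positivity
  l := E.l
  hl := by
    have h1 := q.d_pos
    have h2 := E.ha
    have h3 := E.hb
    have h4 := E.m_pos
    unfold l
    refine ⟨⟨?_, ?_⟩, ?_, ?_⟩ <;> simp only <;> positivity
  D := E.D'.map (vH q)
  L := E.L'.map (vH q)
  hML := E.M_smul
  hint := by
    rintro _ ⟨p, hp, rfl⟩ _ ⟨p', hp', rfl⟩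
    exact E.pair_int hp hp'
  hdual := by
    intro w hw
    obtain ⟨p, hp, e⟩ := E.dual (w := w) fun p hp => hw _ ⟨p, hp, rfl⟩
    exact ⟨_, ⟨p, hp, rfl⟩, e⟩

theorem ip_self (p : 𝓞 K × 𝓞 K) : ip (vH q p) (E.l * vH q p) =
    4 * (E.m * (E.b * q.N p.1) + E.a * q.N p.2) := by
  rw [ip_eq, tr_self, tr_self]
  ring

theorem gg_vH (τ : ℂ) (p : 𝓞 K × 𝓞 K) : gg τ E.lb.t (vH q p) =
    cexp (2 * π * I * τ * ((((q.N p.1 : ℝ) / E.a + (q.N p.2 : ℝ) / (E.m * E.b)) / n : ℝ))) := by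
  have hn : (n : ℂ) ≠ 0 := by exact_mod_cast q.d_pos.ne'
  have ha : (E.a : ℂ) ≠ 0 := by exact_mod_cast E.ha.ne'
  have hb : (E.b : ℂ) ≠ 0 := by exact_mod_cast E.hb.ne'
  have hm : (E.m : ℂ) ≠ 0 := by exact_mod_cast E.m_pos.ne'
  unfold gg
  rw [E.lb.TT_eq]
  congr 1
  show _ * (((ip (vH q p) (E.l * vH q p) : ℝ) / (E.M : ℝ) : ℝ) : ℂ) = _
  rw [E.ip_self]
  unfold M
  push_cast
  field_simp
  ring

/-- the theta series of the small lattice -/
theorem thL_eq {τ : ℂ} (hτ : 0 < τ.im) : ∑' w : V, ind E.lb.L w * gg τ E.lb.t w =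
    thB q E.X E.a τ * thB q E.Y E.b (E.m * τ) := by
  have hn : (n : ℂ) ≠ 0 := by exact_mod_cast q.d_pos.ne'
  have ha : (E.a : ℂ) ≠ 0 := by exact_mod_cast E.ha.ne'
  have hb : (E.b : ℂ) ≠ 0 := by exact_mod_cast E.hb.ne'
  have hm : (E.m : ℂ) ≠ 0 := by exact_mod_cast E.m_pos.ne'
  have hm' : (E.m : 𝓞 K) ≠ 0 := by exact_mod_cast E.m_pos.ne'
  set j : E.X × E.Y → V := fun p => vH q (q.t * p.1, E.m * (q.t * p.2)) with hj
  have hinj : Function.Injective j := by
    intro p p' h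
    have h1 := vH_inj h
    rw [Prod.mk.injEq] at h1
    exact Prod.ext (Subtype.ext (mul_left_cancel₀ q.t_ne_zero h1.1))
      (Subtype.ext (mul_left_cancel₀ q.t_ne_zero (mul_left_cancel₀ hm' h1.2)))
  have hval : ∀ p : E.X × E.Y, gg τ E.lb.t (j p) =
      cexp (2 * π * I * τ * ((q.N p.1 : ℝ) / E.a : ℝ)) *
        cexp (2 * π * I * (E.m * τ) * ((q.N p.2 : ℝ) / E.b : ℝ)) := by
    intro p
    rw [hj]
    simp only
    rw [E.gg_vH, ← Complex.exp_add]
    congr 1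
    simp only [N_mul', N_t, N_nat]
    push_cast
    field_simp
  rw [tsum_ind hinj]
  · have hs := (summable_norm_gg' hτ E.lb.t_pos).comp_injective hinj
    have s1 : Summable fun x : E.X => ‖cexp (2 * π * I * τ * ((q.N x : ℝ) / E.a : ℝ))‖ := by
      refine (hs.comp_injective (Prod.mk_left_injective (0 : E.Y))).congr fun x => ?_
      simp only [Function.comp_apply]
      rw [hval]
      simp [N_zero]
    have s2 : Summable fun y : E.Y =>
        ‖cexp (2 * π * I * (E.m * τ) * ((q.N y : ℝ) / E.b : ℝ))‖ := by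
      refine (hs.comp_injective (Prod.mk_right_injective (0 : E.X))).congr fun x => ?_
      simp only [Function.comp_apply]
      rw [hval]
      simp [N_zero]
    unfold thB
    rw [tsum_mul_tsum_of_summable_norm s1 s2]
    exact tsum_congr hval
  · intro v
    constructor
    · rintro ⟨p, ⟨⟨x, hx, h1⟩, y, hy, h2⟩, rfl⟩
      refine ⟨(⟨x, hx⟩, ⟨y, hy⟩), ?_⟩
      rw [hj]
      simp only
      rw [← h1, ← h2]
    · rintro ⟨p, rfl⟩
      exact ⟨_, ⟨⟨p.1, p.1.2, rfl⟩, p.2, p.2.2, rfl⟩, rfl⟩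

section disc

variable {ι : Type} [Fintype ι] {P : ι → ℕ} [∀ i, Fact (P i).Prime]

/-- the projection to the discriminant group -/
noncomputable def prH (n : ℕ) (P : ι → ℕ) : V →+ Row P where
  toFun v := fun i => if P i ∣ n then ((v.1.1 : ZMod (P i)), (v.2.1 : ZMod (P i)))
    else ((v.2.1 : ZMod (P i)), (v.2.2 : ZMod (P i)))
  map_zero' := by
    funext i
    split_ifs <;> simp
  map_add' v w := by
    funext i
    simp only [Pi.add_apply]
    split_ifs <;> simp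

omit [Fintype ι] in
theorem prH_apply (v : V) (i : ι) : prH n P v i =
    if P i ∣ n then ((v.1.1 : ZMod (P i)), (v.2.1 : ZMod (P i)))
    else ((v.2.1 : ZMod (P i)), (v.2.2 : ZMod (P i))) := rfl

theorem exists_idx (hprod : ∏ i, P i = E.m * n) {p : ℕ} (hp : p.Prime) (h : p ∣ E.m * n) :
    ∃ i, P i = p := by
  rw [← hprod] at h
  obtain ⟨j, -, hj⟩ := (Prime.dvd_finsetProd_iff hp.prime _).mp h
  exact ⟨j, ((Nat.prime_dvd_prime_iff_eq hp (Fact.out : (P j).Prime)).mp hj).symm⟩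

omit [∀ i, Fact (P i).Prime] in
theorem P_dvd (hprod : ∏ i, P i = E.m * n) (i : ι) : P i ∣ E.m * n := by
  rw [← hprod]
  exact Finset.dvd_prod_of_mem _ (Finset.mem_univ i)

theorem P_dvd_m (hprod : ∏ i, P i = E.m * n) {i : ι} (h : ¬ P i ∣ n) : P i ∣ E.m :=
  (((Fact.out : (P i).Prime).dvd_mul).mp (E.P_dvd hprod i)).resolve_right h

omit [∀ i, Fact (P i).Prime] in
theorem P_ne_two (hprod : ∏ i, P i = E.m * n) (i : ι) : P i ≠ 2 := by
  intro h
  have h1 := E.P_dvd hprod i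
  rw [h] at h1
  have h2 : Odd (E.m * n) := E.hm2.mul (by rw [Nat.odd_iff]; have := E.hn4; omega)
  exact h2.not_two_dvd_nat h1

theorem cast_ne (hprod : ∏ i, P i = E.m * n) (i : ι) {a : ℕ} (h : Nat.Coprime a (E.m * n)) :
    (a : ZMod (P i)) ≠ 0 := by
  rw [Ne, ZMod.natCast_eq_zero_iff]
  intro h1
  have := Nat.dvd_gcd h1 (E.P_dvd hprod i)
  rw [h, Nat.dvd_one] at this
  exact (Fact.out : (P i).Prime).one_lt.ne' this

theorem ker (hprod : ∏ i, P i = E.m * n) {p : 𝓞 K × 𝓞 K} (hp : p ∈ E.D') :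
    p ∈ E.L' ↔ prH n P (vH q p) = 0 := by
  constructor
  · rintro ⟨⟨x, -, h1⟩, y, -, h2⟩
    funext i
    have e : crd q p.2 = (E.m : ℤ) • crd q (q.t * y) := by
      rw [h2, ← crd_int]; simp
    rw [prH_apply, vH_apply]
    split_ifs with h
    · have hn : ((P i : ℕ) : ℤ) ∣ n := Int.natCast_dvd_natCast.mpr h
      refine Prod.ext ?_ ?_
      · show (((crd q p.1).1 : ℤ) : ZMod (P i)) = 0
        rw [ZMod.intCast_zmod_eq_zero_iff_dvd, h1]
        exact hn.trans (n_dvd_tr q x)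
      · show (((crd q p.2).1 : ℤ) : ZMod (P i)) = 0
        rw [ZMod.intCast_zmod_eq_zero_iff_dvd, e]
        exact Dvd.dvd.mul_left (hn.trans (n_dvd_tr q y)) _
    · have hm : ((P i : ℕ) : ℤ) ∣ E.m := Int.natCast_dvd_natCast.mpr (E.P_dvd_m hprod h)
      refine Prod.ext ?_ ?_
      · show (((crd q p.2).1 : ℤ) : ZMod (P i)) = 0
        rw [ZMod.intCast_zmod_eq_zero_iff_dvd, e]
        exact Dvd.dvd.mul_right hm _
      · show (((crd q p.2).2 : ℤ) : ZMod (P i)) = 0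
        rw [ZMod.intCast_zmod_eq_zero_iff_dvd, e]
        exact Dvd.dvd.mul_right hm _
  · intro h
    have han : Nat.Coprime E.a n := E.hamn.coprime_mul_left_right
    have hbn : Nat.Coprime E.b n := E.hbmn.coprime_mul_left_right
    have hbm : Nat.Coprime E.b E.m := E.hbmn.coprime_mul_right_right
    have k1 : ∀ i, P i ∣ n → ((P i : ℕ) : ℤ) ∣ tr q p.1 ∧ ((P i : ℕ) : ℤ) ∣ tr q p.2 := by
      intro i hi
      have := congrFun h i
      rw [prH_apply, if_pos hi, vH_apply, Pi.zero_apply, Prod.mk_eq_zero,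
        ZMod.intCast_zmod_eq_zero_iff_dvd, ZMod.intCast_zmod_eq_zero_iff_dvd] at this
      exact this
    have k2 : ∀ i, ¬ P i ∣ n →
        ((P i : ℕ) : ℤ) ∣ (crd q p.2).1 ∧ ((P i : ℕ) : ℤ) ∣ (crd q p.2).2 := by
      intro i hi
      have := congrFun h i
      rw [prH_apply, if_neg hi, vH_apply, Pi.zero_apply, Prod.mk_eq_zero,
        ZMod.intCast_zmod_eq_zero_iff_dvd, ZMod.intCast_zmod_eq_zero_iff_dvd] at this
      exact this
    have n1 : (n : ℤ) ∣ tr q p.1 := sqf_dvd q.hd fun r hr hrn => by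
      obtain ⟨i, rfl⟩ := E.exists_idx hprod hr (Dvd.dvd.mul_left hrn _)
      exact (k1 i hrn).1
    have n2 : (n : ℤ) ∣ tr q p.2 := sqf_dvd q.hd fun r hr hrn => by
      obtain ⟨i, rfl⟩ := E.exists_idx hprod hr (Dvd.dvd.mul_left hrn _)
      exact (k1 i hrn).2
    have m0 : ∀ r : ℕ, r.Prime → r ∣ E.m → ¬ r ∣ n := by
      intro r hr h1 h2
      have := Nat.dvd_gcd h1 h2
      rw [E.hmn, Nat.dvd_one] at this
      exact hr.one_lt.ne' this
    have m1 : (E.m : ℤ) ∣ (crd q p.2).1 := sqf_dvd E.hm fun r hr hrm => by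
      obtain ⟨i, rfl⟩ := E.exists_idx hprod hr (Dvd.dvd.mul_right hrm _)
      exact (k2 i (m0 _ hr hrm)).1
    have m2 : (E.m : ℤ) ∣ (crd q p.2).2 := sqf_dvd E.hm fun r hr hrm => by
      obtain ⟨i, rfl⟩ := E.exists_idx hprod hr (Dvd.dvd.mul_right hrm _)
      exact (k2 i (m0 _ hr hrm)).2
    obtain ⟨x, hx⟩ := t_dvd_of_tr q E.hn4 n1
    refine ⟨⟨x, mem_cancel_t q E.hX han (hx ▸ hp.1), hx⟩, ?_⟩
    obtain ⟨c1, hc1⟩ := m1
    obtain ⟨c2, hc2⟩ := m2
    have e1 : (2 : 𝓞 K) * p.2 = E.m * ((c1 : 𝓞 K) + c2 * q.t) := by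
      apply crd_inj q
      have a1 := crd_int q 2 p.2
      have a2 := crd_int q E.m ((c1 : 𝓞 K) + c2 * q.t)
      push_cast at a1 a2
      rw [a1, a2, crd_lin]
      refine Prod.ext ?_ ?_
      · simp only [Prod.smul_fst, smul_eq_mul]; rw [hc1]; ring
      · simp only [Prod.smul_snd, smul_eq_mul]; rw [hc2]; ring
    obtain ⟨k, hk⟩ := E.hm2
    have hk' : (E.m : 𝓞 K) = 2 * k + 1 := by rw [hk]; push_cast; ring
    have e2 : p.2 = E.m * (p.2 - k * ((c1 : 𝓞 K) + c2 * q.t)) := by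
      linear_combination (-p.2) * hk' + (-(k : 𝓞 K)) * e1
    set y := p.2 - k * ((c1 : 𝓞 K) + c2 * q.t) with hy
    have hyY : y ∈ E.Y := mem_cancel q E.hY hbm (e2 ▸ hp.2)
    obtain ⟨y', hy'⟩ : q.t ∣ y := theta_cancel E.hmn (e2 ▸ t_dvd_of_tr q E.hn4 n2)
    exact ⟨y', mem_cancel_t q E.hY hbn (hy' ▸ hyY), by rw [← hy', ← e2]⟩

theorem surj (hinj : Function.Injective P) (hprod : ∏ i, P i = E.m * n) (ν : Row P) :
    ∃ p ∈ E.D', prH n P (vH q p) = ν := by
  obtain ⟨k1, h1⟩ := crt hinj fun i => (ν i).1 / (2 * E.a)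
  obtain ⟨k2, h2⟩ := crt hinj fun i => (if P i ∣ n then (ν i).2 else (ν i).1) / (2 * E.b)
  obtain ⟨k3, h3⟩ := crt hinj fun i => (ν i).2 / (2 * E.b)
  refine ⟨((((E.a * k1 : ℤ) : 𝓞 K) + (0 : ℤ) * q.t),
    (((E.b * k2 : ℤ) : 𝓞 K) + (E.b * k3 : ℤ) * q.t)), ⟨?_, ?_⟩, ?_⟩
  · have := E.X.mul_mem_left (k1 : 𝓞 K) (a_mem q E.hX)
    show _ ∈ E.X
    convert this using 1
    push_cast
    ring
  · have := E.Y.mul_mem_left ((k2 : 𝓞 K) + k3 * q.t) (a_mem q E.hY)
    show _ ∈ E.Y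
    convert this using 1
    push_cast
    ring
  · funext i
    have ha := E.cast_ne hprod i E.hamn
    have hb := E.cast_ne hprod i E.hbmn
    have h0 := two_ne (E.P_ne_two hprod i)
    rw [prH_apply, vH_apply, crd_lin, crd_lin]
    split_ifs with h
    · refine Prod.ext ?_ ?_
      · push_cast
        rw [h1]; field_simp
      · push_cast
        rw [h2, if_pos h]; field_simp
    · refine Prod.ext ?_ ?_
      · push_cast
        rw [h2, if_neg h]; field_simp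
      · push_cast
        rw [h3]; field_simp

/-- the lattice with its discriminant form -/
noncomputable def wd (hinj : Function.Injective P) (hprod : ∏ i, P i = E.m * n)
    (hg : ∏ i, chi (P i) (if P i ∣ n then -(E.m * E.a * E.b) else -n) = -1) : WD P where
  toLb := E.lb
  hP := E.P_ne_two hprod
  pr := prH n P
  hLD := by
    rintro _ ⟨p, ⟨⟨x, hx, h1⟩, y, hy, h2⟩, rfl⟩
    refine ⟨p, ⟨?_, ?_⟩, rfl⟩
    · show p.1 ∈ E.X
      rw [h1]; exact E.X.mul_mem_left _ hx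
    · show p.2 ∈ E.Y
      rw [h2]; exact E.Y.mul_mem_left _ (E.Y.mul_mem_left _ hy)
  hker := by
    rintro _ ⟨p, hp, rfl⟩
    rw [← E.ker hprod hp]
    constructor
    · rintro ⟨p', hp', h⟩
      rwa [← vH_inj h]
    · intro h
      exact ⟨p, h, rfl⟩
  hsurj := fun ν => by
    obtain ⟨p, hp, h⟩ := E.surj hinj hprod ν
    exact ⟨_, ⟨p, hp, rfl⟩, h⟩
  al := fun i => (ex_frac hinj).choose i * if P i ∣ n then (E.m : ZMod (P i)) / (4 * E.a)
    else (1 : ZMod (P i)) / (4 * E.b)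
  be := fun i => (ex_frac hinj).choose i * if P i ∣ n then (1 : ZMod (P i)) / (4 * E.b)
    else (n : ZMod (P i)) / (4 * E.b)
  hal := fun i => by
    have ha := E.cast_ne hprod i E.hamn
    have hb := E.cast_ne hprod i E.hbmn
    have h0 := two_ne (E.P_ne_two hprod i)
    have h4 : (4 : ZMod (P i)) ≠ 0 := by
      rw [show (4 : ZMod (P i)) = 2 * 2 by norm_num]; exact mul_ne_zero h0 h0
    refine mul_ne_zero ((ex_frac hinj).choose_spec.1 i) ?_
    split_ifs with h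
    · refine div_ne_zero ?_ (mul_ne_zero h4 ha)
      rw [Ne, ZMod.natCast_eq_zero_iff]
      intro h1
      have := Nat.dvd_gcd h1 h
      rw [E.hmn, Nat.dvd_one] at this
      exact (Fact.out : (P i).Prime).one_lt.ne' this
    · exact div_ne_zero one_ne_zero (mul_ne_zero h4 hb)
  hbe := fun i => by
    have hb := E.cast_ne hprod i E.hbmn
    have h0 := two_ne (E.P_ne_two hprod i)
    have h4 : (4 : ZMod (P i)) ≠ 0 := by
      rw [show (4 : ZMod (P i)) = 2 * 2 by norm_num]; exact mul_ne_zero h0 h0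
    refine mul_ne_zero ((ex_frac hinj).choose_spec.1 i) ?_
    split_ifs with h
    · exact div_ne_zero one_ne_zero (mul_ne_zero h4 hb)
    · refine div_ne_zero ?_ (mul_ne_zero h4 hb)
      rwa [Ne, ZMod.natCast_eq_zero_iff]
  hQ := by
    rintro _ ⟨p, ⟨h1, h2⟩, rfl⟩
    obtain ⟨u, hu⟩ := N_dvd q E.hX h1
    obtain ⟨v, hv⟩ := N_dvd q E.hY h2
    have hn : (n : ℝ) ≠ 0 := by exact_mod_cast q.d_pos.ne'
    have ha : (E.a : ℝ) ≠ 0 := by exact_mod_cast E.ha.ne'
    have hb : (E.b : ℝ) ≠ 0 := by exact_mod_cast E.hb.ne'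
    have hm : (E.m : ℝ) ≠ 0 := by exact_mod_cast E.m_pos.ne'
    have e1 : (ip (vH q p) (E.lb.l * vH q p) / (2 * E.lb.M) : ℝ) =
        ((E.m * u + v : ℤ) : ℝ) / (∏ i, P i : ℕ) := by
      show (ip (vH q p) (E.l * vH q p) / (2 * E.M) : ℝ) = _
      rw [E.ip_self, hprod, hu, hv]
      unfold M
      push_cast
      field_simp
      ring
    rw [e1, (ex_frac hinj).choose_spec.2]
    refine Finset.prod_congr rfl fun i _ => ?_
    congr 1
    have ha := E.cast_ne hprod i E.hamn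
    have hb := E.cast_ne hprod i E.hbmn
    have h0 := two_ne (E.P_ne_two hprod i)
    have h4 : (4 : ZMod (P i)) ≠ 0 := by
      rw [show (4 : ZMod (P i)) = 2 * 2 by norm_num]; exact mul_ne_zero h0 h0
    have n1 := congrArg (fun k : ℤ => (k : ZMod (P i))) (two_N q p.1)
    have n2 := congrArg (fun k : ℤ => (k : ZMod (P i))) (two_N q p.2)
    rw [hu] at n1
    rw [hv] at n2
    push_cast at n1 n2
    rw [prH_apply, vH_apply]
    unfold Qp
    split_ifs with h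
    · have hn0 : (n : ZMod (P i)) = 0 := by rwa [ZMod.natCast_eq_zero_iff]
      rw [hn0] at n1 n2
      simp only
      push_cast
      field_simp
      linear_combination ((ex_frac hinj).choose i) * ((E.m * E.b : ZMod (P i)) * n1 + E.a * n2)
    · have hm0 : (E.m : ZMod (P i)) = 0 := by
        rw [ZMod.natCast_eq_zero_iff]; exact E.P_dvd_m hprod h
      simp only
      push_cast
      rw [hm0]
      field_simp
      linear_combination ((ex_frac hinj).choose i) * n2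
  hgam := by
    rw [← hg]
    refine Finset.prod_congr rfl fun i _ => ?_
    have ha := E.cast_ne hprod i E.hamn
    have hb := E.cast_ne hprod i E.hbmn
    have h0 := two_ne (E.P_ne_two hprod i)
    have h4 : (4 : ZMod (P i)) ≠ 0 := by
      rw [show (4 : ZMod (P i)) = 2 * 2 by norm_num]; exact mul_ne_zero h0 h0
    have hu := (ex_frac hinj).choose_spec.1 i
    set u := (ex_frac hinj).choose i
    unfold gam
    split_ifs with h
    · have e : -(u * (E.m / (4 * E.a)) * (u * (1 / (4 * E.b)))) =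
          -(E.m * E.a * E.b) * (u / (4 * E.a * E.b)) ^ 2 := by field_simp
      rw [e, map_mul, map_pow, chi_sq (div_ne_zero hu (mul_ne_zero (mul_ne_zero h4 ha) hb)),
        mul_one]
    · have e : -(u * (1 / (4 * E.b)) * (u * (n / (4 * E.b)))) =
          -n * (u / (4 * E.b)) ^ 2 := by field_simp
      rw [e, map_mul, map_pow, chi_sq (div_ne_zero hu (mul_ne_zero h4 hb)), mul_one]

theorem wd_gam (hinj : Function.Injective P) (hprod : ∏ i, P i = E.m * n)
    (hg : ∏ i, chi (P i) (if P i ∣ n then -(E.m * E.a * E.b) else -n) = -1) {i : ι}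
    (h : P i ∣ n) : gam ((E.wd hinj hprod hg).al i) ((E.wd hinj hprod hg).be i) =
      chi (P i) (-(E.m * E.a * E.b)) := by
  have ha := E.cast_ne hprod i E.hamn
  have hb := E.cast_ne hprod i E.hbmn
  have h0 := two_ne (E.P_ne_two hprod i)
  have h4 : (4 : ZMod (P i)) ≠ 0 := by
    rw [show (4 : ZMod (P i)) = 2 * 2 by norm_num]; exact mul_ne_zero h0 h0
  have hu := (ex_frac hinj).choose_spec.1 i
  unfold wd gam
  simp only [if_pos h]
  set u := (ex_frac hinj).choose i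
  have e : -(u * (E.m / (4 * E.a)) * (u * (1 / (4 * E.b)))) =
      -(E.m * E.a * E.b) * (u / (4 * E.a * E.b)) ^ 2 := by field_simp
  rw [e, map_mul, map_pow, chi_sq (div_ne_zero hu (mul_ne_zero (mul_ne_zero h4 ha) hb)),
    mul_one]

theorem wd_Q (hinj : Function.Injective P) (hprod : ∏ i, P i = E.m * n)
    (hg : ∏ i, chi (P i) (if P i ∣ n then -(E.m * E.a * E.b) else -n) = -1) {i : ι}
    (h : P i ∣ n) (ν : ZMod (P i) × ZMod (P i)) :
    Qp ((E.wd hinj hprod hg).al i) ((E.wd hinj hprod hg).be i) ν = 0 ↔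
      E.m * E.b * ν.1 ^ 2 + E.a * ν.2 ^ 2 = 0 := by
  have ha := E.cast_ne hprod i E.hamn
  have hb := E.cast_ne hprod i E.hbmn
  have h0 := two_ne (E.P_ne_two hprod i)
  have h4 : (4 : ZMod (P i)) ≠ 0 := by
    rw [show (4 : ZMod (P i)) = 2 * 2 by norm_num]; exact mul_ne_zero h0 h0
  have hu := (ex_frac hinj).choose_spec.1 i
  unfold wd Qp
  simp only [if_pos h]
  set u := (ex_frac hinj).choose i
  have e : u * (E.m / (4 * E.a)) * ν.1 ^ 2 + u * (1 / (4 * E.b)) * ν.2 ^ 2 =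
      u / (4 * E.a * E.b) * (E.m * E.b * ν.1 ^ 2 + E.a * ν.2 ^ 2) := by field_simp
  rw [e, mul_eq_zero, or_iff_right (div_ne_zero hu (mul_ne_zero (mul_ne_zero h4 ha) hb))]

end disc

end Dt

end Vale.Agent.P014A
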