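import Vale.Agent.P014A.Iface
import Vale.Agent.P014A.Bes
import Vale.Agent.P004H.H2.Theta2

/-!
# P014 (A): the Gaussian kernel of weight one, convergence and continuity
-/

open MeasureTheory Set Complex Filter
open UpperHalfPlane hiding I
open scoped Real Classical Topology

namespace Vale.Agent.P014A

theorem mul_exp_le {a u : ℝ} (ha : 0 < a) :
    u * Real.exp (-(a * u ^ 2)) ≤ (1 + 2 / a) * Real.exp (-(a * u ^ 2 / 2)) := by
  have h1 : u ≤ (1 + 2 / a) * Real.exp (a * u ^ 2 / 2) := by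
    have h2 := Real.add_one_le_exp (a * u ^ 2 / 2)
    have h3 : (1 + 2 / a) * (a * u ^ 2 / 2 + 1) = 1 + u ^ 2 + (2 / a + a * u ^ 2 / 2) := by
      field_simp
      ring
    have h4 : 0 ≤ 2 / a + a * u ^ 2 / 2 := by positivity
    have h5 := mul_le_mul_of_nonneg_left h2 (show 0 ≤ 1 + 2 / a by positivity)
    nlinarith [sq_nonneg (u - 1)]
  refine (mul_le_mul_of_nonneg_right h1 (Real.exp_pos _).le).trans (le_of_eq ?_)
  rw [mul_assoc, ← Real.exp_add]
  congr 2
  ring

theorem norm_kk_le {t : ℝ} (ht : 0 < t) (w : ℤ × ℤ) {z : ℂ} (hz : 0 < z.im) :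
    ‖kk t w z‖ ≤ (1 / z.im + 2 / (π * t)) *
      Real.exp (-(π * t * ‖(w.1 : ℂ) * z + w.2‖ ^ 2 / (2 * z.im))) := by
  have h := mul_exp_le (a := π * t / z.im) (u := ‖(w.1 : ℂ) * z + w.2‖) (by positivity)
  unfold kk
  rw [norm_mul, norm_div, norm_conj, norm_real, norm_real, Real.norm_of_nonneg hz.le,
    Real.norm_of_nonneg (Real.exp_pos _).le, normSq_eq_norm_sq]
  have h2 := div_le_div_of_nonneg_right h hz.le
  refine le_of_eq_of_le ?_ (h2.trans (le_of_eq ?_))
  · rw [div_mul_eq_mul_div]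
    congr 3
    ring
  · rw [mul_div_right_comm]
    congr 1
    · field_simp
    · congr 1
      ring

theorem summ_gauss {a : ℝ} (ha : 0 < a) {z : ℂ} (hz : 0 < z.im) :
    Summable fun w : ℤ × ℤ => Real.exp (-(a * ‖(w.1 : ℂ) * z + w.2‖ ^ 2)) := by
  refine (Vale.Agent.P004H.H2.theta_summable (x := z.re) hz
    (t := a * z.im / π) (by positivity)).congr fun w => ?_
  rw [← normSq_eq_norm_sq, normSq_apply]
  congr 1
  simp only [add_re, mul_re, intCast_re, intCast_im, add_im, mul_im]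
  field_simp
  ring

theorem summ_kk {t : ℝ} (ht : 0 < t) {z : ℂ} (hz : 0 < z.im) :
    Summable fun w : ℤ × ℤ => ‖kk t w z‖ := by
  refine Summable.of_nonneg_of_le (fun _ => norm_nonneg _) (fun w => norm_kk_le ht w hz)
    (Summable.mul_left _ ((summ_gauss (a := π * t / (2 * z.im)) (by positivity) hz).congr
      fun w => ?_))
  congr 1
  ring

theorem cont_Psi {φ : ℤ × ℤ → ℂ} (h : ∀ w, ‖φ w‖ ≤ 1) :
    ContinuousOn (fun p : ℝ × ℍ => PsiK φ p.1 p.2) (Ioi 0 ×ˢ univ) := by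
  rintro ⟨t₀, z₀⟩ ⟨ht₀, -⟩
  have ht : 0 < t₀ := ht₀
  have hy : 0 < (z₀ : ℂ).im := z₀.im_pos
  set y := (z₀ : ℂ).im with hyd
  set S : Set (ℝ × ℍ) := {p | t₀ / 2 < p.1 ∧ ‖(p.2 : ℂ) - z₀‖ < y / 2} with hS
  have hcoe : Continuous fun p : ℝ × ℍ => (p.2 : ℂ) := continuous_coe.comp continuous_snd
  have hSo : IsOpen S := (isOpen_lt continuous_const continuous_fst).inter
    (isOpen_lt (hcoe.sub continuous_const).norm continuous_const)
  have hm : (t₀, z₀) ∈ S := ⟨half_lt_self ht, by simpa using hy⟩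
  refine ((continuousOn_tsum (s := S) (u := fun w : ℤ × ℤ => (2 / y + 4 / (π * t₀)) *
    Real.exp (-(π * t₀ / (24 * y) * ‖(w.1 : ℂ) * z₀ + w.2‖ ^ 2))) (fun w => ?_)
    ((summ_gauss (by positivity) hy).mul_left _) ?_).continuousAt
      (hSo.mem_nhds hm)).continuousWithinAt
  · refine Continuous.continuousOn (continuous_const.mul ?_)
    have him : Continuous fun p : ℝ × ℍ => (p.2 : ℂ).im := continuous_im.comp hcoe
    have hu : Continuous fun p : ℝ × ℍ => (w.1 : ℂ) * (p.2 : ℂ) + w.2 :=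
      (continuous_const.mul hcoe).add continuous_const
    have hne : ∀ p : ℝ × ℍ, (p.2 : ℂ).im ≠ 0 := fun p => p.2.im_pos.ne'
    unfold kk
    refine ((continuous_conj.comp hu).div (continuous_ofReal.comp him) fun p => ?_).mul
      (continuous_ofReal.comp (Real.continuous_exp.comp (Continuous.neg
        (((continuous_const.mul continuous_fst).mul (continuous_normSq.comp hu)).div him hne))))
    exact ofReal_ne_zero.mpr (hne p)
  · rintro w ⟨t, z⟩ ⟨h1, h2⟩
    simp only at h1 h2 ⊢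
    have ht' : 0 < t := by linarith
    have hz : 0 < (z : ℂ).im := z.im_pos
    have h3 : |(z : ℂ).im - y| < y / 2 := by
      rw [hyd, ← sub_im]
      exact (abs_im_le_norm _).trans_lt h2
    obtain ⟨h4, h5⟩ := abs_lt.mp h3
    have h6 : ‖(w.1 : ℂ)‖ * y ≤ ‖(w.1 : ℂ) * z₀ + w.2‖ := by
      refine le_of_eq_of_le ?_ (abs_im_le_norm _)
      rw [norm_intCast, add_im, mul_im, intCast_im, intCast_im, intCast_re, zero_mul, add_zero,
        add_zero, abs_mul, abs_of_pos hy]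
    have h7 : ‖(w.1 : ℂ) * z₀ + w.2‖ ≤ 2 * ‖(w.1 : ℂ) * z + w.2‖ := by
      have e : (w.1 : ℂ) * z₀ + w.2 = (w.1 * z + w.2) - w.1 * ((z : ℂ) - z₀) := by ring
      have h8 := norm_sub_le ((w.1 : ℂ) * z + w.2) (w.1 * ((z : ℂ) - z₀))
      rw [← e, norm_mul] at h8
      have h9 := mul_le_mul_of_nonneg_left h2.le (norm_nonneg (w.1 : ℂ))
      linarith
    rw [norm_mul]
    refine (mul_le_of_le_one_left (norm_nonneg _) (h w)).trans ((norm_kk_le ht' w hz).trans ?_)
    refine mul_le_mul (add_le_add ?_ ?_) (Real.exp_le_exp.mpr (neg_le_neg ?_))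
      (Real.exp_pos _).le (by positivity)
    · rw [div_le_div_iff₀ hz hy]
      linarith
    · rw [div_le_div_iff₀ (by positivity) (by positivity)]
      nlinarith [Real.pi_pos]
    · have h8 : ‖(w.1 : ℂ) * z₀ + w.2‖ ^ 2 ≤ 4 * ‖(w.1 : ℂ) * z + w.2‖ ^ 2 := by
        nlinarith [norm_nonneg ((w.1 : ℂ) * z₀ + w.2), norm_nonneg ((w.1 : ℂ) * z + w.2)]
      have h9 : π * t₀ / (6 * y) ≤ π * t / (2 * (z : ℂ).im) := by
        rw [div_le_div_iff₀ (by positivity) (by positivity)]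
        have : t₀ * (z : ℂ).im ≤ 3 * (t * y) := by nlinarith
        nlinarith [Real.pi_pos]
      calc π * t₀ / (24 * y) * ‖(w.1 : ℂ) * z₀ + w.2‖ ^ 2
          ≤ π * t₀ / (24 * y) * (4 * ‖(w.1 : ℂ) * z + w.2‖ ^ 2) :=
            mul_le_mul_of_nonneg_left h8 (by positivity)
        _ = π * t₀ / (6 * y) * ‖(w.1 : ℂ) * z + w.2‖ ^ 2 := by ring
        _ ≤ π * t / (2 * (z : ℂ).im) * ‖(w.1 : ℂ) * z + w.2‖ ^ 2 :=
            mul_le_mul_of_nonneg_right h9 (by positivity)
        _ = _ := by ring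

/-! ### Poisson summation in the rows -/

/-- the finite Fourier transform in the second variable -/
noncomputable def hat (N : ℕ) [NeZero N] (φ : ℤ × ℤ → ℂ) (c k : ℤ) : ℂ :=
  (∑ r : ZMod N, φ (c, r.val) * cexp (2 * π * I * (r.val * k) / N)) / N

theorem norm_hat {N : ℕ} [NeZero N] {φ : ℤ × ℤ → ℂ} (h : ∀ w, ‖φ w‖ ≤ 1) (c k : ℤ) :
    ‖hat N φ c k‖ ≤ 1 := by
  have hN : (0 : ℝ) < N := by exact_mod_cast NeZero.pos N
  unfold hat
  rw [norm_div, norm_natCast, div_le_one hN]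
  refine (norm_sum_le _ _).trans ((Finset.sum_le_card_nsmul _ _ 1 fun r _ => ?_).trans ?_)
  · rw [norm_mul, show 2 * π * I * (r.val * k) / N = ((2 * π * (r.val * k) / N : ℝ) : ℂ) * I by
      push_cast; ring, norm_exp_ofReal_mul_I, mul_one]
    exact h _
  · simp

theorem row_sum {N : ℕ} [NeZero N] {φ : ℤ × ℤ → ℂ} (h : PerB N φ) {t : ℝ} (ht : 0 < t) {z : ℂ}
    (hz : 0 < z.im) (c : ℤ) :
    HasSum (fun k : ℤ => ((z.im⁻¹ : ℝ) : ℂ) *
      (-I * hat N φ c k * cexp (2 * π * I * (c * k * z.re / N)) * bk (c * z.im) (k / N) (z.im⁻¹ * t)))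
      (∑' d : ℤ, φ (c, d) * kk t (c, d) z) := by
  have hN : 0 < N := NeZero.pos N
  have hNc : (N : ℂ) ≠ 0 := by exact_mod_cast hN.ne'
  have hs : Summable fun d : ℤ => φ (c, d) * kk t (c, d) z := by
    refine Summable.of_norm_bounded ((summ_kk ht hz).prod_factor c) fun d => ?_
    rw [norm_mul]
    exact mul_le_of_le_one_left (norm_nonneg _) (h.1 _)
  rw [tsum_mod N hs]
  have h1 : ∀ r : ZMod N, HasSum (fun k : ℤ => φ (c, r.val) * ((z.im⁻¹ : ℝ) : ℂ) *
      (-I / N * cexp (2 * π * I * ((c * z.re + r.val) / N : ℝ) * k) *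
        bk (c * z.im) (k / N) (z.im⁻¹ * t)))
      (∑' j : ℤ, φ (c, r.val + N * j) * kk t (c, r.val + N * j) z) := by
    intro r
    have h2 := (poisson_cls hN (c * z.re + r.val) (c * z.im)
      (s := z.im⁻¹ * t) (by positivity)).mul_left (φ (c, r.val) * ((z.im⁻¹ : ℝ) : ℂ))
    rw [← tsum_mul_left] at h2
    refine (congrArg (HasSum _) (tsum_congr fun j => ?_)).mp h2
    have h3 := h.2 (c, r.val) (0, j)
    simp only [mul_zero, add_zero] at h3
    rw [h3, mul_assoc]
    congr 1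
    unfold kk
    simp only
    rw [← mul_assoc]
    congr 1
    · generalize r.val = m
      apply Complex.ext <;> simp <;> ring
    · congr 2
      rw [normSq_apply]
      simp only [add_re, mul_re, intCast_re, intCast_im, add_im, mul_im]
      push_cast
      field_simp
      ring
  refine (hasSum_sum fun r _ => h1 r).congr_fun fun k => ?_
  unfold hat
  rw [Finset.sum_div, Finset.mul_sum, Finset.sum_mul, Finset.sum_mul, Finset.mul_sum]
  refine Finset.sum_congr rfl fun r _ => ?_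
  rw [show 2 * π * I * ((c * z.re + r.val) / N : ℝ) * k =
    2 * π * I * (r.val * k) / N + 2 * π * I * (c * k * z.re / N) by push_cast; ring, Complex.exp_add]
  ring

end Vale.Agent.P014A
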