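import Mathlib

/-!
# P014 (A): the Weil representation of a binary form over a prime field
-/

open Complex
open scoped Classical

namespace Vale.Agent.P014A

section loc

variable {p : ℕ} [Fact p.Prime]

/-- the additive character -/
noncomputable def psi (p : ℕ) [Fact p.Prime] : AddChar (ZMod p) ℂ := ZMod.stdAddChar

/-- the quadratic character with complex values -/
noncomputable def chi (p : ℕ) [Fact p.Prime] : MulChar (ZMod p) ℂ :=
  (quadraticChar (ZMod p)).ringHomComp (Int.castRingHom ℂ)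

theorem chi_apply (a : ZMod p) : chi p a = (quadraticChar (ZMod p) a : ℤ) := rfl

theorem psi_prim : (psi p).IsPrimitive := ZMod.isPrimitive_stdAddChar p

theorem norm_psi (a : ZMod p) : ‖psi p a‖ = 1 := by
  unfold psi
  rw [ZMod.stdAddChar_apply]
  exact Circle.norm_coe _

theorem ringChar_ne (hp : p ≠ 2) : ringChar (ZMod p) ≠ 2 := by
  rw [ZMod.ringChar_zmod_n]; exact hp

theorem two_ne (hp : p ≠ 2) : (2 : ZMod p) ≠ 0 := Ring.two_ne_zero (ringChar_ne hp)

theorem chi_sq {a : ZMod p} (ha : a ≠ 0) : chi p a ^ 2 = 1 := by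
  rw [chi_apply]
  exact_mod_cast quadraticChar_sq_one ha

theorem sum_psi (s : ZMod p) : ∑ x : ZMod p, psi p (x * s) = if s = 0 then (p : ℂ) else 0 := by
  have := AddChar.sum_mulShift s (psi_prim (p := p))
  rw [this, ZMod.card]
  split_ifs <;> simp

theorem gauss1 (hp : p ≠ 2) {s : ZMod p} (hs : s ≠ 0) :
    ∑ x : ZMod p, psi p (s * x ^ 2) = chi p s * gaussSum (chi p) (psi p) := by
  have h1 : ∑ x : ZMod p, psi p (s * x ^ 2) =
      ∑ y : ZMod p, (chi p y + 1) * psi p (s * y) := by
    rw [← Finset.sum_fiberwise (s := Finset.univ) (g := fun x : ZMod p => x ^ 2)]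
    refine Finset.sum_congr rfl fun y _ => ?_
    rw [Finset.sum_congr rfl (g := fun _ => psi p (s * y))
      (fun x hx => by rw [(Finset.mem_filter.mp hx).2]), Finset.sum_const, nsmul_eq_mul]
    congr 1
    have h := quadraticChar_card_sqrts (ringChar_ne hp) y
    rw [chi_apply]
    have h2 : ({x : ZMod p | x ^ 2 = y}.toFinset) = Finset.univ.filter fun x => x ^ 2 = y := by
      ext x; simp
    rw [h2] at h
    exact_mod_cast h
  have h2 : ∑ y : ZMod p, psi p (s * y) = 0 := by
    have := sum_psi s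
    rw [if_neg hs] at this
    rw [← this]
    exact Finset.sum_congr rfl fun y _ => by rw [mul_comm]
  have h3 := gaussSum_mulShift (chi p) (psi p) (Units.mk0 s hs)
  have h4 : gaussSum (chi p) ((psi p).mulShift (Units.mk0 s hs)) =
      ∑ y : ZMod p, chi p y * psi p (s * y) := by
    unfold gaussSum
    simp
  rw [h1]
  simp only [add_mul, one_mul, Finset.sum_add_distrib]
  rw [h2, add_zero, ← h4, ← h3, ← mul_assoc, Units.val_mk0, ← sq, chi_sq hs, one_mul]

theorem gauss_sq (hp : p ≠ 2) : gaussSum (chi p) (psi p) ^ 2 = chi p (-1) * p := by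
  have h1 : chi p ≠ 1 := by
    unfold chi
    exact (MulChar.ringHomComp_ne_one_iff (RingHom.injective_int _)).mpr
      (quadraticChar_ne_one (ringChar_ne hp))
  have h2 : (chi p).IsQuadratic := (quadraticChar_isQuadratic (ZMod p)).comp _
  have := gaussSum_sq h1 h2 (psi_prim (p := p))
  rw [this, ZMod.card]

/-- the form -/
def Qp (α β : ZMod p) (ν : ZMod p × ZMod p) : ZMod p := α * ν.1 ^ 2 + β * ν.2 ^ 2

/-- the pairing -/
def Bp (α β : ZMod p) (μ ν : ZMod p × ZMod p) : ZMod p := 2 * (α * μ.1 * ν.1 + β * μ.2 * ν.2)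

theorem Qp_add (α β : ZMod p) (μ ν : ZMod p × ZMod p) :
    Qp α β (μ + ν) = Qp α β μ + Qp α β ν + Bp α β μ ν := by
  simp only [Qp, Bp, Prod.fst_add, Prod.snd_add]; ring

/-- the Weil index -/
noncomputable def gam (α β : ZMod p) : ℂ := chi p (-(α * β))

theorem gam_sq {α β : ZMod p} (hα : α ≠ 0) (hβ : β ≠ 0) : gam α β ^ 2 = 1 :=
  chi_sq (neg_ne_zero.mpr (mul_ne_zero hα hβ))

theorem norm_gam_le (α β : ZMod p) : ‖gam α β‖ ≤ 1 := by
  unfold gam
  rw [chi_apply]
  rcases quadraticChar_isQuadratic (ZMod p) (-(α * β)) with h | h | h <;> rw [h] <;> simp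

theorem gauss2 (hp : p ≠ 2) {α β s : ZMod p} (hα : α ≠ 0) (hβ : β ≠ 0) (hs : s ≠ 0) :
    ∑ ν : ZMod p × ZMod p, psi p (s * Qp α β ν) = gam α β * p := by
  have h1 : ∑ ν : ZMod p × ZMod p, psi p (s * Qp α β ν) =
      (∑ x : ZMod p, psi p (s * α * x ^ 2)) * ∑ y : ZMod p, psi p (s * β * y ^ 2) := by
    rw [Finset.sum_mul_sum, Fintype.sum_prod_type]
    refine Finset.sum_congr rfl fun x _ => Finset.sum_congr rfl fun y _ => ?_
    rw [← AddChar.map_add_eq_mul]
    congr 1
    simp only [Qp]; ring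
  rw [h1, gauss1 hp (mul_ne_zero hs hα), gauss1 hp (mul_ne_zero hs hβ)]
  have h2 := gauss_sq hp
  have h3 := chi_sq hs
  unfold gam
  rw [show -(α * β) = -1 * α * β by ring]
  simp only [map_mul]
  linear_combination (chi p s ^ 2 * chi p α * chi p β) * h2 +
    (chi p (-1) * chi p α * chi p β * p) * h3

theorem sum_B (hp : p ≠ 2) {α β : ZMod p} (hα : α ≠ 0) (hβ : β ≠ 0) (μ : ZMod p × ZMod p) :
    ∑ ν : ZMod p × ZMod p, psi p (Bp α β ν μ) = if μ = 0 then (p : ℂ) ^ 2 else 0 := by
  have h1 : ∑ ν : ZMod p × ZMod p, psi p (Bp α β ν μ) =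
      (∑ x : ZMod p, psi p (x * (2 * α * μ.1))) * ∑ y : ZMod p, psi p (y * (2 * β * μ.2)) := by
    rw [Finset.sum_mul_sum, Fintype.sum_prod_type]
    refine Finset.sum_congr rfl fun x _ => Finset.sum_congr rfl fun y _ => ?_
    rw [← AddChar.map_add_eq_mul]
    congr 1
    simp only [Bp]; ring
  have h2 := two_ne hp
  rw [h1, sum_psi, sum_psi]
  by_cases h3 : μ.1 = 0
  · by_cases h4 : μ.2 = 0
    · have : μ = 0 := Prod.ext h3 h4
      rw [if_pos this, if_pos (by rw [h3, mul_zero]), if_pos (by rw [h4, mul_zero]), sq]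
    · have : μ ≠ 0 := fun h => h4 (by rw [h]; rfl)
      rw [if_neg this, if_neg (mul_ne_zero (mul_ne_zero h2 hβ) h4), mul_zero]
  · have : μ ≠ 0 := fun h => h3 (by rw [h]; rfl)
    rw [if_neg this, if_neg (mul_ne_zero (mul_ne_zero h2 hα) h3), zero_mul]

/-- the local function attached to the row `v` -/
noncomputable def ph (α β : ZMod p) (v ν : ZMod p × ZMod p) : ℂ :=
  if v.1 = 0 then (if ν = 0 then 1 else 0) else gam α β / p * psi p (v.2 / v.1 * Qp α β ν)

theorem norm_ph_le (α β : ZMod p) (v ν : ZMod p × ZMod p) : ‖ph α β v ν‖ ≤ 1 := by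
  unfold ph
  split_ifs
  · simp
  · simp
  · rw [norm_mul, norm_psi, mul_one, norm_div, Complex.norm_natCast]
    have h1 : (1 : ℝ) ≤ p := by exact_mod_cast (Fact.out : p.Prime).one_lt.le
    rw [div_le_one (by linarith)]
    exact (norm_gam_le α β).trans h1

theorem ph_T (α β : ZMod p) (v ν : ZMod p × ZMod p) :
    ph α β v ν * psi p (Qp α β ν) = ph α β (v.1, v.1 + v.2) ν := by
  unfold ph
  by_cases hc : v.1 = 0
  · simp only [hc, if_true]
    split_ifs with h
    · rw [h]; simp [Qp]
    · simp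
  · simp only [hc, if_false]
    rw [mul_assoc, ← AddChar.map_add_eq_mul]
    congr 2
    field_simp
    ring

theorem ph_S (hp : p ≠ 2) {α β : ZMod p} (hα : α ≠ 0) (hβ : β ≠ 0) {v : ZMod p × ZMod p}
    (hv : v ≠ 0) (μ : ZMod p × ZMod p) :
    ∑ ν : ZMod p × ZMod p, ph α β v ν * psi p (Bp α β ν μ) =
      p * gam α β * ph α β (v.2, -v.1) μ := by
  have hp0 : (p : ℂ) ≠ 0 := by exact_mod_cast (Fact.out : p.Prime).ne_zero
  have hg := gam_sq hα hβ
  unfold ph
  by_cases hc : v.1 = 0
  · have hd : v.2 ≠ 0 := fun h => hv (Prod.ext hc h)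
    simp only [hc, hd, if_true, if_false]
    rw [Finset.sum_eq_single 0]
    · simp only [if_true, Bp, Prod.fst_zero, Prod.snd_zero, mul_zero, zero_mul, add_zero, neg_zero,
        zero_div, AddChar.map_zero_eq_one, mul_one]
      field_simp
      rw [hg]
    · intro b _ hb
      rw [if_neg hb, zero_mul]
    · intro h; exact absurd (Finset.mem_univ _) h
  · simp only [hc, if_false]
    by_cases hd : v.2 = 0
    · simp only [hd, if_true, zero_div, zero_mul, AddChar.map_zero_eq_one, mul_one]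
      rw [← Finset.mul_sum, sum_B hp hα hβ]
      split_ifs
      · field_simp
      · simp
    · simp only [hd, if_false]
      set s := v.2 / v.1 with hs
      have hs0 : s ≠ 0 := div_ne_zero hd hc
      have h1 : ∀ ν : ZMod p × ZMod p, gam α β / p * psi p (s * Qp α β ν) * psi p (Bp α β ν μ) =
          gam α β / p * psi p (-v.1 / v.2 * Qp α β μ) * psi p (s * Qp α β (ν + s⁻¹ • μ)) := by
        intro ν
        rw [mul_assoc, mul_assoc, ← AddChar.map_add_eq_mul, ← AddChar.map_add_eq_mul]
        congr 2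
        have e : -v.1 / v.2 = -s⁻¹ := by rw [hs, inv_div, neg_div]
        rw [e]
        simp only [Qp, Bp, Prod.fst_add, Prod.snd_add, Prod.smul_fst, Prod.smul_snd, smul_eq_mul]
        field_simp
        ring
      simp only [h1]
      rw [← Finset.mul_sum]
      have h2 := Equiv.sum_comp (Equiv.addRight (s⁻¹ • μ)) (fun ν => psi p (s * Qp α β ν))
      simp only [Equiv.coe_addRight] at h2
      rw [h2, gauss2 hp hα hβ hs0]
      ring

theorem sum_ph (α β : ZMod p) (ν : ZMod p × ZMod p) :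
    ∑ v ∈ Finset.univ.filter (fun v : ZMod p × ZMod p => v ≠ 0), ph α β v ν =
      (p - 1) * ((if ν = 0 then 1 else 0) + gam α β * if Qp α β ν = 0 then 1 else 0) := by
  have hp0 : (p : ℂ) ≠ 0 := by exact_mod_cast (Fact.out : p.Prime).ne_zero
  have hcard : ((Finset.univ.filter fun d : ZMod p => d ≠ 0).card : ℂ) = p - 1 := by
    rw [Finset.filter_ne' Finset.univ (0 : ZMod p), Finset.card_erase_of_mem (Finset.mem_univ _),
      Finset.card_univ, ZMod.card, Nat.cast_sub (Fact.out : p.Prime).one_lt.le, Nat.cast_one]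
  rw [Finset.sum_filter, Fintype.sum_prod_type,
    ← Finset.sum_filter_add_sum_filter_not Finset.univ (fun c : ZMod p => c = 0), mul_add]
  congr 1
  · rw [Finset.sum_filter, Finset.sum_eq_single 0]
    · rw [if_pos rfl, ← Finset.sum_filter]
      have : (Finset.univ.filter fun d : ZMod p => ((0 : ZMod p), d) ≠ 0) =
          Finset.univ.filter fun d : ZMod p => d ≠ 0 := by
        ext d; simp [Prod.ext_iff]
      rw [this, Finset.sum_congr rfl (g := fun _ => if ν = 0 then (1 : ℂ) else 0)
        (fun d _ => by simp [ph]), Finset.sum_const, nsmul_eq_mul, hcard]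
    · intro b _ hb; rw [if_neg hb]
    · intro h; exact absurd (Finset.mem_univ _) h
  · rw [Finset.sum_congr rfl (g := fun _ => gam α β * if Qp α β ν = 0 then (1 : ℂ) else 0),
      Finset.sum_const, nsmul_eq_mul]
    · congr 1
    · intro c hc
      have hc0 : c ≠ 0 := (Finset.mem_filter.mp hc).2
      have h1 : ∀ d : ZMod p, (if (c, d) ≠ 0 then ph α β (c, d) ν else 0) =
          gam α β / p * psi p (d * (Qp α β ν / c)) := by
        intro d
        rw [if_pos (fun h => hc0 (congrArg Prod.fst h))]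
        unfold ph
        rw [if_neg hc0]
        congr 2
        ring
      simp only [h1]
      rw [← Finset.mul_sum, sum_psi]
      by_cases hQ : Qp α β ν = 0
      · rw [if_pos hQ, if_pos (by rw [hQ, zero_div])]
        field_simp
      · rw [if_neg hQ, if_neg (div_ne_zero hQ hc0)]
        simp

theorem sum_ph0 (α β : ZMod p) (ν : ZMod p × ZMod p) :
    ∑ v ∈ Finset.univ.filter (fun v : ZMod p × ZMod p => v ≠ 0 ∧ v.1 = 0), ph α β v ν =
      (p - 1) * (if ν = 0 then 1 else 0) := by
  have hcard : ((Finset.univ.filter fun d : ZMod p => d ≠ 0).card : ℂ) = p - 1 := by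
    rw [Finset.filter_ne' Finset.univ (0 : ZMod p), Finset.card_erase_of_mem (Finset.mem_univ _),
      Finset.card_univ, ZMod.card, Nat.cast_sub (Fact.out : p.Prime).one_lt.le, Nat.cast_one]
  rw [Finset.sum_congr rfl (g := fun _ => if ν = 0 then (1 : ℂ) else 0)
    (fun v hv => by simp [ph, (Finset.mem_filter.mp hv).2.2]), Finset.sum_const, nsmul_eq_mul,
    ← hcard]
  congr 2
  refine Finset.card_bij (fun v _ => v.2) ?_ ?_ ?_
  · intro v hv
    simp only [Finset.mem_filter, Finset.mem_univ, true_and] at hv ⊢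
    exact fun h => hv.1 (Prod.ext hv.2 h)
  · intro v hv w hw h
    simp only [Finset.mem_filter, Finset.mem_univ, true_and] at hv hw
    exact Prod.ext (hv.2.trans hw.2.symm) h
  · intro d hd
    simp only [Finset.mem_filter, Finset.mem_univ, true_and] at hd
    exact ⟨(0, d), by simp [Prod.ext_iff, hd], rfl⟩

end loc

end Vale.Agent.P014A
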