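import Vale.Agent.P014A.Iface
import Vale.Agent.P014A.Fam

/-!
# P014 (A): the theta series of genus characters are modular forms of weight one
-/

open UpperHalfPlane hiding I
open NumberField Complex CongruenceSubgroup MeasureTheory Set Filter Manifold
open scoped Classical Real MatrixGroups Topology

namespace Vale.Agent.P014A

open Vale.Agent.P017.H185 Vale.Agent.P014B
open Vale.Agent.P004H.H204 (qq ev conv_of eventually_im tendsto_qq)
open P004N.T3 (rv rvE rv_mul rv_one)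

theorem mdiff_of_sum {G : ℂ → ℂ} {c : ℕ → ℂ}
    (h : ∀ z : ℂ, 0 < z.im → HasSum (fun m => c m * qq z ^ m) (G z)) :
    MDiff (fun z : ℍ => G z) ∧ Tendsto (fun z : ℍ => G z) atImInfty (𝓝 (c 0)) := by
  have hc : Vale.Agent.P004H.H204.Conv (PowerSeries.mk c) :=
    conv_of fun z hz => by simpa using (h z hz).summable
  have he : ∀ z : ℂ, 0 < z.im → G z = ev (PowerSeries.mk c) (qq z) := by
    intro z hz
    unfold ev
    simp only [PowerSeries.coeff_mk]
    exact (h z hz).tsum_eq.symm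
  constructor
  · rw [UpperHalfPlane.mdifferentiable_iff]
    intro z hz
    have h6 : DifferentiableAt ℂ G z := ((hc.hasDerivAt hz).congr_of_eventuallyEq
      ((eventually_im hz).mono fun _ hw => he _ hw)).differentiableAt
    refine (h6.congr_of_eventuallyEq ?_).differentiableWithinAt
    filter_upwards [eventually_im hz] with w hw
    simp only [Function.comp_apply]
    rw [ofComplex_apply_of_im_pos hw]
  · have h1 := hc.tendsto.comp tendsto_qq
    have h2 : PowerSeries.constantCoeff (PowerSeries.mk c) = c 0 := by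
      rw [← PowerSeries.coeff_zero_eq_constantCoeff_apply, PowerSeries.coeff_mk]
    rw [h2] at h1
    exact h1.congr fun z => (he _ z.2).symm

theorem mdiff_smul {G : ℍ → ℂ} (hG : MDiff G) (γ : SL(2, ℤ)) : MDiff (fun z : ℍ => G (γ • z)) :=
  hG.comp (mdifferentiable_smul (g := (γ : GL (Fin 2) ℝ)) (by simp))

theorem mdiff_denom (γ : SL(2, ℤ)) : MDiff (fun z : ℍ => denom γ z) :=
  (contMDiff_denom (n := 1) _).mdifferentiable one_ne_zero

theorem coe_smul' (g : SL(2, ℤ)) (z : ℍ) :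
    ((g • z : ℍ) : ℂ) = ((g 0 0 : ℂ) * z + g 0 1) / denom g z := by
  rw [UpperHalfPlane.coe_specialLinearGroup_apply, ModularGroup.denom_apply]
  simp

theorem denom_mul (g h : SL(2, ℤ)) (z : ℍ) :
    denom (g * h : SL(2, ℤ)) z = denom g (h • z : ℍ) * denom h z := by
  have hd : denom h z ≠ 0 := denom_ne_zero _ _
  rw [ModularGroup.denom_apply g, coe_smul', add_mul, mul_assoc, div_mul_cancel₀ _ hd,
    ModularGroup.denom_apply, ModularGroup.denom_apply]
  simp only [Matrix.SpecialLinearGroup.coe_mul, Matrix.mul_apply, Fin.sum_univ_two]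
  push_cast
  ring

theorem kk_smul (t : ℝ) (w : ℤ × ℤ) (g : SL(2, ℤ)) (z : ℍ) :
    kk t w (g • z : ℍ) = denom g z * kk t (rv w g) z := by
  have hd : denom g z ≠ 0 := denom_ne_zero _ _
  have hd' : normSq (denom g z) ≠ 0 := by rwa [Ne, normSq_eq_zero]
  have hy : z.im ≠ 0 := z.im_ne_zero
  have e1 : (w.1 : ℂ) * (g • z : ℍ) + w.2 =
      (((rv w g).1 : ℂ) * z + (rv w g).2) / denom g z := by
    rw [coe_smul', eq_div_iff hd, add_mul, mul_assoc, div_mul_cancel₀ _ hd,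
      ModularGroup.denom_apply]
    simp only [rv]
    push_cast
    ring
  have e2 : ((g • z : ℍ) : ℂ).im = z.im / normSq (denom g z) :=
    ModularGroup.im_smul_eq_div_normSq g z
  unfold kk
  rw [e1, e2, map_div₀, map_div₀, UpperHalfPlane.coe_im]
  have e3 : π * t * (normSq (((rv w g).1 : ℂ) * z + (rv w g).2) / normSq (denom g z)) /
      (z.im / normSq (denom g z)) =
      π * t * normSq (((rv w g).1 : ℂ) * z + (rv w g).2) / z.im := by field_simp
  rw [e3, ← mul_assoc]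
  congr 1
  have e4 : ((normSq (denom g z) : ℝ) : ℂ) = denom g z * (starRingEnd ℂ) (denom g z) :=
    (mul_conj _).symm
  have hd2 : (starRingEnd ℂ) (denom g z) ≠ 0 := by rwa [Ne, map_eq_zero]
  have hy' : (z.im : ℂ) ≠ 0 := by exact_mod_cast hy
  push_cast
  rw [e4]
  field_simp

theorem PsiK_smul (φ : ℤ × ℤ → ℂ) (t : ℝ) (g : SL(2, ℤ)) (z : ℍ) :
    PsiK φ t (g • z : ℍ) = denom g z * PsiK (fun w => φ (rv w g⁻¹)) t z := by
  unfold PsiK
  rw [← (rvE g).tsum_eq (fun w => φ (rv w g⁻¹) * kk t w z), ← tsum_mul_left]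
  refine tsum_congr fun w => ?_
  have e : (rvE g) w = rv w g := rfl
  rw [e, ← rv_mul, mul_inv_cancel, rv_one, kk_smul]
  ring

theorem rv_inv (w : ℤ × ℤ) (g : SL(2, ℤ)) :
    rv w g⁻¹ = (w.1 * g 1 1 - w.2 * g 1 0, w.2 * g 0 0 - w.1 * g 0 1) := by
  simp only [rv, Matrix.SpecialLinearGroup.coe_inv, Matrix.adjugate_fin_two]
  simp
  constructor <;> ring

/-- the function on the rows which gives the Eisenstein series of level `n` -/
noncomputable def phi1 (n : ℕ) (w : ℤ × ℤ) : ℂ :=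
  if (n : ℤ) ∣ w.1 then (jacobiSym w.2 n : ℂ) else 0

theorem det_eq (g : SL(2, ℤ)) : g 0 0 * g 1 1 - g 0 1 * g 1 0 = 1 := by
  have := g.2
  rwa [Matrix.det_fin_two] at this

theorem J_congr {a b : ℤ} {n : ℕ} (h : (n : ℤ) ∣ a - b) : jacobiSym a n = jacobiSym b n :=
  jacobiSym.mod_left' (Int.emod_eq_emod_iff_emod_sub_eq_zero.mpr (Int.emod_eq_zero_of_dvd h))

theorem J_ad {n : ℕ} {g : SL(2, ℤ)} (hg : g ∈ Gamma0 n) :
    jacobiSym (g 0 0) n * jacobiSym (g 1 1) n = 1 := by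
  rw [← jacobiSym.mul_left, J_congr (b := 1), jacobiSym.one_left]
  obtain ⟨c, hc⟩ := mem_G0.mp hg
  exact ⟨g 0 1 * c, by linear_combination det_eq g + g 0 1 * hc⟩

theorem J_ad' {n : ℕ} {g : SL(2, ℤ)} (hg : g ∈ Gamma0 n) :
    jacobiSym (g 0 0) n = jacobiSym (g 1 1) n ∧ jacobiSym (g 1 1) n ^ 2 = 1 := by
  have h := J_ad hg
  rcases Int.eq_one_or_neg_one_of_mul_eq_one' h with h | h <;> rw [h.1, h.2] <;> norm_num

theorem phi1_rv {n : ℕ} {g : SL(2, ℤ)} (hg : g ∈ Gamma0 n) (w : ℤ × ℤ) :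
    phi1 n (rv w g⁻¹) = jacobiSym (g 1 1) n * phi1 n w := by
  obtain ⟨c, hc⟩ := mem_G0.mp hg
  have hdet := det_eq g
  rw [rv_inv]
  unfold phi1
  have h1 : (n : ℤ) ∣ w.1 * g 1 1 - w.2 * g 1 0 ↔ (n : ℤ) ∣ w.1 := by
    constructor
    · rintro ⟨k, hk⟩
      exact ⟨k * g 0 0 + w.2 * c * g 0 0 - w.1 * g 0 1 * c, by
        linear_combination (g 0 0) * hk - w.1 * hdet + (w.2 * g 0 0 - w.1 * g 0 1) * hc⟩
    · rintro ⟨k, hk⟩
      exact ⟨k * g 1 1 - w.2 * c, by linear_combination g 1 1 * hk - w.2 * hc⟩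
  simp only [h1]
  split_ifs with h
  · obtain ⟨k, hk⟩ := h
    rw [J_congr (b := g 0 0 * w.2) ⟨-k * g 0 1, by linear_combination (-g 0 1) * hk⟩,
      jacobiSym.mul_left, (J_ad' hg).1]
    push_cast
    ring
  · simp

/-- the Eisenstein series as an integral -/
noncomputable def I0 (n : ℕ) (z : ℂ) : ℂ := ∫ t in Ioi (0 : ℝ), PsiK (phi1 n) t z

theorem I0_mob {n : ℕ} {g : SL(2, ℤ)} (hg : g ∈ Gamma0 n) (z : ℍ) :
    I0 n (g • z : ℍ) = jacobiSym (g 1 1) n * denom g z * I0 n z := by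
  unfold I0
  rw [← integral_const_mul]
  refine integral_congr_ae (Eventually.of_forall fun t => ?_)
  simp only
  rw [PsiK_smul]
  simp only [phi1_rv hg]
  unfold PsiK
  simp only [mul_assoc]
  rw [tsum_mul_left]
  ring

variable {K : Type} [Field K] [NumberField K] {n : ℕ} {q : QF K n}

/-- the theta series of a genus character -/
noncomputable def gB (R : Rep q) (e : ℕ) (z : ℂ) : ℂ :=
  ∑ c, (R.chi e c : ℂ) * thB q (R.X c) (R.a c) z

/-- the standing hypotheses -/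
structure Hyp (R : Rep q) : Prop where
  hn4 : n % 4 = 3
  h17 : jacobiSym n 17 = -1
  hJ : ∀ c, jacobiSym (R.a c) n = 1
  sum : ∀ n₁ n₂ : ℕ, n₁ * n₂ = n → ∀ z : ℂ, 0 < z.im →
      HasSum (fun m : ℕ => ((if m = 0 then ∑ c, R.chi n₁ c else wn n * conv n₁ n₂ m : ℤ) : ℂ) *
        qq z ^ m) (gB R n₁ z)

namespace Hyp

variable {R : Rep q} (H : Hyp R)

/-- the pair of ideals -/
def pr (A B : ClassGroup (𝓞 K)) : Pr q where
  X := R.X A
  Y := R.X B
  a := R.a A
  b := R.a B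
  ha := R.ha A
  hb := R.ha B
  hX := R.hX A
  hY := R.hX B
  hn4 := H.hn4
  h17 := H.h17
  hac := R.hcop A
  hbc := R.hcop B
  hJa := H.hJ A
  hJb := H.hJ B

omit H in
theorem gB_mul (e e' : ℕ) (z z' : ℂ) : gB R e z * gB R e' z' = ∑ A, ∑ B,
    (R.chi e A * R.chi e' B : ℂ) * (thB q (R.X A) (R.a A) z * thB q (R.X B) (R.a B) z') := by
  unfold gB
  rw [Finset.sum_mul_sum]
  exact Finset.sum_congr rfl fun A _ => Finset.sum_congr rfl fun B _ => by ring

include H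

theorem prod_inv (e e' : ℕ) {g : SL(2, ℤ)} (hg : g ∈ Gamma0 n) (z : ℍ) :
    gB R e (g • z : ℍ) * gB R e' (g • z : ℍ) = denom g z ^ 2 * (gB R e z * gB R e' z) := by
  rw [gB_mul, gB_mul, Finset.mul_sum]
  refine Finset.sum_congr rfl fun A _ => ?_
  rw [Finset.mul_sum]
  refine Finset.sum_congr rfl fun B _ => ?_
  have := (H.pr A B).inv0 hg z
  simp only [pr] at this
  rw [this]
  ring

theorem gB_bdd (e : ℕ) : ∃ C : ℝ, 0 ≤ C ∧ ∀ (g : SL(2, ℤ)) (z : ℍ), 1 / 2 ≤ z.im →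
    ‖gB R e (g • z : ℍ)‖ ≤ C * ‖denom g z‖ := by
  choose C hC using fun A => (H.pr A A).bdd0
  refine ⟨∑ A, √(C A), Finset.sum_nonneg fun A _ => Real.sqrt_nonneg _, fun g z hz => ?_⟩
  unfold gB
  rw [Finset.sum_mul]
  refine norm_sum_le_of_le _ fun A _ => ?_
  have h1 := hC A g z hz
  simp only [pr] at h1
  rw [norm_mul, ← sq] at h1
  have h2 : ‖thB q (R.X A) (R.a A) (g • z : ℍ)‖ ≤ √(C A) * ‖denom g z‖ := by
    have := Real.le_sqrt_of_sq_le h1
    rwa [Real.sqrt_mul' _ (sq_nonneg _), Real.sqrt_sq (norm_nonneg _)] at this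
  have h3 : ‖(R.chi e A : ℂ)‖ ≤ 1 := by
    unfold Rep.chi
    rcases jacobiSym.trichotomy (R.a A) e with h | h | h <;> rw [h] <;> simp
  rw [norm_mul]
  calc _ ≤ 1 * (√(C A) * ‖denom g z‖) := by gcongr
    _ = _ := one_mul _

theorem E_sq {g : SL(2, ℤ)} (hg : g ∈ Gamma0 n) (z : ℍ) :
    gB R 1 ((g * g) • z : ℍ) = denom (g * g : SL(2, ℤ)) z * gB R 1 z := by
  have h1 := (mdiff_of_sum (H.sum 1 n (one_mul n))).1
  have h2 := (mul_eq_zero_iff (f := fun z : ℍ => gB R 1 (g • z : ℍ) - denom g z * gB R 1 z)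
    (g := fun z : ℍ => gB R 1 (g • z : ℍ) + denom g z * gB R 1 z)
    ((mdiff_smul h1 g).sub ((mdiff_denom g).mul h1))
    ((mdiff_smul h1 g).add ((mdiff_denom g).mul h1))).mp (by
      funext z
      have := H.prod_inv 1 1 hg z
      simp only [Pi.mul_apply, Pi.zero_apply]
      linear_combination this)
  rw [mul_smul, denom_mul]
  rcases h2 with h | h
  · have a1 := congrFun h z
    have a2 := congrFun h (g • z)
    simp only [Pi.zero_apply] at a1 a2
    linear_combination a2 + denom g (g • z : ℍ) * a1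
  · have a1 := congrFun h z
    have a2 := congrFun h (g • z)
    simp only [Pi.zero_apply] at a1 a2
    linear_combination a2 - denom g (g • z : ℍ) * a1

theorem I0_eq {C₀ : ℂ} {ε : ℝ} (h : ∀ z : ℂ, 0 < z.im →
      HasSum (fun m : ℕ => (if m = 0 then C₀ else ((ε * 4 / √(n : ℝ) : ℝ) : ℂ) * conv 1 n m) *
        qq z ^ m) (I0 n z)) {z : ℂ} (hz : 0 < z.im) :
    I0 n z = ((ε * 4 / √(n : ℝ) / wn n : ℝ) : ℂ) * gB R 1 z := by
  set c₀ : ℂ := ((ε * 4 / √(n : ℝ) / wn n : ℝ) : ℂ) with hc₀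
  have hw : (wn n : ℂ) ≠ 0 := by
    unfold wn
    split_ifs <;> norm_num
  have h1 : ∀ z : ℂ, 0 < z.im → I0 n z - c₀ * gB R 1 z = C₀ - c₀ * (∑ c, R.chi 1 c : ℤ) := by
    intro z hz
    have h2 := (h z hz).sub ((H.sum 1 n (one_mul n) z hz).mul_left c₀)
    have h3 : HasSum (fun m : ℕ => if m = 0 then C₀ - c₀ * (∑ c, R.chi 1 c : ℤ) else 0)
        (C₀ - c₀ * (∑ c, R.chi 1 c : ℤ)) := hasSum_ite_eq 0 _
    refine h2.unique (h3.congr_fun fun m => ?_)
    by_cases hm : m = 0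
    · simp only [hm, if_true, pow_zero, mul_one]
    · simp only [hm, if_false, hc₀]
      push_cast
      field_simp
      ring
  obtain ⟨g, g00, g10, g01, g11⟩ : ∃ g : SL(2, ℤ), g 0 0 = 1 ∧ g 1 0 = n ∧ g 0 1 = 0 ∧ g 1 1 = 1 :=
    ⟨⟨!![1, 0; n, 1], by simp [Matrix.det_fin_two_of]⟩, rfl, rfl, rfl, rfl⟩
  have hg0 : g ∈ Gamma0 n := mem_G0.mpr (by rw [g10])
  have hg2 : g * g ∈ Gamma0 n := (Gamma0 n).mul_mem hg0 hg0
  have e11 : (g * g : SL(2, ℤ)) 1 1 = 1 := by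
    simp [Matrix.mul_apply, Fin.sum_univ_two, g01, g11]
  have e10 : (g * g : SL(2, ℤ)) 1 0 = 2 * n := by
    simp [Matrix.mul_apply, Fin.sum_univ_two, g00, g10, g11]
    ring
  have a1 := h1 _ (UpperHalfPlane.I).im_pos
  have a2 := h1 _ ((g * g) • UpperHalfPlane.I).im_pos
  have a3 := H.E_sq hg0 UpperHalfPlane.I
  have a4 := I0_mob hg2 UpperHalfPlane.I
  rw [e11, jacobiSym.one_left, Int.cast_one, one_mul] at a4
  rw [a3, a4] at a2
  have a5 : denom (g * g : SL(2, ℤ)) UpperHalfPlane.I - 1 ≠ 0 := by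
    rw [ModularGroup.denom_apply, e11, e10]
    have hn : (n : ℂ) ≠ 0 := by exact_mod_cast q.d_pos.ne'
    simp [hn]
  have a6 : C₀ - c₀ * (∑ c, R.chi 1 c : ℤ) = 0 := by
    apply mul_left_cancel₀ a5
    linear_combination a2 - denom (g * g : SL(2, ℤ)) UpperHalfPlane.I * a1
  linear_combination h1 z hz + a6

theorem gB_mob {c₀ : ℂ} (hc : c₀ ≠ 0) (h : ∀ z : ℂ, 0 < z.im → I0 n z = c₀ * gB R 1 z)
    {n₁ n₂ : ℕ} (hn : n₁ * n₂ = n) {g : SL(2, ℤ)} (hg : g ∈ Gamma0 n) (z : ℍ) :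
    gB R n₁ (g • z : ℍ) = jacobiSym (g 1 1) n * denom g z * gB R n₁ z := by
  obtain ⟨h1, h1'⟩ := mdiff_of_sum (H.sum 1 n (one_mul n))
  have h2 := (mdiff_of_sum (H.sum n₁ n₂ hn)).1
  have hJ : (jacobiSym (g 1 1) n : ℂ) ^ 2 = 1 := by exact_mod_cast (J_ad' hg).2
  have h3 := (mul_eq_zero_iff (f := fun z : ℍ => gB R 1 z)
    (g := fun z : ℍ => gB R n₁ (g • z : ℍ) - jacobiSym (g 1 1) n * denom g z * gB R n₁ z) h1
    ((mdiff_smul h2 g).sub ((mdifferentiable_const.mul (mdiff_denom g)).mul h2))).mp (by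
      funext z
      have a1 := H.prod_inv n₁ 1 hg z
      have a2 := I0_mob hg z
      rw [h _ z.im_pos, h _ (g • z).im_pos] at a2
      have a3 : gB R 1 (g • z : ℍ) = jacobiSym (g 1 1) n * denom g z * gB R 1 z := by
        apply mul_left_cancel₀ hc
        linear_combination a2
      rw [a3] at a1
      have hd : denom g z ≠ 0 := denom_ne_zero _ _
      simp only [Pi.mul_apply, Pi.zero_apply]
      apply mul_left_cancel₀ hd
      linear_combination (jacobiSym (g 1 1) n : ℂ) * a1 -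
        denom g z * gB R 1 z * gB R n₁ (g • z : ℍ) * hJ)
  rcases h3 with h3 | h3
  · exfalso
    rw [h3] at h1'
    have h4 := tendsto_nhds_unique h1' tendsto_const_nhds
    simp only [if_true, Rep.chi, jacobiSym.one_right, Finset.sum_const, Finset.card_univ,
      nsmul_eq_mul, mul_one, Int.cast_natCast] at h4
    have h5 : ((Fintype.card (ClassGroup (𝓞 K)) : ℕ) : ℂ) = 0 := h4
    exact Fintype.card_ne_zero (Nat.cast_eq_zero.mp h5)
  · exact sub_eq_zero.mp (congrFun h3 z)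

end Hyp

end Vale.Agent.P014A
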