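import Vale.Agent.P004N.H974.Unfold

/-!
# P014 (A): unfolding for complex valued functions
-/

open UpperHalfPlane hiding I
open MeasureTheory Set Complex
open scoped MatrixGroups Modular ENNReal Real Classical

namespace Vale.Agent.P014A

open Vale.Agent.P004.H26.H86

theorem meas_smul (γ : SL(2, ℤ)) : Measurable fun z : ℍ => (γ • z : ℍ) :=
  (MeasurableEquiv.smul ((γ : SL(2, ℤ)) : GL (Fin 2) ℝ)).measurable

theorem mp_smul (γ : SL(2, ℤ)) : MeasurePreserving (fun z : ℍ => (γ • z : ℍ)) volume volume :=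
  measurePreserving_smul (γ : GL (Fin 2) ℝ) volume

theorem emb_smul (γ : SL(2, ℤ)) : MeasurableEmbedding (fun z : ℍ => (γ • z : ℍ)) :=
  (MeasurableEquiv.smul (γ : GL (Fin 2) ℝ)).measurableEmbedding

theorem fd_meas : MeasurableSet (𝒟 : Set ℍ) := ModularGroup.isClosed_fd.measurableSet

/-- unfolding over the full group -/
theorem unfoldC {h : ℍ → ℂ} (hm : Measurable h) (hi : Integrable h) :
    (∀ᵐ z ∂(volume.restrict (𝒟 : Set ℍ)), Summable fun γ : SL(2, ℤ) => h (γ • z)) ∧
      ∫ z in (𝒟 : Set ℍ), ∑' γ : SL(2, ℤ), h (γ • z) = 2 * ∫ z, h z := by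
  have := sl_countable
  have hfin : ∑' γ : SL(2, ℤ), ∫⁻ z in (𝒟 : Set ℍ), ‖h (γ • z)‖ₑ ≠ ∞ := by
    rw [unfold (h := fun z => ‖h z‖ₑ) hm.enorm]
    exact ENNReal.mul_ne_top (by norm_num) hi.2.ne
  have hmγ : ∀ γ : SL(2, ℤ), Measurable fun z : ℍ => h (γ • z) := fun γ => hm.comp (meas_smul γ)
  constructor
  · rw [← lintegral_tsum fun γ => (hmγ γ).enorm.aemeasurable] at hfin
    have h1 := ae_lt_top (Measurable.tsum fun γ => (hmγ γ).enorm) hfin
    filter_upwards [h1] with z hz
    have h2 : Summable fun γ : SL(2, ℤ) => ‖h (γ • z)‖₊ :=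
      ENNReal.tsum_coe_ne_top_iff_summable.mp hz.ne
    exact Summable.of_nnnorm h2
  · rw [integral_tsum (fun γ => (hmγ γ).aestronglyMeasurable) hfin]
    set F : SL(2, ℤ) → ℍ → ℂ := fun γ z => (𝒟 : Set ℍ).indicator (fun _ => (1 : ℂ)) (γ⁻¹ • z) * h z
      with hF
    have e0 : ∀ (γ : SL(2, ℤ)) (z : ℍ), F γ (γ • z) =
        (𝒟 : Set ℍ).indicator (fun z => h (γ • z)) z := by
      intro γ z
      simp only [hF]
      rw [← mul_smul, inv_mul_cancel, one_smul]
      by_cases hz : z ∈ (𝒟 : Set ℍ) <;> simp [hz]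
    have e1 : ∀ γ : SL(2, ℤ), ∫ z in (𝒟 : Set ℍ), h (γ • z) = ∫ z, F γ z := by
      intro γ
      rw [← (mp_smul γ).integral_comp (emb_smul γ) (F γ), ← integral_indicator fd_meas]
      exact integral_congr_ae (Filter.Eventually.of_forall fun z => (e0 γ z).symm)
    have e2 : ∀ γ : SL(2, ℤ), ∫⁻ z in (𝒟 : Set ℍ), ‖h (γ • z)‖ₑ = ∫⁻ z, ‖F γ z‖ₑ := by
      intro γ
      rw [← (mp_smul γ).lintegral_comp_emb (emb_smul γ) (fun z => ‖F γ z‖ₑ),
        ← lintegral_indicator fd_meas]
      refine lintegral_congr fun z => ?_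
      rw [e0]
      by_cases hz : z ∈ (𝒟 : Set ℍ) <;> simp [hz]
    simp only [e2] at hfin
    simp only [e1]
    have hFm : ∀ γ, Measurable (F γ) := fun γ =>
      ((measurable_const.indicator fd_meas).comp (meas_smul γ⁻¹)).mul hm
    rw [← integral_tsum (fun γ => (hFm γ).aestronglyMeasurable) hfin, ← integral_const_mul]
    refine integral_congr_ae ?_
    filter_upwards [two_of] with z hz
    simp only [hF]
    rw [tsum_mul_right]
    congr 1
    refine ((Equiv.inv SL(2, ℤ)).tsum_eq
      (fun γ => (𝒟 : Set ℍ).indicator (fun _ => (1 : ℂ)) (γ • z))).trans ?_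
    have h3 := congrArg ENNReal.toReal hz
    rw [ENNReal.tsum_toReal_eq fun γ => by
      generalize γ • z = w
      by_cases h : w ∈ (𝒟 : Set ℍ) <;> simp [h]] at h3
    have h4 := congrArg (fun x : ℝ => (x : ℂ)) h3
    simp only [Complex.ofReal_tsum] at h4
    refine Eq.trans (tsum_congr fun γ => ?_) (h4.trans (by norm_num))
    generalize γ • z = w
    by_cases h : w ∈ (𝒟 : Set ℍ) <;> simp [h]

/-- the strip -/
def strip : Set ℍ := {w : ℍ | 0 ≤ w.re ∧ w.re < 1}

theorem strip_meas : MeasurableSet strip := by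
  have h : Measurable fun z : ℍ => z.re := Complex.measurable_re.comp measurable_coe
  exact (measurableSet_le measurable_const h).inter (measurableSet_lt h measurable_const)

theorem sumTC (w : ℍ) (c : ℂ) :
    ∑' k : ℤ, strip.indicator (fun _ => c) (ModularGroup.T ^ k • w) = c := by
  rw [tsum_eq_single (-⌊w.re⌋)]
  · rw [indicator_of_mem]
    simp only [strip, mem_ofPred_eq, ModularGroup.re_T_zpow_smul]
    push_cast
    constructor
    · linarith [Int.floor_le w.re]
    · linarith [Int.lt_floor_add_one w.re]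
  · intro k hk
    rw [indicator_of_notMem]
    simp only [strip, mem_ofPred_eq, ModularGroup.re_T_zpow_smul]
    rintro ⟨h1, h2⟩
    apply hk
    have : ⌊w.re⌋ = -k := by
      rw [Int.floor_eq_iff]
      push_cast
      constructor <;> linarith
    omega

/-- **unfolding** to the strip -/
theorem unfoldS {H : ℍ → ℂ} (hm : Measurable H)
    (hT : ∀ (k : ℤ) (z : ℍ), H (ModularGroup.T ^ k • z) = H z) (hi : IntegrableOn H strip) :
    (∀ᵐ z ∂(volume.restrict (𝒟 : Set ℍ)), Summable fun p : CP => H (gp p • z)) ∧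
      ∫ z in (𝒟 : Set ℍ), ∑' p : CP, H (gp p • z) = 2 * ∫ z in strip, H z := by
  obtain ⟨h1, h2⟩ := unfoldC (h := strip.indicator H) (hm.indicator strip_meas)
    ((integrable_indicator_iff strip_meas).mpr hi)
  have key : ∀ z : ℍ, (Summable fun γ : SL(2, ℤ) => strip.indicator H (γ • z)) →
      HasSum (fun p : CP => H (gp p • z)) (∑' γ : SL(2, ℤ), strip.indicator H (γ • z)) := by
    intro z hz
    have h3 := (Equiv.ofBijective Psi Psi_bij).hasSum_iff.mpr hz.hasSum
    have h4 := (Equiv.ofBijective Psi Psi_bij).summable_iff.mpr hz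
    refine h3.prod_fiberwise fun p => ?_
    have h5 := (h4.prod_factor p).hasSum
    have h6 : ∀ k : ℤ, ((fun γ : SL(2, ℤ) => strip.indicator H (γ • z)) ∘
        (Equiv.ofBijective Psi Psi_bij)) (p, k) =
        strip.indicator (fun _ => H (gp p • z)) (ModularGroup.T ^ k • (gp p • z)) := by
      intro k
      show strip.indicator H ((ModularGroup.T ^ k * gp p) • z) = _
      rw [mul_smul]
      by_cases h : ModularGroup.T ^ k • (gp p • z) ∈ strip
      · rw [indicator_of_mem h, indicator_of_mem h, hT]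
      · rw [indicator_of_notMem h, indicator_of_notMem h]
    simp only [h6] at h5 ⊢
    rwa [sumTC] at h5
  refine ⟨h1.mono fun z hz => (key z hz).summable, ?_⟩
  rw [← integral_indicator strip_meas, ← h2]
  refine integral_congr_ae (h1.mono fun z hz => (key z hz).tsum_eq)

/-! ### rows -/

/-- the bottom row -/
def row (g : SL(2, ℤ)) : CP := ⟨(g 1 0, g 1 1), ModularGroup.bottom_row_coprime g⟩

theorem row_gp (p : CP) : row (gp p) = p := Subtype.ext (Prod.ext (gp0 p) (gp1 p))

theorem exists_T (g : SL(2, ℤ)) : ∃ k : ℤ, g = ModularGroup.T ^ k * gp (row g) := by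
  obtain ⟨⟨p, k⟩, h⟩ := Psi_bij.2 g
  have h' : ModularGroup.T ^ k * gp p = g := h
  refine ⟨k, ?_⟩
  have : row g = p := by
    rw [← h', ← row_gp p]
    refine Subtype.ext (Prod.ext ?_ ?_)
    · show (ModularGroup.T ^ k * gp (row (gp p))) 1 0 = gp p 1 0
      rw [T_row, row_gp]
    · show (ModularGroup.T ^ k * gp (row (gp p))) 1 1 = gp p 1 1
      rw [T_row, row_gp]
  rw [this, h']

theorem row_T (k : ℤ) (g : SL(2, ℤ)) : row (ModularGroup.T ^ k * g) = row g :=
  Subtype.ext (Prod.ext (T_row g k 0) (T_row g k 1))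

theorem row_mul (g h : SL(2, ℤ)) : row (gp (row g) * h) = row (g * h) := by
  obtain ⟨k, hk⟩ := exists_T g
  conv_rhs => rw [hk, mul_assoc, row_T]

/-- right translation of the rows -/
noncomputable def cpE (β : SL(2, ℤ)) : CP ≃ CP where
  toFun p := row (gp p * β)
  invFun p := row (gp p * β⁻¹)
  left_inv p := by
    show row (gp (row (gp p * β)) * β⁻¹) = p
    rw [row_mul, mul_inv_cancel_right, row_gp]
  right_inv p := by
    show row (gp (row (gp p * β⁻¹)) * β) = p
    rw [row_mul, inv_mul_cancel_right, row_gp]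

theorem count_sum {H : ℍ → ℂ} (hT : ∀ (k : ℤ) (z : ℍ), H (ModularGroup.T ^ k • z) = H z)
    {z : ℍ} (hz : Summable fun p : CP => H (gp p • z)) (N : ℤ) {κ : Type*} (s : Finset κ)
    (β : κ → SL(2, ℤ)) (c : ℕ)
    (hc : ∀ δ : SL(2, ℤ), (s.filter fun k => N ∣ (δ * (β k)⁻¹ : SL(2, ℤ)) 1 0).card = c) :
    ∑ k ∈ s, ∑' p : CP, (if N ∣ p.1.1 then H (gp p • β k • z) else 0) =
      c * ∑' p : CP, H (gp p • z) := by
  have h1 : ∀ k, ∑' p : CP, (if N ∣ p.1.1 then H (gp p • β k • z) else 0) =
      ∑' p : CP, (if N ∣ (gp p * (β k)⁻¹ : SL(2, ℤ)) 1 0 then H (gp p • z) else 0) := by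
    intro k
    rw [← (cpE (β k)⁻¹).tsum_eq]
    refine tsum_congr fun p => ?_
    have e1 : ((cpE (β k)⁻¹) p).1.1 = (gp p * (β k)⁻¹ : SL(2, ℤ)) 1 0 := rfl
    have e2 : H (gp ((cpE (β k)⁻¹) p) • β k • z) = H (gp p • z) := by
      obtain ⟨j, hj⟩ := exists_T (gp p * (β k)⁻¹)
      have : gp p = ModularGroup.T ^ j * gp ((cpE (β k)⁻¹) p) * β k := by
        rw [← mul_inv_eq_iff_eq_mul]; exact hj
      conv_rhs => rw [this, mul_smul, mul_smul, hT]
    rw [e1, e2]
  simp only [h1]
  rw [← Summable.tsum_finsetSum, ← tsum_mul_left]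
  · refine tsum_congr fun p => ?_
    rw [← Finset.sum_filter, Finset.sum_const, hc, nsmul_eq_mul]
  · intro k _
    refine Summable.of_norm_bounded hz.norm fun p => ?_
    split_ifs
    · exact le_rfl
    · simp

/-! ### coordinates -/

theorem strip_int {φ : ℂ → ℂ}
    (hφ : IntegrableOn (fun p : ℝ × ℝ => φ (p.1 + p.2 * I)) (Ico 0 1 ×ˢ Ioi 0)) :
    IntegrableOn (fun z : ℍ => φ z * (z.im : ℂ) ^ 2) strip ∧
      ∫ z in strip, φ z * (z.im : ℂ) ^ 2 =
        ∫ p in Ico (0 : ℝ) 1 ×ˢ Ioi (0 : ℝ), φ (p.1 + p.2 * I) := by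
  set T : Set ℂ := {w | 0 ≤ w.re ∧ w.re < 1} with hT
  have hTm : MeasurableSet T := (measurableSet_le measurable_const Complex.measurable_re).inter
    (measurableSet_lt Complex.measurable_re measurable_const)
  set ρ : ℍ → NNReal := fun z => (1 / NNReal.mk z.im z.im_pos.le) ^ 2 with hρ
  have hρm : Measurable ρ := by
    refine Continuous.measurable ?_
    refine .pow (.div₀ continuous_const ?_ ?_) _
    · exact continuous_im.subtype_mk _
    · exact fun x ↦ NNReal.ne_iff.mp x.im_ne_zero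
  have e0 : ∀ z : ℍ, ρ z • strip.indicator (fun z : ℍ => φ z * (z.im : ℂ) ^ 2) z =
      T.indicator φ z := by
    intro z
    by_cases h : z ∈ strip
    · rw [indicator_of_mem h, indicator_of_mem (show (z : ℂ) ∈ T from h), NNReal.smul_def, hρ]
      have : (z.im : ℂ) ≠ 0 := by exact_mod_cast z.im_ne_zero
      simp only [NNReal.coe_pow, NNReal.coe_div, NNReal.coe_one, NNReal.coe_mk, real_smul]
      push_cast
      field_simp
    · rw [indicator_of_notMem h, indicator_of_notMem (show (z : ℂ) ∉ T from h), smul_zero]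
  have hr : (range (UpperHalfPlane.coe)) = {w : ℂ | 0 < w.im} := by
    ext w
    constructor
    · rintro ⟨z, rfl⟩; exact z.im_pos
    · intro hw; exact ⟨⟨w, hw⟩, rfl⟩
  have hpre : Complex.measurableEquivRealProd.symm ⁻¹' (T ∩ {w : ℂ | 0 < w.im}) =
      Ico (0 : ℝ) 1 ×ˢ Ioi (0 : ℝ) := by
    ext p; simp [hT, Complex.measurableEquivRealProd_symm_apply]
  have hco : ∀ p : ℝ × ℝ, Complex.measurableEquivRealProd.symm p = p.1 + p.2 * I := by
    intro p
    apply Complex.ext <;> simp [Complex.measurableEquivRealProd_symm_apply]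
  have mp := Complex.volume_preserving_equiv_real_prod.symm
  have me := Complex.measurableEquivRealProd.symm.measurableEmbedding
  constructor
  · rw [← integrable_indicator_iff strip_meas, volume_def,
      integrable_withDensity_iff_integrable_smul hρm]
    simp only [e0]
    have : (fun z : ℍ => T.indicator φ z) = T.indicator φ ∘ UpperHalfPlane.coe := rfl
    rw [this, ← measurableEmbedding_coe.integrable_map_iff, measurableEmbedding_coe.map_comap, hr,
      integrable_indicator_iff hTm, IntegrableOn, Measure.restrict_restrict hTm]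
    refine (mp.integrableOn_comp_preimage me).mp ?_
    rw [hpre]
    exact hφ.congr_fun (fun p _ => by simp only [Function.comp_apply, hco])
      (measurableSet_Ico.prod measurableSet_Ioi)
  · rw [← integral_indicator strip_meas, volume_def, integral_withDensity_eq_integral_smul hρm]
    simp only [e0]
    rw [← measurableEmbedding_coe.integral_map, measurableEmbedding_coe.map_comap, hr,
      integral_indicator hTm, Measure.restrict_restrict hTm,
      ← mp.setIntegral_preimage_emb me, hpre]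
    simp only [hco]

end Vale.Agent.P014A
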