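import Vale.Agent.P014A.Iface
import Vale.Agent.P014A.Unf
import Vale.Agent.P004H.H792.Pars

/-!
# P014 (A): the integral over the strip
-/

open MeasureTheory Set Complex
open scoped ENNReal Real Classical

namespace Vale.Agent.P014A

open Vale.Agent.P004H.H204 (qq norm_qq)

theorem integrable_tsum' {α ι : Type*} [MeasurableSpace α] {μ : Measure α} [Countable ι]
    {F : ι → α → ℂ} (hF : ∀ i, Integrable (F i) μ) (hs : Summable fun i => ∫ a, ‖F i a‖ ∂μ) :
    Integrable (fun a => ∑' i, F i a) μ := by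
  refine ⟨AEStronglyMeasurable.tsum fun i => (hF i).1, ?_⟩
  have h1 : ∀ i, ∫⁻ a, ‖F i a‖ₑ ∂μ = ENNReal.ofReal (∫ a, ‖F i a‖ ∂μ) := fun i =>
    (ofReal_integral_norm_eq_lintegral_enorm (hF i)).symm
  calc ∫⁻ a, ‖∑' i, F i a‖ₑ ∂μ ≤ ∫⁻ a, ∑' i, ‖F i a‖ₑ ∂μ :=
        lintegral_mono fun a => enorm_tsum_le_tsum_enorm
    _ = ∑' i, ∫⁻ a, ‖F i a‖ₑ ∂μ := lintegral_tsum fun i => (hF i).1.enorm
    _ < ∞ := by
        simp only [h1]
        exact hs.tsum_ofReal_ne_top.lt_top

theorem exp_neg_le {x : ℝ} (hx : 0 < x) (k : ℕ) : Real.exp (-x) ≤ k.factorial / x ^ k := by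
  have h := Real.pow_div_factorial_le_exp x hx.le k
  have hk : (0 : ℝ) < k.factorial := by exact_mod_cast k.factorial_pos
  rw [Real.exp_neg, inv_eq_one_div, div_le_div_iff₀ (Real.exp_pos _) (by positivity), one_mul]
  rw [div_le_iff₀ hk] at h
  linarith

theorem KB_maj : IntegrableOn (fun u : ℝ => u ^ 5 * Real.exp (-(2 * π * u))) (Ioi 0) := by
  have h := integrableOn_rpow_mul_exp_neg_mul_rpow (p := 1) (s := 5) (b := 2 * π) (by norm_num)
    one_pos (by positivity)
  refine h.congr_fun (fun u _ => ?_) measurableSet_Ioi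
  simp only [Real.rpow_one]
  rw [show (5 : ℝ) = (5 : ℕ) by norm_num, Real.rpow_natCast, neg_mul]

theorem KB_pt {x u : ℝ} (hx : 0 < x) (hu : 0 < u) : Real.exp (-(2 * π * (u + x / u))) / u ≤
    720 / (2 * π) ^ 6 / x ^ 6 * (u ^ 5 * Real.exp (-(2 * π * u))) := by
  have h := exp_neg_le (x := 2 * π * (x / u)) (by positivity) 6
  have e : ((Nat.factorial 6 : ℕ) : ℝ) = 720 := by norm_num [Nat.factorial]
  rw [e] at h
  rw [mul_add, neg_add, Real.exp_add]
  calc Real.exp (-(2 * π * u)) * Real.exp (-(2 * π * (x / u))) / u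
      ≤ Real.exp (-(2 * π * u)) * (720 / (2 * π * (x / u)) ^ 6) / u := by gcongr
    _ = _ := by field_simp

theorem KB_int {x : ℝ} (hx : 0 < x) :
    IntegrableOn (fun u : ℝ => Real.exp (-(2 * π * (u + x / u))) / u) (Ioi 0) := by
  refine Integrable.mono' (KB_maj.const_mul (720 / (2 * π) ^ 6 / x ^ 6)) ?_ ?_
  · exact Measurable.aestronglyMeasurable (by fun_prop)
  · refine (ae_restrict_iff' measurableSet_Ioi).mpr (Filter.Eventually.of_forall fun u hu => ?_)
    have hu' : 0 < u := hu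
    rw [Real.norm_of_nonneg (by positivity)]
    exact KB_pt hx hu'

theorem KB_nonneg (x : ℝ) : 0 ≤ KB x :=
  setIntegral_nonneg measurableSet_Ioi fun u hu => by
    have hu' : 0 < u := hu
    positivity

theorem KB_le : ∃ C : ℝ, 0 ≤ C ∧ ∀ x : ℝ, 0 < x → KB x ≤ C / x ^ 6 := by
  refine ⟨720 / (2 * π) ^ 6 * ∫ u in Ioi (0 : ℝ), u ^ 5 * Real.exp (-(2 * π * u)), ?_,
    fun x hx => ?_⟩
  · refine mul_nonneg (by positivity) (setIntegral_nonneg measurableSet_Ioi fun u hu => ?_)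
    have hu' : 0 < u := hu
    positivity
  · have h := setIntegral_mono_on (KB_int hx) (KB_maj.const_mul (720 / (2 * π) ^ 6 / x ^ 6))
      measurableSet_Ioi fun u hu => KB_pt hx hu
    rw [integral_const_mul] at h
    refine h.trans (le_of_eq ?_)
    ring

theorem KB_scale {s A : ℝ} (hs : 0 < s) (hA : 0 < A) :
    IntegrableOn (fun y : ℝ => Real.exp (-(2 * π * s * y)) * (Real.exp (-(π * A / y)) / y))
      (Ioi 0) ∧
    ∫ y in Ioi (0 : ℝ), Real.exp (-(2 * π * s * y)) * (Real.exp (-(π * A / y)) / y) =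
      KB (A * s / 2) := by
  set g : ℝ → ℝ := fun u => Real.exp (-(2 * π * (u + A * s / 2 / u))) / u with hg
  have e : ∀ y ∈ Ioi (0 : ℝ), s * g (s * y) =
      Real.exp (-(2 * π * s * y)) * (Real.exp (-(π * A / y)) / y) := by
    intro y hy
    have hy' : 0 < y := hy
    simp only [hg]
    rw [← mul_div_assoc, ← mul_div_assoc, ← Real.exp_add, mul_div_mul_left _ _ hs.ne']
    congr 2
    field_simp
    ring
  constructor
  · have h1 : IntegrableOn (fun y => g (s * y)) (Ioi 0) :=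
      (integrableOn_Ioi_comp_mul_left_iff g 0 hs).mpr
        (by rw [mul_zero]; exact KB_int (by positivity))
    exact IntegrableOn.congr_fun (h1.const_mul s) e measurableSet_Ioi
  · rw [← setIntegral_congr_fun measurableSet_Ioi e, integral_const_mul,
      integral_comp_mul_left_Ioi g 0 hs, mul_zero, smul_eq_mul, ← mul_assoc,
      mul_inv_cancel₀ hs.ne', one_mul]
    rfl

/-- the kernel on the vertical rows -/
noncomputable def Kt (χ : ℕ → ℝ) (t y : ℝ) : ℝ :=
  ∑' e : ℕ, χ e * e * (Real.exp (-(π * (t * e ^ 2) / y)) / y)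

theorem summ_Kt {χ : ℕ → ℝ} (hχ : ∀ e, |χ e| ≤ 1) {t y : ℝ} (ht : 0 < t) (hy : 0 < y) :
    Summable fun e : ℕ => ‖χ e * e * (Real.exp (-(π * (t * e ^ 2) / y)) / y)‖ := by
  have h1 : Summable fun e : ℕ => 2 * y / (π * t) ^ 2 * (1 / (e : ℝ) ^ 3) :=
    (Real.summable_one_div_nat_pow.mpr (by norm_num)).mul_left _
  refine Summable.of_nonneg_of_le (fun _ => norm_nonneg _) (fun e => ?_) h1
  rcases Nat.eq_zero_or_pos e with rfl | he
  · simp
  · have he' : (0 : ℝ) < e := by exact_mod_cast he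
    have h2 := exp_neg_le (x := π * (t * e ^ 2) / y) (by positivity) 2
    have e2 : ((Nat.factorial 2 : ℕ) : ℝ) = 2 := by norm_num [Nat.factorial]
    rw [e2] at h2
    rw [norm_mul, norm_mul, Real.norm_eq_abs, Real.norm_of_nonneg he'.le,
      Real.norm_of_nonneg (by positivity)]
    calc |χ e| * e * (Real.exp (-(π * (t * e ^ 2) / y)) / y)
        ≤ 1 * e * (2 / (π * (t * e ^ 2) / y) ^ 2 / y) := by gcongr; exact hχ e
      _ = _ := by field_simp

theorem qq_pow_eq (m : ℕ) (x y : ℝ) : qq (x + y * I) ^ m =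
    cexp (2 * π * I * m * x) * (Real.exp (-(2 * π * m * y)) : ℝ) := by
  rw [qq, ← exp_nat_mul]
  push_cast
  rw [← exp_add]
  congr 1
  linear_combination (2 * π * m * y) * I_sq

theorem strip_sum {a b χ : ℕ → ℝ} {f g : ℂ → ℂ} {C : ℝ} (ha : ∀ m, |a m| ≤ C * m)
    (hb : ∀ m, |b m| ≤ C * (m + 1)) (hχ : ∀ e, |χ e| ≤ 1)
    (hf : ∀ z : ℂ, 0 < z.im → HasSum (fun m : ℕ => (a m : ℂ) * qq z ^ m) (f z))
    (hg : ∀ z : ℂ, 0 < z.im → HasSum (fun m : ℕ => (b m : ℂ) * qq z ^ m) (g z))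
    {t : ℝ} (ht : 0 < t) :
    IntegrableOn (fun p : ℝ × ℝ => f (p.1 + p.2 * I) * (starRingEnd ℂ) (g (p.1 + p.2 * I)) *
      Kt χ t ((p.1 : ℂ) + p.2 * I).im) (Ico 0 1 ×ˢ Ioi 0) ∧
    ∫ p in Ico (0 : ℝ) 1 ×ˢ Ioi (0 : ℝ), f (p.1 + p.2 * I) * (starRingEnd ℂ) (g (p.1 + p.2 * I)) *
      Kt χ t ((p.1 : ℂ) + p.2 * I).im =
      ((∑' p : ℕ × ℕ, χ p.1 * p.1 * a p.2 * b p.2 * KB (t * p.1 ^ 2 * p.2) : ℝ) : ℂ) := by
  have hC : 0 ≤ C := by
    have := (abs_nonneg _).trans (hb 0)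
    simpa using this
  have ha0 : a 0 = 0 := by
    have := ha 0
    simpa using this
  set c : (ℕ × ℕ) × ℕ → ℝ := fun i => a i.1.1 * b i.1.2 * (χ i.2 * i.2) with hc
  set X : (ℕ × ℕ) × ℕ → ℝ → ℂ := fun i x =>
    cexp (2 * π * I * ((i.1.1 : ℤ) - (i.1.2 : ℤ) : ℤ) * x) with hX
  set Y : (ℕ × ℕ) × ℕ → ℝ → ℝ := fun i y => c i * (Real.exp (-(2 * π * (i.1.1 + i.1.2 : ℝ) * y)) *
    (Real.exp (-(π * (t * i.2 ^ 2) / y)) / y)) with hY
  set T : (ℕ × ℕ) × ℕ → ℝ × ℝ → ℂ := fun i p => X i p.1 * (Y i p.2 : ℝ) with hT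
  have hXn : ∀ i x, ‖X i x‖ = 1 := by
    intro i x
    simp only [hX]
    rw [norm_exp]
    simp
  have hYi : ∀ i, IntegrableOn (Y i) (Ioi 0) ∧ ∫ y in Ioi (0 : ℝ), Y i y =
      c i * KB (t * i.2 ^ 2 * (i.1.1 + i.1.2) / 2) ∧ ∫ y in Ioi (0 : ℝ), |Y i y| =
      |c i| * KB (t * i.2 ^ 2 * (i.1.1 + i.1.2) / 2) := by
    rintro ⟨⟨m, m'⟩, e⟩
    by_cases h0 : c ((m, m'), e) = 0
    · simp only [hY, h0, zero_mul, abs_zero, integral_zero, and_self, and_true]
      exact integrableOn_zero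
    · have hm : 0 < m := by
        rcases Nat.eq_zero_or_pos m with rfl | h
        · exact absurd (by simp [hc, ha0]) h0
        · exact h
      have he : 0 < e := by
        rcases Nat.eq_zero_or_pos e with rfl | h
        · exact absurd (by simp [hc]) h0
        · exact h
      have hm' : (0 : ℝ) < m + m' := by positivity
      have he' : (0 : ℝ) < t * e ^ 2 := by positivity
      obtain ⟨h1, h2⟩ := KB_scale hm' he'
      refine ⟨h1.const_mul _, ?_, ?_⟩
      · simp only [hY]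
        rw [integral_const_mul, h2]
      · rw [← h2, ← integral_const_mul]
        refine setIntegral_congr_fun measurableSet_Ioi fun y hy => ?_
        have hy' : 0 < y := hy
        simp only [hY]
        rw [abs_mul (c _)]
        congr 1
        exact abs_of_nonneg (by positivity)
  have hXi : ∀ i, IntegrableOn (X i) (Ico 0 1) := by
    intro i
    refine Measure.integrableOn_of_bounded (M := 1) (by simp) ?_
      (Filter.Eventually.of_forall fun x => (hXn i x).le)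
    exact Continuous.aestronglyMeasurable (by simp only [hX]; fun_prop)
  have hTi : ∀ i, Integrable (T i) (volume.restrict (Ico (0 : ℝ) 1 ×ˢ Ioi (0 : ℝ))) := by
    intro i
    rw [Measure.volume_eq_prod, ← Measure.prod_restrict]
    exact Integrable.mul_prod (hXi i) (hYi i).1.ofReal
  have hTn : ∀ i, ∫ p in Ico (0 : ℝ) 1 ×ˢ Ioi (0 : ℝ), ‖T i p‖ =
      |c i| * KB (t * i.2 ^ 2 * (i.1.1 + i.1.2) / 2) := by
    intro i
    have : ∀ p : ℝ × ℝ, ‖T i p‖ = (fun _ : ℝ => (1 : ℝ)) p.1 * (fun y => |Y i y|) p.2 := by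
      intro p
      simp only [hT]
      rw [norm_mul, hXn, norm_real, Real.norm_eq_abs]
    simp only [this]
    rw [Measure.volume_eq_prod,
      setIntegral_prod_mul (fun _ : ℝ => (1 : ℝ)) (fun y => |Y i y|), (hYi i).2.2]
    simp
  have hTv : ∀ i, ∫ p in Ico (0 : ℝ) 1 ×ˢ Ioi (0 : ℝ), T i p = if i.1.1 = i.1.2 then
      ((c i * KB (t * i.2 ^ 2 * (i.1.1 + i.1.2) / 2) : ℝ) : ℂ) else 0 := by
    intro i
    simp only [hT]
    rw [Measure.volume_eq_prod, setIntegral_prod_mul (X i) (fun y => ((Y i y : ℝ) : ℂ)),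
      integral_complex_ofReal, (hYi i).2.1, integral_Ico_eq_integral_Ioc,
      ← intervalIntegral.integral_of_le zero_le_one]
    simp only [hX]
    rw [Vale.Agent.P004H.H792.int_exp]
    by_cases h : i.1.1 = i.1.2
    · rw [if_pos h, if_pos (by rw [h, sub_self]), one_mul]
    · rw [if_neg h, if_neg (by omega), zero_mul]
  have hsum : Summable fun i : (ℕ × ℕ) × ℕ =>
      |c i| * KB (t * i.2 ^ 2 * (i.1.1 + i.1.2) / 2) := by
    obtain ⟨D, hD, hKB⟩ := KB_le
    have s1 : Summable fun m : ℕ => 1 / (m : ℝ) ^ 2 :=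
      Real.summable_one_div_nat_pow.mpr (by norm_num)
    have s2 : Summable fun m : ℕ => 1 / ((m : ℝ) + 1) ^ 2 := by
      have := (summable_nat_add_iff 1).mpr s1
      simpa using this
    have s3 := (s1.mul_of_nonneg s2 (fun _ => by positivity) (fun _ => by positivity)).mul_of_nonneg
      s1 (fun _ => by positivity) (fun _ => by positivity)
    refine Summable.of_nonneg_of_le (fun i => mul_nonneg (abs_nonneg _) (KB_nonneg _))
      (fun i => ?_) (s3.mul_left (C * C * D * 2 ^ 6 / t ^ 6))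
    obtain ⟨⟨m, m'⟩, e⟩ := i
    by_cases h0 : c ((m, m'), e) = 0
    · rw [h0, abs_zero, zero_mul]; positivity
    · have hm : 1 ≤ m := by
        rcases Nat.eq_zero_or_pos m with rfl | h
        · exact absurd (by simp [hc, ha0]) h0
        · exact h
      have he : 1 ≤ e := by
        rcases Nat.eq_zero_or_pos e with rfl | h
        · exact absurd (by simp [hc]) h0
        · exact h
      have hm1 : (1 : ℝ) ≤ m := by exact_mod_cast hm
      have he1 : (1 : ℝ) ≤ e := by exact_mod_cast he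
      have hm'0 : (0 : ℝ) ≤ m' := by positivity
      have h1 : |c ((m, m'), e)| ≤ C * m * (C * (m' + 1)) * e := by
        simp only [hc]
        rw [abs_mul, abs_mul, abs_mul, Nat.abs_cast]
        calc |a m| * |b m'| * (|χ e| * e) ≤ C * m * (C * (m' + 1)) * (1 * e) := by
              gcongr
              · exact ha m
              · exact hb m'
              · exact hχ e
          _ = _ := by ring
      have h2 := hKB (t * e ^ 2 * (m + m') / 2) (by positivity)
      have h3 : (m : ℝ) ^ 3 * (m' + 1) ^ 3 * e ^ 3 ≤ (e ^ 2 * (m + m')) ^ 6 := by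
        have k1 : (m : ℝ) ^ 3 ≤ (m + m') ^ 3 := by gcongr; linarith
        have k2 : ((m' : ℝ) + 1) ^ 3 ≤ (m + m') ^ 3 :=
          pow_le_pow_left₀ (by positivity) (by linarith) 3
        have k3 : (e : ℝ) ^ 3 ≤ e ^ 12 := pow_le_pow_right₀ he1 (by norm_num)
        calc (m : ℝ) ^ 3 * (m' + 1) ^ 3 * e ^ 3 ≤ (m + m') ^ 3 * (m + m') ^ 3 * e ^ 12 := by gcongr
          _ = _ := by ring
      simp only
      calc |c ((m, m'), e)| * KB (t * e ^ 2 * (m + m') / 2)
          ≤ C * m * (C * (m' + 1)) * e * (D / (t * e ^ 2 * (m + m') / 2) ^ 6) := by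
            gcongr
            exact KB_nonneg _
        _ = C * C * D * 2 ^ 6 / t ^ 6 * (m * (m' + 1) * e / (e ^ 2 * (m + m')) ^ 6) := by
            field_simp
        _ ≤ C * C * D * 2 ^ 6 / t ^ 6 * (m * (m' + 1) * e / (m ^ 3 * (m' + 1) ^ 3 * e ^ 3)) := by
            gcongr
        _ = _ := by field_simp
  have hsum' : Summable fun i => ∫ p in Ico (0 : ℝ) 1 ×ˢ Ioi (0 : ℝ), ‖T i p‖ := by
    simp only [hTn]; exact hsum
  have hpt : ∀ p ∈ Ico (0 : ℝ) 1 ×ˢ Ioi (0 : ℝ), ∑' i, T i p =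
      f (p.1 + p.2 * I) * (starRingEnd ℂ) (g (p.1 + p.2 * I)) *
        Kt χ t ((p.1 : ℂ) + p.2 * I).im := by
    rintro ⟨x, y⟩ ⟨-, hy⟩
    have hy' : 0 < y := hy
    have him : ((x : ℂ) + y * I).im = y := by simp
    have hz : 0 < ((x : ℂ) + y * I).im := by rw [him]; exact hy'
    have h1 := hf _ hz
    have h2 := (hg _ hz).star
    have h3 := summ_Kt hχ ht hy'
    simp only [him]
    rw [← h1.tsum_eq, show (starRingEnd ℂ) (g (x + y * I)) = star (g (x + y * I)) from rfl,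
      ← h2.tsum_eq, Kt, ofReal_tsum, tsum_mul_tsum_of_summable_norm h1.summable.norm
        h2.summable.norm, tsum_mul_tsum_of_summable_norm
        (h1.summable.norm.mul_norm h2.summable.norm) (by simpa only [norm_real] using h3)]
    refine tsum_congr fun i => ?_
    simp only [hT, hX, hY, hc, qq_pow_eq, star_mul', star_def, conj_ofReal]
    rw [← exp_conj]
    simp only [map_mul, conj_ofReal, conj_I, map_natCast, map_ofNat]
    rw [show -(2 * π * ((i.1.1 : ℝ) + i.1.2) * y) = -(2 * π * i.1.1 * y) + -(2 * π * i.1.2 * y) by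
      ring, Real.exp_add, show 2 * (π : ℂ) * I * (((i.1.1 : ℤ) - (i.1.2 : ℤ) : ℤ) : ℂ) * x =
      2 * π * I * i.1.1 * x + 2 * π * -I * i.1.2 * x by push_cast; ring, exp_add]
    push_cast
    ring
  have hms : MeasurableSet (Ico (0 : ℝ) 1 ×ˢ Ioi (0 : ℝ)) :=
    measurableSet_Ico.prod measurableSet_Ioi
  refine ⟨IntegrableOn.congr_fun (integrable_tsum' hTi hsum') hpt hms, ?_⟩
  rw [← setIntegral_congr_fun hms hpt]
  have h4 := hasSum_integral_of_summable_integral_norm hTi hsum'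
  simp only [hTv] at h4
  rw [← h4.tsum_eq, ofReal_tsum]
  have hinj : Function.Injective fun p : ℕ × ℕ => (((p.2, p.2), p.1) : (ℕ × ℕ) × ℕ) := by
    intro p q h
    simp only [Prod.mk.injEq] at h
    exact Prod.ext h.2 h.1.1
  rw [← hinj.tsum_eq]
  · refine tsum_congr fun p => ?_
    simp only [if_true, hc]
    congr 1
    rw [show t * (p.1 : ℝ) ^ 2 * (p.2 + p.2) / 2 = t * p.1 ^ 2 * p.2 by ring]
    ring
  · rintro ⟨⟨m, m'⟩, e⟩ hi
    rw [Function.mem_support] at hi
    by_cases h : m = m'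
    · exact ⟨(e, m), by simp [h]⟩
    · exact absurd (if_neg h) hi

end Vale.Agent.P014A
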