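import Vale.Agent.P014A.Mod
import Vale.Agent.P014A.Strip
import Vale.Agent.P004.H26.R.FE

/-!
# P014 (A): pointwise identities for the Rankin-Selberg integrand
-/

open UpperHalfPlane hiding I
open NumberField Complex CongruenceSubgroup MeasureTheory Set Filter
open scoped Classical Real MatrixGroups Topology Modular

namespace Vale.Agent.P014A

open Vale.Agent.P017.H185 Vale.Agent.P014B Vale.Agent.P014.H687
open Vale.Agent.P014.H70 (r3 Th3)
open Vale.Agent.P004H.H204 (qq)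
open P004N.T3 (rv rvE rv_mul rv_one)
open Vale.Agent.P004.H26.H86 (CP gp gp0 gp1 NV Phi Phi_bij)

/-! ### cosets -/

theorem cos17_row (δ : SL(2, ℤ)) (j : Fin 17) :
    ((δ * (cos17 (some j))⁻¹ : SL(2, ℤ)) 1 0 : ℤ) = δ 1 0 * (j : ℕ) - δ 1 1 := by
  have h : ∀ k : ℤ, ((δ * (ModularGroup.S * ModularGroup.T ^ k)⁻¹ : SL(2, ℤ)) 1 0 : ℤ) =
      δ 1 0 * k - δ 1 1 := by
    intro k
    simp [Matrix.mul_apply, Fin.sum_univ_two, ModularGroup.coe_T_zpow, ModularGroup.coe_S,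
      Matrix.adjugate_fin_two]
    ring
  exact h _

theorem exists_coset (δ : SL(2, ℤ)) : ∃! i, δ * (cos17 i)⁻¹ ∈ Gamma0 17 := by
  have : Fact (Nat.Prime 17) := ⟨by norm_num⟩
  have hdet := congrArg (fun k : ℤ => (k : ZMod 17)) (det_eq δ)
  push_cast at hdet
  have h1 : δ * (cos17 none)⁻¹ ∈ Gamma0 17 ↔ ((δ 1 0 : ℤ) : ZMod 17) = 0 := by
    rw [Gamma0_mem]; simp [cos17]
  have h2 : ∀ j : Fin 17, δ * (cos17 (some j))⁻¹ ∈ Gamma0 17 ↔
      ((δ 1 0 : ℤ) : ZMod 17) * ((j : ℕ) : ZMod 17) = ((δ 1 1 : ℤ) : ZMod 17) := by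
    intro j
    rw [Gamma0_mem, cos17_row]
    push_cast
    exact sub_eq_zero
  by_cases h : ((δ 1 0 : ℤ) : ZMod 17) = 0
  · refine ⟨none, h1.mpr h, ?_⟩
    rintro (_ | j) hj
    · rfl
    · exfalso
      have := (h2 j).mp hj
      rw [h, zero_mul] at this
      rw [h, ← this] at hdet
      simp at hdet
  · set x : ZMod 17 := ((δ 1 1 : ℤ) : ZMod 17) / ((δ 1 0 : ℤ) : ZMod 17) with hx
    refine ⟨some ⟨x.val, ZMod.val_lt x⟩, (h2 _).mpr ?_, ?_⟩
    · simp only [ZMod.natCast_val, ZMod.cast_id', id_eq, hx]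
      field_simp
    · rintro (_ | j) hj
      · exact absurd (h1.mp hj) h
      · have h3 := (h2 j).mp hj
        have h4 : x = ((j : ℕ) : ZMod 17) := by
          rw [hx, ← h3]; field_simp
        congr 1
        apply Fin.ext
        show (j : ℕ) = x.val
        rw [h4, ZMod.val_natCast, Nat.mod_eq_of_lt j.2]

theorem G0_le {n : ℕ} {g : SL(2, ℤ)} (h : g ∈ Gamma0 (17 * n)) : g ∈ Gamma0 17 ∧ g ∈ Gamma0 n := by
  rw [mem_G0] at h
  push_cast at h
  exact ⟨mem_G0.mpr (Dvd.dvd.trans (Dvd.intro _ rfl) h),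
    mem_G0.mpr (Dvd.dvd.trans (Dvd.intro_left _ rfl) h)⟩

theorem count_all {n c : ℕ} {κ : Type*} {s : Finset κ} {γ : κ → SL(2, ℤ)}
    (h1 : ∀ w ∈ s, γ w ∈ Gamma0 17)
    (h2 : ∀ δ ∈ Gamma0 17, (s.filter fun w => δ * (γ w)⁻¹ ∈ Gamma0 (17 * n)).card = c)
    (δ : SL(2, ℤ)) : ((Finset.univ ×ˢ s).filter fun k : Option (Fin 17) × κ =>
      ((17 * n : ℕ) : ℤ) ∣ (δ * (γ k.2 * cos17 k.1)⁻¹ : SL(2, ℤ)) 1 0).card = c := by
  obtain ⟨i, hi, hu⟩ := exists_coset δ
  rw [← h2 _ hi, Finset.card_filter, Finset.card_filter, Finset.sum_product,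
    Finset.sum_eq_single i]
  · refine Finset.sum_congr rfl fun w _ => ?_
    simp only [← mem_G0, mul_inv_rev, mul_assoc]
  · intro j _ hj
    refine Finset.sum_eq_zero fun w hw => if_neg fun h => hj (hu j ?_)
    rw [← mem_G0, mul_inv_rev, ← mul_assoc] at h
    have := (Gamma0 17).mul_mem (G0_le h).1 (h1 w hw)
    rwa [inv_mul_cancel_right] at this
  · intro h; exact absurd (Finset.mem_univ _) h

/-! ### the function on the rows -/

/-- the function on the rows of level `17 n` -/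
noncomputable def phi0 (n : ℕ) (w : ℤ × ℤ) : ℂ :=
  if ((17 * n : ℕ) : ℤ) ∣ w.1 ∧ ¬ (17 : ℤ) ∣ w.2 then (jacobiSym w.2 n : ℂ) else 0

/-- the character modulo `17 n` -/
noncomputable def chi0 (n : ℕ) (e : ℕ) : ℝ := if 17 ∣ e then 0 else jacobiSym e n

theorem norm_J (a : ℤ) (n : ℕ) : ‖(jacobiSym a n : ℂ)‖ ≤ 1 := by
  rcases jacobiSym.trichotomy a n with h | h | h <;> rw [h] <;> simp

theorem abs_chi0 (n e : ℕ) : |chi0 n e| ≤ 1 := by
  unfold chi0
  split_ifs
  · simp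
  · rcases jacobiSym.trichotomy e n with h | h | h <;> rw [h] <;> simp

theorem perB_phi1 (n : ℕ) : PerB n (phi1 n) := by
  constructor
  · intro w
    unfold phi1
    split_ifs
    · exact norm_J _ _
    · simp
  · intro w u
    unfold phi1
    simp only [dvd_add_left (Dvd.intro u.1 rfl : (n : ℤ) ∣ n * u.1)]
    rw [J_congr (b := w.2) ⟨u.2, by ring⟩]

theorem perB_phi0 (n : ℕ) : PerB (17 * n) (phi0 n) := by
  constructor
  · intro w
    unfold phi0
    split_ifs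
    · exact norm_J _ _
    · simp
  · intro w u
    unfold phi0
    have h : (17 : ℤ) ∣ ((17 * n : ℕ) : ℤ) * u.2 := ⟨n * u.2, by push_cast; ring⟩
    simp only [dvd_add_left (Dvd.intro u.1 rfl : ((17 * n : ℕ) : ℤ) ∣ (17 * n : ℕ) * u.1),
      dvd_add_left h]
    rw [J_congr (b := w.2) ⟨17 * u.2, by push_cast; ring⟩]

theorem PerB.rv {N : ℕ} {φ : ℤ × ℤ → ℂ} (h : PerB N φ) (g : SL(2, ℤ)) :
    PerB N fun w => φ (rv w g) := by
  refine ⟨fun w => h.1 _, fun w u => ?_⟩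
  beta_reduce
  rw [← h.2 (P004N.T3.rv w g) (P004N.T3.rv u g)]
  congr 1
  simp only [P004N.T3.rv]
  refine Prod.ext ?_ ?_ <;> simp only <;> ring

theorem phi0_mul {n : ℕ} (h17 : ¬ 17 ∣ n) (e : ℕ) (p : CP) :
    phi0 n (e * p.1.1, e * p.1.2) =
      if ((17 * n : ℕ) : ℤ) ∣ p.1.1 then (jacobiSym p.1.2 n : ℂ) * chi0 n e else 0 := by
  have hp : Prime (17 : ℤ) := Int.prime_iff_natAbs_prime.mpr (by norm_num)
  unfold phi0 chi0
  simp only
  by_cases he : 17 ∣ e
  · rw [if_neg, if_pos he]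
    · simp
    · rintro ⟨-, h⟩
      exact h (Dvd.dvd.mul_right (by exact_mod_cast he) _)
  · rw [if_neg he]
    have he' : ¬ (17 : ℤ) ∣ e := by exact_mod_cast he
    by_cases hc : ((17 * n : ℕ) : ℤ) ∣ p.1.1
    · rw [if_pos hc, if_pos, jacobiSym.mul_left]
      · push_cast; ring
      · refine ⟨Dvd.dvd.mul_left hc _, fun h => ?_⟩
        have h1 := (hp.dvd_or_dvd h).resolve_left he'
        have h2 : (17 : ℤ) ∣ p.1.1 := Dvd.dvd.trans ⟨n, by push_cast; ring⟩ hc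
        exact hp.not_isUnit (p.2.isUnit_of_dvd' h2 h1)
    · rw [if_neg hc]
      split_ifs with h
      · rw [jacobiSym.mul_left]
        by_cases hJ : jacobiSym e n = 0
        · rw [hJ]; simp
        · exfalso
          apply hc
          have hcop : IsCoprime (e : ℤ) n := by
            rw [Int.isCoprime_iff_gcd_eq_one]
            by_contra h'
            rcases Nat.eq_zero_or_pos n with rfl | hn
            · exact h17 (dvd_zero _)
            · have : NeZero n := ⟨hn.ne'⟩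
              exact hJ (jacobiSym.eq_zero_iff_not_coprime.mpr h')
          have hcop2 : IsCoprime (((17 * n : ℕ) : ℤ)) e := by
            push_cast
            exact IsCoprime.mul_left ((hp.irreducible.coprime_iff_not_dvd).mpr he') hcop.symm
          exact hcop2.dvd_of_dvd_mul_left h.1
      · rfl

theorem kk_vert (t : ℝ) (e : ℕ) (w : ℂ) : kk t (0, (e : ℤ)) w =
    ((e * (Real.exp (-(π * (t * e ^ 2) / w.im)) / w.im) : ℝ) : ℂ) := by
  unfold kk
  simp only [Int.cast_zero, zero_mul, zero_add, Int.cast_natCast, map_natCast, normSq_natCast]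
  rw [show π * t * ((e : ℝ) * e) = π * (t * e ^ 2) by ring]
  push_cast
  ring

theorem PsiK_rows {n : ℕ} (h17 : ¬ 17 ∣ n) {t : ℝ} (ht : 0 < t) (z : ℍ)
    (hs : Summable fun w : ℤ × ℤ => ‖kk t w z‖) :
    PsiK (phi0 n) t z = ∑' p : CP, if ((17 * n : ℕ) : ℤ) ∣ p.1.1 then
      (jacobiSym p.1.2 n : ℂ) * Kt (chi0 n) t (gp p • z).im / denom (gp p) z else 0 := by
  have hs' : Summable fun w : ℤ × ℤ => phi0 n w * kk t w z := by
    refine Summable.of_norm_bounded hs fun w => ?_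
    rw [norm_mul]
    exact mul_le_of_le_one_left (norm_nonneg _) ((perB_phi0 n).1 w)
  set j : CP × ℕ → ℤ × ℤ := fun x => (Phi (x.2, x.1)).1 with hj
  have hinj : Function.Injective j := by
    intro x y h
    have := Phi_bij.1 (Subtype.ext h)
    rw [Prod.mk.injEq] at this
    exact Prod.ext this.2 this.1
  unfold PsiK
  have hs2 : Summable fun x : CP × ℕ => phi0 n (j x) * kk t (j x) z := hs'.comp_injective hinj
  rw [← hinj.tsum_eq, hs2.tsum_prod]
  · refine tsum_congr fun p => ?_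
    have hd : denom (gp p) z ≠ 0 := denom_ne_zero _ _
    have e1 : ∀ e : ℕ, phi0 n (j (p, e)) * kk t (j (p, e)) z =
        (if ((17 * n : ℕ) : ℤ) ∣ p.1.1 then (jacobiSym p.1.2 n : ℂ) / denom (gp p) z else 0) *
          ((chi0 n (e + 1) * (e + 1 : ℕ) * (Real.exp (-(π * (t * (e + 1 : ℕ) ^ 2) /
            (gp p • z).im)) / (gp p • z).im) : ℝ) : ℂ) := by
      intro e
      have a1 : j (p, e) = (((e + 1 : ℕ) : ℤ) * p.1.1, ((e + 1 : ℕ) : ℤ) * p.1.2) := by
        simp only [hj, Phi]; push_cast; rfl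
      have a2 : rv (0, ((e + 1 : ℕ) : ℤ)) (gp p) =
          (((e + 1 : ℕ) : ℤ) * p.1.1, ((e + 1 : ℕ) : ℤ) * p.1.2) := by
        simp only [rv, zero_mul, zero_add, gp0, gp1]
      have a3 := kk_smul t (0, ((e + 1 : ℕ) : ℤ)) (gp p) z
      rw [a2, kk_vert, UpperHalfPlane.coe_im] at a3
      rw [a1, phi0_mul h17]
      split_ifs
      · rw [mul_assoc (chi0 n (e + 1)), ofReal_mul (chi0 n (e + 1)), a3]
        field_simp
      · simp
    simp only [e1]
    rw [tsum_mul_left, ← ofReal_tsum]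
    have e2 := (summ_Kt (abs_chi0 n) ht (gp p • z).im_pos).of_norm.tsum_eq_zero_add
    simp only [Nat.cast_zero, mul_zero, zero_mul, zero_add] at e2
    rw [← e2]
    unfold Kt
    split_ifs
    · ring
    · simp
  · intro w hw
    rw [Function.mem_support] at hw
    have hw0 : w ≠ 0 := by
      rintro rfl
      exact hw (by simp [kk])
    obtain ⟨x, hx⟩ := Phi_bij.2 ⟨w, hw0⟩
    exact ⟨(x.2, x.1), by simp only [hj]; rw [hx]⟩

theorem kk_17a (t : ℝ) (w : ℤ × ℤ) {z : ℂ} (hz : 0 < z.im) :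
    kk t (17 * w.1, w.2) z = 17 * kk (17 * t) w (17 * z) := by
  have hy : (z.im : ℂ) ≠ 0 := by exact_mod_cast hz.ne'
  have e1 : ((17 : ℂ) * z).im = 17 * z.im := by simp
  have e2 : (((17 * w.1 : ℤ) : ℂ)) * z + w.2 = w.1 * (17 * z) + w.2 := by push_cast; ring
  unfold kk
  simp only
  rw [e1, e2, show π * (17 * t) * normSq ((w.1 : ℂ) * (17 * z) + w.2) / (17 * z.im) =
    π * t * normSq ((w.1 : ℂ) * (17 * z) + w.2) / z.im by field_simp]
  push_cast
  field_simp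

theorem kk_17b (t : ℝ) (w : ℤ × ℤ) (z : ℂ) :
    kk t (17 * w.1, 17 * w.2) z = 17 * kk (289 * t) w z := by
  have e2 : (((17 * w.1 : ℤ) : ℂ)) * z + ((17 * w.2 : ℤ) : ℂ) = (17 : ℝ) * (w.1 * z + w.2) := by
    push_cast; ring
  unfold kk
  simp only
  rw [e2, map_mul, map_mul, conj_ofReal, normSq_ofReal,
    show π * t * (17 * 17 * normSq ((w.1 : ℂ) * z + w.2)) =
      π * (289 * t) * normSq ((w.1 : ℂ) * z + w.2) by ring]
  push_cast
  ring

theorem PsiK_split {n : ℕ} (hJ : jacobiSym 17 n = -1) {t : ℝ} {z : ℂ} (hz : 0 < z.im)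
    (hs : Summable fun w : ℤ × ℤ => ‖kk t w z‖) :
    PsiK (phi0 n) t z = 17 * PsiK (phi1 n) (17 * t) (17 * z) + 17 * PsiK (phi1 n) (289 * t) z := by
  set φa : ℤ × ℤ → ℂ := fun w => if ((17 * n : ℕ) : ℤ) ∣ w.1 then (jacobiSym w.2 n : ℂ) else 0
    with hφa
  set φb : ℤ × ℤ → ℂ := fun w =>
    if ((17 * n : ℕ) : ℤ) ∣ w.1 ∧ (17 : ℤ) ∣ w.2 then -(jacobiSym w.2 n : ℂ) else 0 with hφb
  have sa : Summable fun w : ℤ × ℤ => φa w * kk t w z := by
    refine Summable.of_norm_bounded hs fun w => ?_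
    rw [norm_mul]
    refine mul_le_of_le_one_left (norm_nonneg _) ?_
    simp only [hφa]
    split_ifs
    · exact norm_J _ _
    · simp
  have sb : Summable fun w : ℤ × ℤ => φb w * kk t w z := by
    refine Summable.of_norm_bounded hs fun w => ?_
    rw [norm_mul]
    refine mul_le_of_le_one_left (norm_nonneg _) ?_
    simp only [hφb]
    split_ifs
    · rw [norm_neg]; exact norm_J _ _
    · simp
  have hdv : ∀ c : ℤ, ((17 * n : ℕ) : ℤ) ∣ 17 * c ↔ (n : ℤ) ∣ c := fun c => by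
    push_cast
    exact mul_dvd_mul_iff_left (by norm_num)
  have h17 : ∀ c : ℤ, ((17 * n : ℕ) : ℤ) ∣ c → (17 : ℤ) ∣ c := fun c h =>
    Dvd.dvd.trans ⟨n, by push_cast; ring⟩ h
  have ea : ∑' w : ℤ × ℤ, φa w * kk t w z = 17 * PsiK (phi1 n) (17 * t) (17 * z) := by
    have hinj : Function.Injective fun w : ℤ × ℤ => ((17 * w.1, w.2) : ℤ × ℤ) := by
      intro x y h
      rw [Prod.mk.injEq] at h
      exact Prod.ext (by omega) h.2
    unfold PsiK
    rw [← hinj.tsum_eq, ← tsum_mul_left]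
    · refine tsum_congr fun w => ?_
      rw [kk_17a t w hz]
      simp only [hφa, hdv, phi1]
      ring
    · intro w hw
      rw [Function.mem_support] at hw
      by_cases h : ((17 * n : ℕ) : ℤ) ∣ w.1
      · obtain ⟨c, hc⟩ := h17 _ h
        exact ⟨(c, w.2), Prod.ext hc.symm rfl⟩
      · exact absurd (by simp only [hφa, if_neg h, zero_mul]) hw
  have eb : ∑' w : ℤ × ℤ, φb w * kk t w z = 17 * PsiK (phi1 n) (289 * t) z := by
    have hinj : Function.Injective fun w : ℤ × ℤ => ((17 * w.1, 17 * w.2) : ℤ × ℤ) := by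
      intro x y h
      rw [Prod.mk.injEq] at h
      exact Prod.ext (by omega) (by omega)
    unfold PsiK
    rw [← hinj.tsum_eq, ← tsum_mul_left]
    · refine tsum_congr fun w => ?_
      rw [kk_17b t w z]
      simp only [hφb, hdv, phi1, dvd_mul_right, and_true, jacobiSym.mul_left, hJ]
      split_ifs
      · push_cast; ring
      · simp
    · intro w hw
      rw [Function.mem_support] at hw
      by_cases h : ((17 * n : ℕ) : ℤ) ∣ w.1 ∧ (17 : ℤ) ∣ w.2
      · obtain ⟨c, hc⟩ := h17 _ h.1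
        obtain ⟨d, hd⟩ := h.2
        exact ⟨(c, d), Prod.ext hc.symm hd.symm⟩
      · exact absurd (by simp only [hφb, if_neg h, zero_mul]) hw
  rw [← ea, ← eb, ← sa.tsum_add sb]
  refine tsum_congr fun w => ?_
  rw [← add_mul]
  congr 1
  simp only [phi0, hφa, hφb]
  by_cases h1 : ((17 * n : ℕ) : ℤ) ∣ w.1 <;> by_cases h2 : (17 : ℤ) ∣ w.2 <;>
    simp only [h1, h2, not_true, not_false_eq_true, and_self, and_true, and_false, if_true,
      if_false] <;> ring

theorem int_phi0 (hK : KerStmt) {n : ℕ} (hn : 0 < n) (hJ : jacobiSym 17 n = -1) {z : ℂ}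
    (hz : 0 < z.im) : ∫ t in Ioi (0 : ℝ), PsiK (phi0 n) t z = I0 n (17 * z) + I0 n z / 17 := by
  have hz' : 0 < ((17 : ℂ) * z).im := by simpa using hz
  have i1 := (hK.2.2.1 n _ hn (perB_phi1 n)).1 _ hz'
  have i2 := (hK.2.2.1 n _ hn (perB_phi1 n)).1 _ hz
  have j1 : IntegrableOn (fun t => PsiK (phi1 n) (17 * t) (17 * z)) (Ioi 0) :=
    (integrableOn_Ioi_comp_mul_left_iff (fun t => PsiK (phi1 n) t (17 * z)) 0
      (by norm_num : (0 : ℝ) < 17)).mpr (by rwa [mul_zero])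
  have j2 : IntegrableOn (fun t => PsiK (phi1 n) (289 * t) z) (Ioi 0) :=
    (integrableOn_Ioi_comp_mul_left_iff (fun t => PsiK (phi1 n) t z) 0
      (by norm_num : (0 : ℝ) < 289)).mpr (by rwa [mul_zero])
  rw [setIntegral_congr_fun measurableSet_Ioi fun t ht => PsiK_split hJ hz (hK.1 t ht z hz),
    integral_add (j1.const_mul _) (j2.const_mul _), integral_const_mul, integral_const_mul,
    integral_comp_mul_left_Ioi (fun t => PsiK (phi1 n) t (17 * z)) 0 (by norm_num : (0 : ℝ) < 17),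
    integral_comp_mul_left_Ioi (fun t => PsiK (phi1 n) t z) 0 (by norm_num : (0 : ℝ) < 289),
    mul_zero, mul_zero]
  unfold I0
  simp only [real_smul]
  push_cast
  ring

/-! ### the cusp form -/

theorem f_mob {g : SL(2, ℤ)} (hg : g ∈ Gamma0 17) (z : ℍ) :
    Fc Th3 (g • z : ℍ) = denom g z ^ 2 * Fc Th3 z := by
  rw [mul_comm]
  exact Vale.Agent.P004.H26.H792.F_mob g hg z

theorem f_cont : Continuous fun z : ℍ => Fc Th3 z := Vale.Agent.P004.H26.H792.F_cont

theorem f_dec : ∃ C : ℝ, 0 ≤ C ∧ ∀ (g : SL(2, ℤ)) (z : ℍ), 1 / 2 ≤ z.im →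
    ‖Fc Th3 (g • z : ℍ)‖ * (g • z).im * z.im ≤ C := by
  obtain ⟨C, c, hc, hC, h⟩ := Vale.Agent.P004.H26.H833.H_dec
  refine ⟨√(C * (2 / c ^ 2)), Real.sqrt_nonneg _, fun g z hz => ?_⟩
  apply Real.le_sqrt_of_sq_le
  have hy := z.im_pos
  have h1 : Vale.Agent.P004.H26.H833.G (g • z) ≤ Vale.Agent.P004.H26.H833.H (g • z) :=
    le_add_of_nonneg_right (Finset.sum_nonneg fun _ _ => Vale.Agent.P004.H26.H833.G_nonneg _)
  rw [Vale.Agent.P004.H26.H833.H_inv] at h1
  have h2 := h1.trans (h z hz)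
  have h3 := exp_neg_le (x := c * z.im) (by positivity) 2
  have e2 : ((Nat.factorial 2 : ℕ) : ℝ) = 2 := by norm_num [Nat.factorial]
  rw [e2] at h3
  calc (‖Fc Th3 (g • z : ℍ)‖ * (g • z).im * z.im) ^ 2
      = Vale.Agent.P004.H26.H833.G (g • z) * z.im ^ 2 := by
        unfold Vale.Agent.P004.H26.H833.G
        rw [mul_pow, mul_pow]
        rfl
    _ ≤ C * (2 / (c * z.im) ^ 2) * z.im ^ 2 := by
        gcongr
        exact h2.trans (by gcongr)
    _ = _ := by field_simp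

theorem an_le : ∃ C : ℝ, ∀ m : ℕ, |(an r3 m : ℝ)| ≤ C * m := by
  obtain ⟨C, hC, h⟩ := Vale.Agent.P004.H26.H792.sq_sum
  refine ⟨√C, fun m => ?_⟩
  rcases Nat.eq_zero_or_pos m with rfl | hm
  · have : an r3 0 = 0 := Vale.Agent.P004.H26.H792.a_zero
    simp [this]
  · have h1 := h m (by exact_mod_cast hm)
    rw [Nat.floor_natCast] at h1
    have h2 : (an r3 m : ℝ) ^ 2 ≤ C * m ^ 2 := by
      refine le_trans ?_ h1
      exact Finset.single_le_sum (f := fun k : ℕ => (Vale.Agent.P004.H26.H792.a k : ℝ) ^ 2)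
        (fun _ _ => sq_nonneg _) (Finset.mem_Icc.mpr ⟨hm, le_rfl⟩)
    have h3 := Real.abs_le_sqrt h2
    rwa [Real.sqrt_mul' _ (sq_nonneg _), Real.sqrt_sq (Nat.cast_nonneg _)] at h3

theorem conv_le (n₁ n₂ m : ℕ) : |(conv n₁ n₂ m : ℝ)| ≤ m := by
  unfold conv
  push_cast
  refine (Finset.abs_sum_le_sum_abs _ _).trans ?_
  have h1 : ∀ p ∈ m.divisorsAntidiagonal,
      |(jacobiSym p.1 n₁ : ℝ) * (jacobiSym p.2 n₂ : ℝ)| ≤ 1 := by
    intro p _
    rcases jacobiSym.trichotomy p.1 n₁ with h | h | h <;>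
      rcases jacobiSym.trichotomy p.2 n₂ with h' | h' | h' <;> rw [h, h'] <;> simp
  refine (Finset.sum_le_card_nsmul _ _ _ h1).trans ?_
  rw [nsmul_eq_mul, mul_one, ← Nat.map_div_right_divisors, Finset.card_map]
  exact_mod_cast Nat.card_divisors_le_self m

/-- the product with a form of weight two -/
theorem pet_mob {g : SL(2, ℤ)} (hg : g ∈ Gamma0 17) (z : ℍ) (Y : ℂ) :
    Fc Th3 (g • z : ℍ) * (starRingEnd ℂ) (denom g z ^ 2 * Y) * (((g • z).im : ℝ) : ℂ) ^ 2 =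
      Fc Th3 z * (starRingEnd ℂ) Y * ((z.im : ℝ) : ℂ) ^ 2 := by
  have hd : denom g z ≠ 0 := denom_ne_zero _ _
  have hd2 : (starRingEnd ℂ) (denom g z) ≠ 0 := by rwa [Ne, map_eq_zero]
  rw [f_mob hg, ModularGroup.im_smul_eq_div_normSq, map_mul, map_pow]
  push_cast
  rw [← mul_conj]
  field_simp

end Vale.Agent.P014A
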