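import Vale.Agent.P014A.Loc
import Vale.Agent.P014.H70.Mf

/-!
# P014 (A): theta series of a lattice whose discriminant group is a sum of planes over prime fields
-/

open UpperHalfPlane hiding I
open Complex Real MatrixGroups ModularForm
open scoped Classical

namespace Vale.Agent.P014A

open Vale.Agent.P014.H70
open Vale.Agent.P014.H70.Lat (ind norm_ind_le summ im_neg)

/-- a lattice with its dual, in diagonal coordinates -/
structure Lb where
  M : ℕ
  hM : 0 < M
  l : V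
  hl : (0 < l.1.1 ∧ 0 < l.1.2) ∧ (0 < l.2.1 ∧ 0 < l.2.2)
  D : AddSubgroup V
  L : AddSubgroup V
  hML : ∀ v : V, M • v ∈ L
  hint : ∀ v ∈ L, ∀ v' ∈ D, (M : ℤ) ∣ ip v (l * v')
  hdual : ∀ w : V, (∀ v ∈ L, (M : ℤ) ∣ ip v w) → ∃ v' ∈ D, w = l * v'

namespace Lb

variable (A : Lb)

instance : NeZero A.M := ⟨A.hM.ne'⟩

/-- the real weights -/
noncomputable def t : W :=
  (((A.l.1.1 : ℝ) / A.M, (A.l.1.2 : ℝ) / A.M), ((A.l.2.1 : ℝ) / A.M, (A.l.2.2 : ℝ) / A.M))

theorem M_pos : (0 : ℝ) < A.M := by exact_mod_cast A.hM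

theorem t_pos : Pos A.t := by
  have hM := A.M_pos
  obtain ⟨⟨h1, h2⟩, h3, h4⟩ := A.hl
  refine ⟨⟨?_, ?_⟩, ?_, ?_⟩
  · exact div_pos (by exact_mod_cast h1) hM
  · exact div_pos (by exact_mod_cast h2) hM
  · exact div_pos (by exact_mod_cast h3) hM
  · exact div_pos (by exact_mod_cast h4) hM

theorem TT_eq (v : V) : TT A.t v = ip v (A.l * v) / A.M := by
  have hM := A.M_pos.ne'
  unfold TT t ip
  simp only [Prod.fst_mul, Prod.snd_mul]
  push_cast
  field_simp

theorem TT_dw (v : V) : TT (dw A.M A.t) (A.l * v) = TT A.t v := by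
  have hM := A.M_pos.ne'
  obtain ⟨⟨h1, h2⟩, h3, h4⟩ := A.hl
  have k1 : (A.l.1.1 : ℝ) ≠ 0 := by exact_mod_cast h1.ne'
  have k2 : (A.l.1.2 : ℝ) ≠ 0 := by exact_mod_cast h2.ne'
  have k3 : (A.l.2.1 : ℝ) ≠ 0 := by exact_mod_cast h3.ne'
  have k4 : (A.l.2.2 : ℝ) ≠ 0 := by exact_mod_cast h4.ne'
  unfold TT dw t
  simp only [Prod.fst_mul, Prod.snd_mul]
  push_cast
  field_simp

theorem gg_dw (τ : ℂ) (v : V) : gg τ (dw A.M A.t) (A.l * v) = gg τ A.t v := by
  unfold gg
  rw [A.TT_dw]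

theorem l_inj : Function.Injective fun v : V => A.l * v := by
  intro v w h
  obtain ⟨⟨h1, h2⟩, h3, h4⟩ := A.hl
  have e1 : A.l.1.1 * v.1.1 = A.l.1.1 * w.1.1 := congrArg (fun x : V => x.1.1) h
  have e2 : A.l.1.2 * v.1.2 = A.l.1.2 * w.1.2 := congrArg (fun x : V => x.1.2) h
  have e3 : A.l.2.1 * v.2.1 = A.l.2.1 * w.2.1 := congrArg (fun x : V => x.2.1) h
  have e4 : A.l.2.2 * v.2.2 = A.l.2.2 * w.2.2 := congrArg (fun x : V => x.2.2) h
  exact vext (mul_left_cancel₀ h1.ne' e1) (mul_left_cancel₀ h2.ne' e2)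
    (mul_left_cancel₀ h3.ne' e3) (mul_left_cancel₀ h4.ne' e4)

/-- the pairing of `c` and `v` -/
noncomputable def B (c v : V) : ℝ := ip c (A.l * v) / A.M

/-- number of residues of the small lattice -/
noncomputable def N0 : ℕ := (Finset.univ.filter fun x : Z4 A.M => rep x ∈ A.L).card

theorem N0_pos : 0 < A.N0 := by
  unfold N0
  rw [Finset.card_pos]
  refine ⟨0, ?_⟩
  rw [Finset.mem_filter]
  refine ⟨Finset.mem_univ _, ?_⟩
  have : rep (0 : Z4 A.M) = 0 := by simp [rep]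
  rw [this]
  exact A.L.zero_mem

/-- the constant in the inversion formula -/
noncomputable def C : ℝ := cst A.M A.t * A.N0

theorem C_pos : 0 < A.C := by
  have h := A.N0_pos
  have : (0 : ℝ) < A.N0 := by exact_mod_cast h
  exact mul_pos (cst_pos A.hM A.t_pos) this

/-- the theta series of the coset `c + L` -/
noncomputable def thc (c : V) (τ : ℂ) : ℂ := ∑' v : V, ind A.L (v - c) * gg τ A.t v

/-- character sum over the residues of a coset -/
theorem char_sum (c w : V) :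
    ∑ x : Z4 A.M, ind A.L (rep x - c) * ex (ip (rep x) w / A.M) =
      ex (ip c w / A.M) * if (∀ v ∈ A.L, (A.M : ℤ) ∣ ip v w) then (A.N0 : ℂ) else 0 := by
  have hM' := A.M_pos.ne'
  have h1 := orth A.L A.hML w
  unfold N0
  rw [← h1, Finset.mul_sum]
  set φ : V → ℂ := fun v => ind A.L (v - c) * ex (ip v w / A.M) with hφ
  have hper : Per A.M φ := by
    intro v k
    simp only [hφ]
    have h1 : v + A.M • k - c ∈ A.L ↔ v - c ∈ A.L := by
      rw [show v + A.M • k - c = (v - c) + A.M • k by abel]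
      exact A.L.add_mem_cancel_right (A.hML k)
    have h2 : ex (ip (v + A.M • k) w / A.M) = ex (ip v w / A.M) := by
      rw [ip_add_left, ip_smul_left]
      have : (((ip v w + A.M * ip k w : ℤ)) : ℝ) / A.M = (ip v w : ℝ) / A.M + ((ip k w : ℤ) : ℝ) := by
        push_cast; field_simp
      rw [this, ex_add, ex_int, mul_one]
    rw [h2]
    unfold ind
    simp only [h1]
  have h3 := hper.sum_add c
  show ∑ x : Z4 A.M, φ (rep x) = _
  rw [← h3]
  refine Finset.sum_congr rfl fun x _ => ?_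
  simp only [hφ, add_sub_cancel_right]
  have h2 : ex (ip (rep x + c) w / A.M) = ex (ip c w / A.M) * ex (ip (rep x) w / A.M) := by
    rw [ip_add_left, ← ex_add]
    congr 1
    push_cast
    ring
  rw [h2]
  unfold ind
  ring

/-- the condition on the dual side -/
theorem dual_iff (v : V) : (∀ u ∈ A.L, (A.M : ℤ) ∣ ip u (A.l * v)) ↔ v ∈ A.D := by
  constructor
  · intro h
    obtain ⟨v', hv', e⟩ := A.hdual _ h
    have := A.l_inj e
    rwa [this]
  · intro h u hu
    exact A.hint u hu v h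

/-- **inversion** for a coset -/
theorem thc_inv (c : V) {τ : ℂ} (hτ : 0 < τ.im) :
    A.thc c (-1 / τ) = -τ ^ 2 * A.C * ∑' v : V, ind A.D v * (ex (A.B c v) * gg τ A.t v) := by
  have hτ' := im_neg hτ
  have hper : Per A.M fun v => ind A.L (v - c) := by
    intro v k
    have h1 : v + A.M • k - c ∈ A.L ↔ v - c ∈ A.L := by
      rw [show v + A.M • k - c = (v - c) + A.M • k by abel]
      exact A.L.add_mem_cancel_right (A.hML k)
    unfold ind
    simp only [h1]
  unfold thc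
  rw [hper.tsum (summ hτ' (fun v => norm_ind_le _ _) A.t_pos)]
  simp only [poisson4 hτ A.t_pos A.hM]
  have hS : ∀ r : V, Summable fun w : V => ex (ip r w / A.M) * gg τ (dw A.M A.t) w := fun r =>
    summ hτ (fun v => (norm_ex _).le) (dw_pos A.hM A.t_pos)
  have e1 : ∑ x : Z4 A.M, ind A.L (rep x - c) * (-τ ^ 2 * (cst A.M A.t : ℝ) *
      ∑' w : V, ex (ip (rep x) w / A.M) * gg τ (dw A.M A.t) w) =
      -τ ^ 2 * (cst A.M A.t : ℝ) * ∑' w : V, (∑ x : Z4 A.M, ind A.L (rep x - c) *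
        ex (ip (rep x) w / A.M)) * gg τ (dw A.M A.t) w := by
    have e2 : ∑' w : V, (∑ x : Z4 A.M, ind A.L (rep x - c) *
        ex (ip (rep x) w / A.M)) * gg τ (dw A.M A.t) w =
        ∑ x : Z4 A.M, ∑' w : V, ind A.L (rep x - c) *
          (ex (ip (rep x) w / A.M) * gg τ (dw A.M A.t) w) := by
      rw [← Summable.tsum_finsetSum fun x _ => (hS (rep x)).mul_left _]
      refine tsum_congr fun w => ?_
      rw [Finset.sum_mul]
      exact Finset.sum_congr rfl fun x _ => by ring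
    rw [e2, Finset.mul_sum]
    refine Finset.sum_congr rfl fun x _ => ?_
    rw [tsum_mul_left]
    ring
  rw [e1]
  simp only [A.char_sum]
  have e3 : ∑' w : V, ex (ip c w / A.M) * (if (∀ v ∈ A.L, (A.M : ℤ) ∣ ip v w) then (A.N0 : ℂ)
      else 0) * gg τ (dw A.M A.t) w =
      A.N0 * ∑' v : V, ind A.D v * (ex (A.B c v) * gg τ A.t v) := by
    rw [← A.l_inj.tsum_eq (f := fun w : V => ex (ip c w / A.M) *
      (if (∀ v ∈ A.L, (A.M : ℤ) ∣ ip v w) then (A.N0 : ℂ) else 0) * gg τ (dw A.M A.t) w),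
      ← tsum_mul_left]
    · refine tsum_congr fun v => ?_
      simp only [A.gg_dw, A.dual_iff, ind, B]
      split_ifs <;> ring
    · intro w hw
      rw [Function.mem_support] at hw
      by_cases h : ∀ v ∈ A.L, (A.M : ℤ) ∣ ip v w
      · obtain ⟨v', -, e⟩ := A.hdual w h
        exact ⟨v', e.symm⟩
      · exfalso
        apply hw
        rw [if_neg h]
        ring
  rw [e3]
  unfold C
  push_cast
  ring

end Lb

/-- rows modulo the primes -/
abbrev Row {ι : Type} (P : ι → ℕ) := ∀ i, ZMod (P i) × ZMod (P i)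

/-- the right action on the rows -/
def ract {ι : Type} {P : ι → ℕ} (v : Row P) (g : SL(2, ℤ)) : Row P := fun i =>
  ((v i).1 * ((g 0 0 : ℤ) : ZMod (P i)) + (v i).2 * ((g 1 0 : ℤ) : ZMod (P i)),
    (v i).1 * ((g 0 1 : ℤ) : ZMod (P i)) + (v i).2 * ((g 1 1 : ℤ) : ZMod (P i)))

section rows

variable {ι : Type} {P : ι → ℕ}

theorem ract_mul (v : Row P) (g h : SL(2, ℤ)) : ract v (g * h) = ract (ract v g) h := by
  funext i
  unfold ract
  simp only [Matrix.SpecialLinearGroup.coe_mul, Matrix.mul_apply, Fin.sum_univ_two]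
  push_cast
  refine Prod.ext ?_ ?_ <;> simp only <;> ring

theorem ract_one (v : Row P) : ract v 1 = v := by
  funext i
  simp [ract]

theorem ract_ne {v : Row P} {i : ι} (h : v i ≠ 0) (g : SL(2, ℤ)) : ract v g i ≠ 0 := by
  intro h1
  apply h
  have e := congrFun (ract_mul v g g⁻¹) i
  rw [mul_inv_cancel, ract_one] at e
  rw [e]
  unfold ract at h1 ⊢
  simp only at h1 ⊢
  rw [Prod.mk_eq_zero] at h1
  rw [h1.1, h1.2]
  simp

theorem ract_S (v : Row P) : ract v ModularGroup.S = fun i => ((v i).2, -(v i).1) := by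
  funext i
  simp [ract, ModularGroup.coe_S]

theorem ract_T (v : Row P) : ract v ModularGroup.T = fun i => ((v i).1, (v i).1 + (v i).2) := by
  funext i
  simp [ract, ModularGroup.coe_T]

end rows

/-- a lattice with its discriminant form -/
structure WD {ι : Type} [Fintype ι] (P : ι → ℕ) [∀ i, Fact (P i).Prime] extends Lb where
  hP : ∀ i, P i ≠ 2
  pr : V →+ Row P
  hLD : L ≤ D
  hker : ∀ v ∈ D, v ∈ L ↔ pr v = 0
  hsurj : ∀ ν, ∃ v ∈ D, pr v = ν
  al : ∀ i, ZMod (P i)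
  be : ∀ i, ZMod (P i)
  hal : ∀ i, al i ≠ 0
  hbe : ∀ i, be i ≠ 0
  hQ : ∀ v ∈ D, ex (ip v (l * v) / (2 * M)) = ∏ i, psi (P i) (Qp (al i) (be i) (pr v i))
  hgam : ∏ i, gam (al i) (be i) = -1

namespace WD

variable {ι : Type} [Fintype ι] {P : ι → ℕ} [∀ i, Fact (P i).Prime] (A : WD P)

/-- the theta series with weights -/
noncomputable def th (φ : Row P → ℂ) (τ : ℂ) : ℂ :=
  ∑' v : V, ind A.D v * φ (A.pr v) * gg τ A.t v

theorem summ_th (φ : Row P → ℂ) {τ : ℂ} (hτ : 0 < τ.im) :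
    Summable fun v : V => ind A.D v * φ (A.pr v) * gg τ A.t v := by
  refine Summable.of_norm_bounded
    ((summable_norm_gg' hτ A.t_pos).mul_left (∑ ν, ‖φ ν‖)) fun v => ?_
  rw [norm_mul, norm_mul]
  refine mul_le_mul_of_nonneg_right ?_ (norm_nonneg _)
  calc ‖ind A.D v‖ * ‖φ (A.pr v)‖ ≤ 1 * ‖φ (A.pr v)‖ :=
        mul_le_mul_of_nonneg_right (norm_ind_le _ _) (norm_nonneg _)
    _ = ‖φ (A.pr v)‖ := one_mul _
    _ ≤ _ := Finset.single_le_sum (f := fun ν => ‖φ ν‖) (fun _ _ => norm_nonneg _)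
        (Finset.mem_univ _)

theorem th_sum {κ : Type*} (s : Finset κ) (φ : κ → Row P → ℂ) {τ : ℂ} (hτ : 0 < τ.im) :
    ∑ k ∈ s, A.th (φ k) τ = A.th (fun ν => ∑ k ∈ s, φ k ν) τ := by
  unfold th
  rw [← Summable.tsum_finsetSum fun k _ => A.summ_th (φ k) hτ]
  refine tsum_congr fun v => ?_
  rw [Finset.mul_sum, Finset.sum_mul]

theorem th_smul (c : ℂ) (φ : Row P → ℂ) (τ : ℂ) :
    A.th (fun ν => c * φ ν) τ = c * A.th φ τ := by
  unfold th
  rw [← tsum_mul_left]
  exact tsum_congr fun v => by ring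

theorem exB {c v : V} (hc : c ∈ A.D) (hv : v ∈ A.D) :
    ex (A.B c v) = ∏ i, psi (P i) (Bp (A.al i) (A.be i) (A.pr c i) (A.pr v i)) := by
  have hM := A.M_pos.ne'
  have h1 := A.hQ _ (A.D.add_mem hc hv)
  have h2 := A.hQ _ hc
  have h3 := A.hQ _ hv
  have h4 : ip (c + v) (A.l * (c + v)) = ip c (A.l * c) + ip v (A.l * v) + 2 * ip c (A.l * v) := by
    rw [mul_add, ip_add_left, ip_add_right, ip_add_right, ip_comm_l A.l v c]; ring
  have h5 : (ip (c + v) (A.l * (c + v)) / (2 * A.M) : ℝ) =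
      ip c (A.l * c) / (2 * A.M) + ip v (A.l * v) / (2 * A.M) + A.B c v := by
    rw [h4]
    unfold Lb.B
    push_cast
    field_simp
  rw [h5, ex_add, ex_add, h2, h3] at h1
  simp only [map_add, Pi.add_apply, Qp_add, AddChar.map_add_eq_mul, Finset.prod_mul_distrib] at h1
  have h6 : (∏ i, psi (P i) (Qp (A.al i) (A.be i) (A.pr c i))) *
      ∏ i, psi (P i) (Qp (A.al i) (A.be i) (A.pr v i)) ≠ 0 := by
    rw [← h2, ← h3, ← norm_ne_zero_iff, norm_mul, norm_ex, norm_ex]
    norm_num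
  exact mul_left_cancel₀ h6 h1

theorem th_T (φ : Row P → ℂ) (τ : ℂ) : A.th φ (τ + 1) =
    A.th (fun ν => φ ν * ∏ i, psi (P i) (Qp (A.al i) (A.be i) (ν i))) τ := by
  have hM : (A.M : ℂ) ≠ 0 := by exact_mod_cast A.hM.ne'
  unfold th
  refine tsum_congr fun v => ?_
  by_cases hv : v ∈ A.D
  · beta_reduce
    rw [← A.hQ v hv]
    have : gg (τ + 1) A.t v = ex (ip v (A.l * v) / (2 * A.M)) * gg τ A.t v := by
      unfold gg ex
      rw [← Complex.exp_add, A.TT_eq]
      congr 1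
      push_cast
      field_simp
      ring
    rw [this]
    ring
  · simp only [ind, if_neg hv, zero_mul]

theorem th_S (φ : Row P → ℂ) {τ : ℂ} (hτ : 0 < τ.im) : A.th φ (-1 / τ) = -τ ^ 2 * A.C *
    A.th (fun μ => ∑ ν, φ ν * ∏ i, psi (P i) (Bp (A.al i) (A.be i) (ν i) (μ i))) τ := by
  have hτ' := im_neg hτ
  choose c hcD hc using A.hsurj
  have hS : ∀ c : V, Summable fun v : V => ind A.L (v - c) * gg (-1 / τ) A.t v := fun c =>
    summ hτ' (fun v => norm_ind_le _ _) A.t_pos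
  have e1 : A.th φ (-1 / τ) = ∑ ν, φ ν * A.thc (c ν) (-1 / τ) := by
    unfold th Lb.thc
    simp only [← tsum_mul_left]
    rw [← Summable.tsum_finsetSum fun ν _ => (hS (c ν)).mul_left _]
    refine tsum_congr fun v => ?_
    simp only [← mul_assoc]
    rw [← Finset.sum_mul]
    congr 1
    by_cases hv : v ∈ A.D
    · rw [Finset.sum_eq_single (A.pr v)]
      · have : v - c (A.pr v) ∈ A.L := by
          rw [A.hker _ (A.D.sub_mem hv (hcD _)), map_sub, hc, sub_self]
        simp only [ind, if_pos hv, if_pos this, one_mul, mul_one]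
      · intro ν _ hν
        have : v - c ν ∉ A.L := by
          rw [A.hker _ (A.D.sub_mem hv (hcD _)), map_sub, hc, sub_eq_zero]
          exact fun h => hν h.symm
        simp only [ind, if_neg this, mul_zero]
      · intro h; exact absurd (Finset.mem_univ _) h
    · rw [Finset.sum_eq_zero]
      · simp only [ind, if_neg hv, zero_mul]
      · intro ν _
        have : v - c ν ∉ A.L := by
          intro h
          apply hv
          have := A.D.add_mem (A.hLD h) (hcD ν)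
          rwa [sub_add_cancel] at this
        simp only [ind, if_neg this, mul_zero]
  rw [e1, ← A.th_sum _ _ hτ, Finset.mul_sum]
  refine Finset.sum_congr rfl fun ν _ => ?_
  rw [A.thc_inv _ hτ, A.th_smul]
  have : ∑' v : V, ind A.D v * (ex (A.B (c ν) v) * gg τ A.t v) =
      A.th (fun μ => ∏ i, psi (P i) (Bp (A.al i) (A.be i) (ν i) (μ i))) τ := by
    unfold th
    refine tsum_congr fun v => ?_
    by_cases hv : v ∈ A.D
    · rw [A.exB (hcD ν) hv, hc, mul_assoc]
    · simp only [ind, if_neg hv, zero_mul]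
  rw [this]
  ring

/-- the family of theta series indexed by the rows -/
noncomputable def Ps (v : Row P) (τ : ℂ) : ℂ :=
  A.th (fun ν => ∏ i, ph (A.al i) (A.be i) (v i) (ν i)) τ

theorem Ps_T (v : Row P) (τ : ℂ) : A.Ps v (τ + 1) = A.Ps (ract v ModularGroup.T) τ := by
  unfold Ps
  rw [A.th_T, ract_T]
  congr 1
  funext ν
  rw [← Finset.prod_mul_distrib]
  exact Finset.prod_congr rfl fun i _ => ph_T _ _ _ _

theorem Ps_S' {v : Row P} (hv : ∀ i, v i ≠ 0) {τ : ℂ} (hτ : 0 < τ.im) :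
    A.Ps v (-1 / τ) = τ ^ 2 * (A.C * ∏ i, (P i : ℝ) : ℝ) * A.Ps (ract v ModularGroup.S) τ := by
  unfold Ps
  rw [A.th_S _ hτ, ract_S]
  have : (fun μ : Row P => ∑ ν : Row P, (∏ i, ph (A.al i) (A.be i) (v i) (ν i)) *
      ∏ i, psi (P i) (Bp (A.al i) (A.be i) (ν i) (μ i))) =
      fun μ => (-∏ i, (P i : ℂ)) * ∏ i, ph (A.al i) (A.be i) ((v i).2, -(v i).1) (μ i) := by
    funext μ
    simp only [← Finset.prod_mul_distrib]
    rw [← Fintype.piFinset_univ, ← Finset.prod_univ_sum (fun _ => Finset.univ)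
      (fun i x => ph (A.al i) (A.be i) (v i) x * psi (P i) (Bp (A.al i) (A.be i) x (μ i)))]
    rw [Finset.prod_congr rfl fun i _ => ph_S (A.hP i) (A.hal i) (A.hbe i) (hv i) (μ i),
      Finset.prod_mul_distrib, Finset.prod_mul_distrib, A.hgam]
    ring
  rw [this, A.th_smul]
  push_cast
  ring

/-- the standard row -/
def e0 (P : ι → ℕ) : Row P := fun _ => (0, 1)

omit [Fintype ι] in
theorem e0_ne (i : ι) : e0 P i ≠ 0 := by
  intro h
  have := congrArg Prod.snd h
  exact one_ne_zero this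

theorem Ps_zero {v : Row P} (hv : ∀ i, (v i).1 = 0) (τ : ℂ) :
    A.Ps v τ = ∑' w : V, ind A.L w * gg τ A.t w := by
  unfold Ps th
  refine tsum_congr fun w => ?_
  congr 1
  simp only [ph, hv, if_true]
  by_cases hw : w ∈ A.D
  · by_cases h : w ∈ A.L
    · have := (A.hker w hw).mp h
      simp [ind, hw, h, this]
    · have h1 : A.pr w ≠ 0 := fun h' => h ((A.hker w hw).mpr h')
      obtain ⟨i, hi⟩ := Function.ne_iff.mp h1
      rw [Finset.prod_eq_zero (Finset.mem_univ i) (if_neg hi)]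
      simp [ind, h]
  · have h : w ∉ A.L := fun h => hw (A.hLD h)
    simp [ind, hw, h]

theorem thL_I : ∃ x : ℝ, 1 ≤ x ∧ ∑' w : V, ind A.L w * gg I A.t w = x := by
  have hI : (0 : ℝ) < I.im := by simp
  have e : ∀ v : V, ind A.L v * gg I A.t v =
      (((if v ∈ A.L then 1 else 0) * Real.exp (-(π * TT A.t v)) : ℝ) : ℂ) := by
    intro v
    rw [Lat.gg_I]
    unfold ind
    split_ifs <;> push_cast <;> ring
  refine ⟨∑' v : V, (if v ∈ A.L then 1 else 0) * Real.exp (-(π * TT A.t v)), ?_, ?_⟩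
  · have hs : Summable fun v : V => (if v ∈ A.L then (1 : ℝ) else 0) *
        Real.exp (-(π * TT A.t v)) := by
      have h1 := summable_norm_gg' hI A.t_pos
      refine Summable.of_nonneg_of_le (fun v => by split_ifs <;> positivity) (fun v => ?_) h1
      rw [Lat.gg_I, Complex.norm_real, Real.norm_of_nonneg (Real.exp_pos _).le]
      split_ifs
      · rw [one_mul]
      · rw [zero_mul]; positivity
    have h2 := hs.le_tsum (0 : V) (fun v _ => by split_ifs <;> positivity)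
    have h3 : (if (0 : V) ∈ A.L then (1 : ℝ) else 0) * Real.exp (-(π * TT A.t 0)) = 1 := by
      rw [if_pos A.L.zero_mem]
      simp [TT]
    rw [h3] at h2
    exact h2
  · rw [Complex.ofReal_tsum]
    exact tsum_congr e

theorem C_eq : A.C * ∏ i, (P i : ℝ) = 1 := by
  have hI : (0 : ℝ) < I.im := by simp
  obtain ⟨x, hx, hx'⟩ := A.thL_I
  have e : -1 / I = I := by
    rw [div_eq_iff I_ne_zero, I_mul_I]
  have h1 := A.Ps_S' (v := e0 P) e0_ne hI
  have h2 := A.Ps_S' (v := ract (e0 P) ModularGroup.S) (fun i => ract_ne (e0_ne i) _) hI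
  rw [e, I_sq] at h1 h2
  rw [h2, A.Ps_zero (v := e0 P) (fun i => rfl),
    A.Ps_zero (v := ract (ract (e0 P) ModularGroup.S) ModularGroup.S)
      (fun i => by simp [ract_S, e0]), hx'] at h1
  set y : ℝ := A.C * ∏ i, (P i : ℝ) with hy
  have h3 : (x : ℂ) = ((y ^ 2 * x : ℝ) : ℂ) := by
    push_cast
    linear_combination h1
  have h4 : x = y ^ 2 * x := by exact_mod_cast h3
  have h5 : y ^ 2 = 1 := by
    have hx0 : x ≠ 0 := by linarith
    apply mul_right_cancel₀ hx0
    linarith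
  have h6 : 0 ≤ y := mul_nonneg A.C_pos.le (Finset.prod_nonneg fun i _ => Nat.cast_nonneg _)
  nlinarith

theorem Ps_S {v : Row P} (hv : ∀ i, v i ≠ 0) {τ : ℂ} (hτ : 0 < τ.im) :
    A.Ps v (-1 / τ) = τ ^ 2 * A.Ps (ract v ModularGroup.S) τ := by
  rw [A.Ps_S' hv hτ, A.C_eq]
  simp

theorem Ps_slash (g : SL(2, ℤ)) : ∀ v : Row P, (∀ i, v i ≠ 0) →
    (fun z : ℍ => A.Ps v z) ∣[(2 : ℤ)] g = fun z : ℍ => A.Ps (ract v g) z := by
  have hg : g ∈ Subgroup.closure {ModularGroup.S, ModularGroup.T} := by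
    rw [SpecialLinearGroup.SL2Z_generators]; trivial
  induction hg using Subgroup.closure_induction with
  | mem x hx =>
    intro v h
    rcases hx with rfl | hx
    · ext z
      have hz0 : (z : ℂ) ≠ 0 := z.ne_zero
      rw [Lat.slash_S, Lat.coe_S_smul, A.Ps_S h z.im_pos]
      field_simp
    · rw [Set.mem_singleton_iff] at hx
      ext z
      rw [hx, Lat.slash_T, Lat.coe_T_smul, A.Ps_T]
  | one =>
    intro v h
    rw [SlashAction.slash_one, ract_one]
  | mul x y _ _ hx hy =>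
    intro v h
    rw [SlashAction.slash_mul, hx v h, hy _ (fun i => ract_ne (h i) x), ract_mul]
  | inv x _ hx =>
    intro v h
    have := hx _ (fun i => ract_ne (h i) x⁻¹)
    rw [← ract_mul, inv_mul_cancel, ract_one] at this
    rw [← this, ← SlashAction.slash_mul, mul_inv_cancel, SlashAction.slash_one]

/-- **the transformation law** -/
theorem Ps_mob {v : Row P} (hv : ∀ i, v i ≠ 0) (g : SL(2, ℤ)) (z : ℍ) :
    A.Ps v ((g • z : ℍ) : ℂ) = denom g z ^ 2 * A.Ps (ract v g) z := by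
  have h := congrFun (A.Ps_slash g v hv) z
  have hd : denom g z ≠ 0 := denom_ne_zero _ _
  rw [SL_slash_apply] at h
  rw [← h]
  rw [zpow_neg, zpow_ofNat]
  field_simp

theorem Ps_bdd : ∃ C : ℝ, ∀ (v : Row P) (τ : ℂ), 1 / 2 ≤ τ.im → ‖A.Ps v τ‖ ≤ C := by
  have hI : (0 : ℝ) < (I / 2 : ℂ).im := by simp
  refine ⟨∑' w : V, ‖gg (I / 2) A.t w‖, fun v τ hτ => ?_⟩
  refine tsum_of_norm_bounded (summable_norm_gg' hI A.t_pos).hasSum fun w => ?_
  rw [norm_mul, norm_mul]
  have h1 : ‖gg τ A.t w‖ ≤ ‖gg (I / 2) A.t w‖ := Lat.norm_gg_le A.t_pos (by simpa using hτ) w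
  have h2 : ‖∏ i, ph (A.al i) (A.be i) (v i) (A.pr w i)‖ ≤ 1 := by
    rw [norm_prod]
    exact Finset.prod_le_one (fun i _ => norm_nonneg _) fun i _ => norm_ph_le _ _ _ _
  have h3 := norm_ind_le A.D w
  calc _ ≤ 1 * 1 * ‖gg (I / 2) A.t w‖ := by gcongr
    _ = _ := by ring

/-- the sum over a product of sets of rows -/
theorem Ps_sum [DecidableEq ι] (s : ∀ i, Finset (ZMod (P i) × ZMod (P i))) {τ : ℂ} (hτ : 0 < τ.im) :
    ∑ v ∈ Fintype.piFinset s, A.Ps v τ =
      A.th (fun ν => ∏ i, ∑ x ∈ s i, ph (A.al i) (A.be i) x (ν i)) τ := by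
  unfold Ps
  rw [A.th_sum _ _ hτ]
  congr 1
  funext ν
  rw [Finset.prod_univ_sum]

end WD

end Vale.Agent.P014A
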